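import Vale.Agent.P354YQ.Ext
import Vale.Agent.P354XV.Loc
import Vale.Agent.P354YI.Met

/-!
The gauge condition as an ordinary differential equation.
-/

set_option maxSynthPendingDepth 3

open scoped ContDiff
open Set Filter Topology

noncomputable section

namespace Vale.Agent.P354YQ

open Vale.Agent.P354n (R4)
open Vale.Agent.P354R (Met Pull chr)
open Vale.Agent.P354RC (Gm Rp B2 bs)
open Vale.Agent.P354XD (tb rp_tb)
open Vale.Agent.P354XE (Tw eT pb)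
open Vale.Agent.P354XV (jet Gq Eq2 Lv gq_iff jet_cd)
open Vale.Agent.P354YI (GM GM_ap GM_eq cL el)

/-- The equation for the map b and its velocity w along the field f eT. -/
def vg (N : P354XV.Nat) (π : R4 → R4) (f : R4 → ℝ) (g : Tw) (q : R4 × R4 × R4) : R4 × R4 :=
  (f q.1)⁻¹ • (q.2.2, N.F (π q.1, jet N.m g q.2.1, q.2.2) - GM (tb g) q.2.1 q.2.2 q.2.2)

/-- The domain of the equation. -/
def Ug (N : P354XV.Nat) (π : R4 → R4) (O : Set R4) (g : Tw) (D : Set R4) : Set (R4 × R4 × R4) :=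
  {q | q.1 ∈ O ∧ q.2.1 ∈ D ∧ (π q.1, jet N.m g q.2.1, q.2.2) ∈ N.U}

variable {N : P354XV.Nat} {π b : R4 → R4} {f : R4 → ℝ} {g g' : Tw} {O D W : Set R4} {z p : R4}
  {Φ : R4 → R4 × R4}

theorem gm_cd {h : R4 → B2} (r : Rp g h D) : ContDiffOn ℝ ∞ (GM h) D := fun y hy =>
  (ContDiffAt.sum fun a _ => ContDiffAt.sum fun b _ => (el R4 a b).contDiff.contDiffAt.comp y
    (r.gm_cd hy contDiffAt_const contDiffAt_const)).contDiffWithinAt

theorem arg_cd (hO : IsOpen O) (hπ : ContDiffOn ℝ ∞ π O) (hD : IsOpen D) (m : Met g D) (k : ℕ)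
    {q : R4 × R4 × R4} (h1 : q.1 ∈ O) (h2 : q.2.1 ∈ D) :
    ContDiffAt ℝ ∞ (fun q : R4 × R4 × R4 => (π q.1, jet k g q.2.1, q.2.2)) q :=
  ((hπ.contDiffAt (hO.mem_nhds h1)).comp q contDiffAt_fst).prodMk
    ((((jet_cd k hD m).contDiffAt (hD.mem_nhds h2)).comp q contDiffAt_snd.fst).prodMk
      contDiffAt_snd.snd)

theorem ug_open (hN : N.Is) (hO : IsOpen O) (hπ : ContDiffOn ℝ ∞ π O) (hD : IsOpen D)
    (m : Met g D) : IsOpen (Ug N π O g D) := isOpen_iff_mem_nhds.2 fun _ h =>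
  (continuousAt_fst.eventually (hO.eventually_mem h.1)).and
    ((continuousAt_snd.fst.eventually (hD.eventually_mem h.2.1)).and
      ((arg_cd hO hπ hD m _ h.1 h.2.1).continuousAt.eventually (hN.opn.eventually_mem h.2.2)))

theorem vg_cd (hN : N.Is) (hO : IsOpen O) (hπ : ContDiffOn ℝ ∞ π O) (hf : ContDiffOn ℝ ∞ f O)
    (f0 : ∀ z ∈ O, f z ≠ 0) (hD : IsOpen D) (m : Met g D) :
    ContDiffOn ℝ ∞ (vg N π f g) (Ug N π O g D) := fun q h => by
  have a : ContDiffAt ℝ ∞ (fun q : R4 × R4 × R4 => (f q.1)⁻¹) q :=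
    ((hf.contDiffAt (hO.mem_nhds h.1)).comp q contDiffAt_fst).inv (f0 _ h.1)
  have c : ContDiffAt ℝ ∞ (fun q : R4 × R4 × R4 => N.F (π q.1, jet N.m g q.2.1, q.2.2)) q :=
    (hN.sm.contDiffAt (hN.opn.mem_nhds h.2.2)).comp q (arg_cd hO hπ hD m _ h.1 h.2.1)
  have d : ContDiffAt ℝ ∞ (fun q : R4 × R4 × R4 => GM (tb g) q.2.1) q :=
    ContDiffAt.comp (g := GM (tb g)) q ((gm_cd (rp_tb hD m)).contDiffAt (hD.mem_nhds h.2.1))
      contDiffAt_snd.fst
  exact (a.smul (contDiffAt_snd.snd.prodMk (c.sub ((d.clm_apply contDiffAt_snd.snd).clm_apply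
    contDiffAt_snd.snd)))).contDiffWithinAt

theorem eq2_iff (hD : IsOpen D) (m : Met g D) {Y w : R4 → R4} (h : b z ∈ D) :
    Eq2 N p g Y b w z ↔ (p, jet N.m g (b z), w z) ∈ N.U ∧ fderiv ℝ w z (Y z) =
      N.F (p, jet N.m g (b z), w z) - GM (tb g) (b z) (w z) (w z) := by
  have r := rp_tb hD m
  refine and_congr_right fun _ => ?_
  simp only [r.eq _ h, r.chr h, ← r.gm h, GM_ap, eq_sub_iff_add_eq]
  exact ⟨fun k => r.ext h fun c => by rw [← k, map_add]; rfl, fun k c => by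
    rw [← k, map_add]; rfl⟩

theorem Sol.vel (h : Sol eT (vg N π f g) Φ z) (f0 : ∀ᶠ x in 𝓝 z, f x ≠ 0) :
    (fun x => fderiv ℝ (fun x => (Φ x).1) x (f x • eT)) =ᶠ[𝓝 z] fun x => (Φ x).2 := by
  filter_upwards [h.sm.ev, h.ode, f0] with x a c d
  rw [fderiv.fst a.diff, ContinuousLinearMap.comp_apply, map_smul, c]
  simp [vg, d]

theorem pull_of (hW : IsOpen W) (hD : IsOpen D) (m : Met g D) (s : ∀ z ∈ W, SA b z ∧ b z ∈ D ∧
    LinearMap.det (fderiv ℝ b z : R4 →ₗ[ℝ] R4) ≠ 0) : Pull b (pb b g) W g D :=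
  ⟨hW, hD, m, fun z a => (s z a).1.at.contDiffWithinAt, fun z a => (s z a).2.1,
    fun z a => (LinearMap.equivOfDetNeZero _ (s z a).2.2).injective, fun _ _ _ _ => rfl⟩

/-- **A solution of the equation puts the metric into the gauge.** -/
theorem rg_gq (hN : N.Is) (l : Lv g D) (P : Pull (fun x => (Φ x).1) g' W g D) (hz : z ∈ W)
    (hd : 0 < LinearMap.det (fderiv ℝ (fun x => (Φ x).1) z : R4 →ₗ[ℝ] R4))
    (hf : DifferentiableAt ℝ f z) (f0 : f z ≠ 0) (h : Sol eT (vg N π f g) Φ z)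
    (hU : (π z, jet N.m g (Φ z).1, (Φ z).2) ∈ N.U) : Gq N (π z) g' (fun x => f x • eT) z := by
  have e := h.vel (hf.continuousAt.eventually_ne f0)
  rw [gq_iff hN P l hz hd (hf.smul_const _), eq2_iff l.isOpen l.met (P.maps hz), e.fderiv_eq,
    e.eq_of_nhds, fderiv.snd h.sm.diff, ContinuousLinearMap.comp_apply, map_smul,
    h.ode.self_of_nhds]
  exact ⟨hU, by simp [vg, f0]⟩

/-- **An isometry from a metric in the gauge solves the equation.** -/
theorem rg_sol (hN : N.Is) (l : Lv g D) (P : Pull b g' W g D) (hf : ContDiffOn ℝ ∞ f W)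
    (h : ∀ z ∈ W, f z ≠ 0 ∧ 0 < LinearMap.det (fderiv ℝ b z : R4 →ₗ[ℝ] R4) ∧
      Gq N (π z) g' (fun x => f x • eT) z) (hz : z ∈ W) :
    Sol eT (vg N π f g) (fun x => (b x, fderiv ℝ b x (f x • eT))) z ∧
      (z, b z, fderiv ℝ b z (f z • eT)) ∈ Ug N π W g D := by
  have s : ∀ z ∈ W, SA b z ∧ SA f z ∧ SA (fun x => fderiv ℝ b x (f x • eT)) z := fun z m => by
    have a := SA.of_on P.smooth P.open' m
    have c := SA.of_on hf P.open' m
    exact ⟨a, c, (a.fderiv.and c).mono fun _ i => i.1.clm_apply (i.2.smul contDiffAt_const)⟩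
  have k := fun z m => (eq2_iff l.isOpen l.met (P.maps m)).1
    ((gq_iff hN P l m (h z m).2.1 ((s z m).2.1.diff.smul_const _)).1 (h z m).2.2)
  refine ⟨⟨(s z hz).1.prod (s z hz).2.2, (P.open'.eventually_mem hz).mono fun x m => ?_⟩,
    hz, P.maps hz, (k z hz).1⟩
  rw [(s x m).1.diff.fderiv_prodMk (s x m).2.2.diff, vg, ← (k x m).2]
  simp [(h x m).1]

end Vale.Agent.P354YQ
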