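import Vale.Agent.P354YQ.Ext
import Vale.Agent.P354YI.Jet

/-!
Families of solutions with hidden uniform constants.
-/

open Set Filter Topology
open scoped ContDiff

namespace Vale.Agent.P354YQ

open Vale.Agent.P354YI (Jb Oj Os)

variable {J X E : Type} [NormedAddCommGroup X] [NormedSpace ℝ X] [NormedAddCommGroup E]
  [NormedSpace ℝ E] {k : ℕ} {e : X} {τ : J → X → ℝ} {v v' : J → X × E → E} {f Φ Φ' : J → X → E}
  {z : J → X} {μ : J → ℝ} {S : J → Set (X × E)}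

theorem oj_jb (h : Oj k z f 1) (s : ∀ j, SA (f j) (z j)) : ∃ C, ∀ j, JB k (f j) (z j) C :=
  h.bd.imp fun _ c j => ⟨s j, by simpa [Jb] using c.2 j⟩

theorem oj_jd (h : Oj k z (fun j => fderiv ℝ (f j)) 1) (s : ∀ j, SA (f j) (z j)) :
    ∃ C, ∀ j, JD (k + 1) (f j) (z j) C :=
  (oj_jb h fun j => (s j).fderiv).imp fun _ c j => .of_fderiv (s j) (c j)

theorem os_jb (h : Os k S v 1) (s : ∀ j, ∀ q ∈ S j, SA (v j) q) :
    ∃ C, ∀ j, ∀ q ∈ S j, JB k (v j) q C :=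
  (oj_jb h fun i => s _ _ i.2).imp fun _ c j q m => c ⟨(j, q), m⟩

theorem sa_foot {τ : X → ℝ} {z : X} {s : ℝ} (h : SA τ z) : SA (pt e τ s) z :=
  h.mono fun _ m => contDiffAt_id.sub ((contDiffAt_const.mul m).smul contDiffAt_const)

/-- **Bounds for the jets.** -/
theorem oj_jet (hτs : ∀ j, SA (τ j) (z j)) (hτ : Oj (k + 1) z τ 1)
    (hs : ∀ j, ∀ s ∈ Icc (0 : ℝ) 1, Sol e (v j) (Φ j) (pt e (τ j) s (z j)) ∧
      (pt e (τ j) s (z j), Φ j (pt e (τ j) s (z j))) ∈ S j)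
    (hS : ∀ j, ∀ q ∈ S j, SA (v j) q) (hv : Os (k + 1) S v 1)
    (h0 : Oj k z (fun j => fderiv ℝ fun w => Φ j (pt e (τ j) 1 w)) 1) :
    Oj k z (fun j => fderiv ℝ (Φ j)) 1 := by
  obtain ⟨a, ha⟩ := oj_jb hτ hτs
  obtain ⟨b, hb⟩ := os_jb hv hS
  obtain ⟨c, hc⟩ := oj_jd h0 fun j => (hs j 1 ⟨zero_le_one, le_rfl⟩).1.sm.comp (sa_foot (hτs j))
  obtain ⟨F, -, hF⟩ := ode_jet (k + 1) (max (max ‖e‖ a) (max b c))
  have := fun j => (hF X E e _ _ _ _ (by simp) ((ha j).mono (by simp))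
    (fun s m => ⟨(hs j s m).1, (hb j _ (hs j s m).2).mono (by simp)⟩) ((hc j).mono (by simp))).fderiv
  exact .of1 (fun j => (this j).sm.at) fun j => (this j).le

/-- **Lipschitz dependence.** -/
theorem oj_lip (hτs : ∀ j, SA (τ j) (z j)) (hτ : Oj (k + 1) z τ 1)
    (hs : ∀ j, ∀ s ∈ Icc (0 : ℝ) 1, Sol e (v j) (Φ j) (pt e (τ j) s (z j)) ∧
      Sol e (v' j) (Φ' j) (pt e (τ j) s (z j)) ∧ ∀ x ∈ segment ℝ (Φ j (pt e (τ j) s (z j)))
        (Φ' j (pt e (τ j) s (z j))), (pt e (τ j) s (z j), x) ∈ S j)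
    (hS : ∀ j, ∀ q ∈ S j, SA (v j) q ∧ SA (v' j) q) (hv : Os (k + 2) S v 1) (hv' : Os (k + 1) S v' 1)
    (hd : Os (k + 1) S (fun j q => v j q - v' j q) μ)
    (h1 : Oj k z (fun j => fderiv ℝ fun w => Φ j (pt e (τ j) 1 w)) 1)
    (h2 : Oj k z (fun j => fderiv ℝ fun w => Φ' j (pt e (τ j) 1 w)) 1)
    (h0 : Oj (k + 1) z (fun j w => Φ j (pt e (τ j) 1 w) - Φ' j (pt e (τ j) 1 w)) μ) :
    Oj (k + 1) z (fun j w => Φ j w - Φ' j w) μ := by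
  have s1 := fun j => (hs j 1 ⟨zero_le_one, le_rfl⟩).1.sm.comp (sa_foot (hτs j))
  have s2 := fun j => (hs j 1 ⟨zero_le_one, le_rfl⟩).2.1.sm.comp (sa_foot (hτs j))
  obtain ⟨a, ha⟩ := oj_jb hτ hτs
  obtain ⟨b, hb⟩ := os_jb hv fun j q m => (hS j q m).1
  obtain ⟨b', hb'⟩ := os_jb hv' fun j q m => (hS j q m).2
  obtain ⟨c, hc⟩ := oj_jd h1 s1
  obtain ⟨c', hc'⟩ := oj_jd h2 s2
  obtain ⟨d, d0, hd⟩ := hd.bd
  obtain ⟨d', d0', h0'⟩ := h0.bd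
  obtain ⟨F, F0, hF⟩ := ode_lip (k + 1) (max (max ‖e‖ a) (max (max b b') (max c c')))
  have n := h0.nn
  have := fun j => hF X E e _ _ _ _ _ _ ((d + d') * μ j) (by simp) ((ha j).mono (by simp))
    (fun s m => by
      obtain ⟨p, q, r⟩ := hs j s m
      have r' := r _ (right_mem_segment ℝ _ _)
      exact ⟨p, q, fun x i => (hb j _ (r x i)).mono (by simp), (hb' j _ r').mono (by simp),
        (hS j _ r').1.sub (hS j _ r').2, (hd j _ r').mono le_rfl (by nlinarith [n j])⟩)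
    ((hc j).mono (by simp)) ((hc' j).mono (by simp))
    ⟨(s1 j).sub (s2 j), (h0' j).mono le_rfl (by nlinarith [n j])⟩
  exact ⟨fun j => (this j).sm.at, n, F * (d + d'), by positivity, fun j =>
    (mul_assoc F _ _).symm ▸ (this j).le⟩

/-- The tube around a family of curves. -/
def Tb (Ω : Set X) (Φ : X → E) (ρ : ℝ) : Set (X × E) := {q | q.1 ∈ Ω ∧ ‖q.2 - Φ q.1‖ ≤ ρ}

/-- **Perturbation of families of solutions**: existence and closeness. -/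
theorem oj_ex [FiniteDimensional ℝ X] [FiniteDimensional ℝ E] {Ω : J → Set X}
    {U : J → Set (X × E)} {x0 : J → X → E} {ρ : ℝ} (hρ : 0 < ρ)
    (hU : ∀ j, IsOpen (U j) ∧ ContDiffOn ℝ ∞ (v j) (U j) ∧ ContDiffOn ℝ ∞ (v' j) (U j) ∧
      IsOpen (Ω j) ∧ Tb (Ω j) (Φ j) ρ ⊆ U j ∧ ∀ z t, τ j (z + t • e) = τ j z + t)
    (h : ∀ j, ∀ z ∈ Ω j, SA (τ j) z ∧ Sol e (v j) (Φ j) z ∧ SA (x0 j) (pt e (τ j) 1 z) ∧
      ∀ s ∈ Icc (0 : ℝ) 1, pt e (τ j) s z ∈ Ω j)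
    (hτ : Os (k + 1) Ω τ 1) (hv : Os (k + 2) (fun j => Tb (Ω j) (Φ j) ρ) v 1)
    (hd : Os (k + 1) (fun j => Tb (Ω j) (Φ j) ρ) (fun j q => v j q - v' j q) μ)
    (h1 : Os k Ω (fun j => fderiv ℝ fun w => Φ j (pt e (τ j) 1 w)) 1)
    (h0 : Os (k + 1) Ω (fun j w => Φ j (pt e (τ j) 1 w) - x0 j (pt e (τ j) 1 w)) μ) :
    ∃ ε > 0, ∃ Ψ : J → X → E, (∀ j, μ j ≤ ε → ∀ z ∈ Ω j, Sol e (v' j) (Ψ j) z ∧
      (z, Ψ j z) ∈ Tb (Ω j) (Φ j) ρ ∧ (τ j z = 0 → Ψ j z = x0 j z)) ∧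
      Os (k + 1) (fun j : {j // μ j ≤ ε} => Ω j) (fun j w => Φ j w - Ψ j w) fun j => μ j := by
  obtain ⟨a, a0, ha⟩ := hτ.bd
  obtain ⟨b, b0, hb⟩ := hv.bd
  obtain ⟨c, c0, hc⟩ := hd.bd
  obtain ⟨d, d0, hd'⟩ := h0.bd
  simp only [Pi.one_apply, mul_one] at ha hb
  have sv := fun j q (m : q ∈ Tb (Ω j) (Φ j) ρ) => And.intro
    (SA.of_on (hU j).2.1 (hU j).1 ((hU j).2.2.2.2.1 m))
    (SA.of_on (hU j).2.2.1 (hU j).1 ((hU j).2.2.2.2.1 m))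
  let K := (d + c * a + 1) * Real.exp (b * a)
  have K0 : 0 < K := by positivity
  have ex : ∀ j, μ j ≤ min 1 (ρ / K) → ∃ Ψ, ∀ z ∈ Ω j, Sol e (v' j) Ψ z ∧
      (z, Ψ z) ∈ Tb (Ω j) (Φ j) ρ ∧ (τ j z = 0 → Ψ z = x0 j z) := fun j m => by
    have n : ∀ z ∈ Ω j, 0 ≤ μ j := fun z i => h0.nn ⟨(j, z), i⟩
    have l : ∀ z ∈ Ω j, (d * μ j + c * μ j * |τ j z|) * Real.exp (b * |τ j z|) < ρ := fun z i => by
      have := n z i
      have t : |τ j z| ≤ a := (ha j z i).zero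
      have m2 := (le_div_iff₀ K0).1 (m.trans (min_le_right _ _))
      rcases this.eq_or_lt with p | p
      · simpa [← p] using hρ
      refine lt_of_lt_of_le ?_ m2
      calc _ ≤ (d * μ j + c * μ j * a) * Real.exp (b * a) := by gcongr
        _ < _ := by
          simp only [K]
          nlinarith [mul_pos p (Real.exp_pos (b * a))]
    obtain ⟨Ψ, hΨ⟩ := ode_ex (hU j).1 (hU j).2.2.1 (hU j).2.2.2.1 (fun z i => (h j z i).1)
      (hU j).2.2.2.2.2 (fun z i => (h j z i).2.2.1) (R := Φ j) (L := fun _ => b)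
      (ε := fun _ => c * μ j) (δ := fun _ => d * μ j) (ρ := fun _ => ρ)
      (fun z i => ⟨b0, mul_nonneg c0 (n z i)⟩) (fun z i s m => by
        have p := (h j z i).2.2.2 s m
        refine ⟨(h j _ p).2.1.sm.diff, fun y r => ⟨(hU j).2.2.2.2.1 ⟨p, r⟩, ?_⟩⟩
        generalize pt e (τ j) s z = w at *
        have sg : ∀ q ∈ segment ℝ (w, Φ j w) (w, y), q ∈ Tb (Ω j) (Φ j) ρ := fun q i => by
          rw [← Prod.image_mk_segment_right] at i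
          obtain ⟨x, i, rfl⟩ := i
          exact ⟨p, mem_closedBall_iff_norm.1 ((convex_closedBall _ _).segment_subset
            (Metric.mem_closedBall_self hρ.le) (mem_closedBall_iff_norm.2 r) i)⟩
        have u := (convex_segment _ _).norm_image_sub_le_of_norm_fderiv_le (𝕜 := ℝ) (f := v j)
          (fun q i => (sv j q (sg q i)).1.diff) (fun q i => (hb j q (sg q i)).fd.zero)
          (left_mem_segment _ _ _) (right_mem_segment _ _ _)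
        rw [(h j _ p).2.1.ode.self_of_nhds, ← sub_sub_sub_cancel_left _ _ (v j (w, y))]
        rw [Prod.mk_sub_mk, sub_self, Prod.norm_mk, norm_zero, max_eq_right (norm_nonneg _)] at u
        exact norm_sub_le_of_le u (hc j _ ⟨p, r⟩).zero)
      (fun z i => norm_sub_rev (x0 j _) _ ▸ (hd' j z i).zero) l
    exact ⟨Ψ, fun z i => ⟨(hΨ z i).1, ⟨i, (hΨ z i).2.2.2.trans (l z i).le⟩, (hΨ z i).2.2.1⟩⟩
  choose! Ψ hΨ using ex
  refine ⟨min 1 (ρ / K), by positivity, Ψ, hΨ, ?_⟩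
  let I := {i : {j // μ j ≤ min 1 (ρ / K)} × X // i.2 ∈ Ω i.1}
  have m1 : ∀ i : I, μ i.1.1 ≤ 1 := fun i => i.1.1.2.trans (min_le_left _ _)
  have H := fun i : I => h _ _ i.2
  have G := fun (i : I) s m => hΨ _ i.1.1.2 _ ((H i).2.2.2 s m)
  have e0 : ∀ i : I, (fun w => Ψ i.1.1 (pt e (τ i.1.1) 1 w)) =ᶠ[𝓝 i.1.2] fun w =>
      x0 i.1.1 (pt e (τ i.1.1) 1 w) := fun i =>
    ((hU _).2.2.2.1.eventually_mem i.2).mono fun w m => (hΨ _ i.1.1.2 _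
      ((h _ w m).2.2.2 1 ⟨zero_le_one, le_rfl⟩)).2.2 (by rw [tau_pt (hU _).2.2.2.2.2]; simp)
  have k1 := h1.at (fun i : I => i.1.1.1) fun i => i.2
  have k0 := (h0.at (fun i : I => i.1.1.1) fun i => i.2).congr
    (g := fun i w => Φ i.1.1 (pt e (τ i.1.1) 1 w) - Ψ i.1.1 (pt e (τ i.1.1) 1 w))
    fun i => EventuallyEq.rfl.fun_sub (e0 i)
  have u1 := hv.at (fun i : {i : I × X × E // i.2 ∈ Tb (Ω i.1.1.1) (Φ i.1.1.1) ρ} => i.1.1.1.1.1)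
    fun i => i.2
  have u2 := hd.at (fun i : {i : I × X × E // i.2 ∈ Tb (Ω i.1.1.1) (Φ i.1.1.1) ρ} => i.1.1.1.1.1)
    fun i => i.2
  refine oj_lip (S := fun i : I => Tb (Ω i.1.1) (Φ i.1.1) ρ) (fun i => (H i).1)
    (hτ.at (fun i : I => i.1.1.1) fun i => i.2)
    (fun i s m => ⟨(h _ _ ((H i).2.2.2 s m)).2.1, (G i s m).1, fun x r => ⟨(H i).2.2.2 s m,
      mem_closedBall_iff_norm.1 ((convex_closedBall _ _).segment_subset
        (Metric.mem_closedBall_self hρ.le) (mem_closedBall_iff_norm.2 (G i s m).2.1.2) r)⟩⟩)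
    (fun i => sv _) u1 ((u1.pred.sub (u2.mono le_rfl fun i => m1 i.1.1)).congr' (by simp)) u2 k1
    ((k1.sub (k0.fd.mono le_rfl m1)).congr fun i => ?_) k0
  filter_upwards [(((h _ _ ((H i).2.2.2 1 ⟨zero_le_one, le_rfl⟩)).2.1.sm.comp
    (sa_foot (H i).1))).ev, ((G i 1 ⟨zero_le_one, le_rfl⟩).1.sm.comp (sa_foot (H i).1)).ev]
    with w p q
  rw [fderiv_fun_sub p.diff q.diff, sub_sub_cancel]

end Vale.Agent.P354YQ
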