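import Vale.Agent.P354YQ.Rg
import Vale.Agent.P354YQ.Oj

/-!
Uniform bounds for the gauge equation.
-/

set_option maxSynthPendingDepth 3

open scoped ContDiff
open Set Filter Topology

noncomputable section

namespace Vale.Agent.P354YQ

open Vale.Agent.P354n (R4)
open Vale.Agent.P354R (Met Pull)
open Vale.Agent.P354RC (Rp B2 bs)
open Vale.Agent.P354XD (tb rp_tb tb_bs)
open Vale.Agent.P354XE (Tw eT pb Bd)
open Vale.Agent.P354XV (Jet jet Lv Nice)
open Vale.Agent.P354YI (GM Oj Os Jb tb_sub)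

section gen
variable {J E V W : Type} [NormedAddCommGroup E] [NormedSpace ℝ E] [NormedAddCommGroup V]
  [NormedSpace ℝ V] [NormedAddCommGroup W] [NormedSpace ℝ W] {x : J → E} {μ : J → ℝ} {k : ℕ}
  {f : J → E → V}

theorem oj_iter (n : ℕ) : ∀ {k : ℕ}, Oj (k + n) x f μ →
    Oj k x (fun j => iteratedFDeriv ℝ n (f j)) μ := by
  induction n with
  | zero =>
    exact fun h => (h.clm (continuousMultilinearCurryFin0 ℝ E
      V).symm.toContinuousLinearEquiv.toContinuousLinearMap).congr' fun j y => rfl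
  | succ n ih =>
    exact fun {k} h => ((ih (k := k + 1) (h.le (by omega))).fd.clm
      (continuousMultilinearCurryLeftEquiv ℝ (fun _ : Fin (n + 1) => E)
        V).symm.toContinuousLinearEquiv.toContinuousLinearMap).congr' fun j y => rfl

theorem oj_pi {ι : Type} [Fintype ι] {W : ι → Type} [∀ i, NormedAddCommGroup (W i)]
    [∀ i, NormedSpace ℝ (W i)] {f : J → E → ∀ i, W i} (n : ∀ j, 0 ≤ μ j)
    (h : ∀ i, Oj k x (fun j y => f j y i) μ) : Oj k x f μ := by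
  classical
  exact (Oj.sum Finset.univ n fun i _ => (h i).clm (ContinuousLinearMap.single ℝ W i)).congr'
    fun j y => (Finset.univ_sum_single _).symm

theorem oj_cen (h : Oj k x (fun j => fderiv ℝ (f j)) 1) (s : ∀ j, ContDiffAt ℝ ∞ (f j) (x j)) :
    Oj (k + 1) x (fun j y => f j y - f j (x j)) 1 :=
  (Oj.zero (fun j => (s j).sub contDiffAt_const) h.nn ⟨0, by simp⟩).succ
    (h.congr' fun _ _ => fderiv_sub_const _)

theorem oj_cl (L : E →L[ℝ] V) {G : J → V → W} (h : Oj k (fun j => L (x j)) G μ) :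
    Oj k x (fun j y => G j (L y)) μ :=
  Oj.comp (f := fun _ => L) (fun _ => L.contDiff.contDiffAt) k
    ((Oj.cst L).congr' fun _ _ => L.fderiv) h

end gen

theorem nice_inv {g : Tw} {h : R4 → B2} {D : Set R4} {p : R4} {k : ℕ} {B : ℝ} {t : R4 → ℝ}
    (r : Rp g h D) (hp : p ∈ D) (n : Nice k B g t p) (v : R4) :
    ‖v‖ ≤ (1 + B ^ 2) * B * ‖h p v‖ := by
  obtain ⟨u, u1, u2⟩ := n.tl
  have sp := n.sp
  simp only [r.eq p hp] at sp u2
  have B0 := (norm_nonneg _).trans u1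
  have u0 : fderiv ℝ t p u ≠ 0 := fun a => by linarith [sp u a, sq_nonneg ‖u‖]
  obtain ⟨a, s, s0, rfl⟩ : ∃ (a : ℝ) (s : R4), fderiv ℝ t p s = 0 ∧ v = a • u + s :=
    ⟨fderiv ℝ t p v / fderiv ℝ t p u, v - _ • u, by simp [u0], (add_sub_cancel _ _).symm⟩
  have e : h p (a • u + s) (s - a • u) = h p s s - a ^ 2 * h p u u := by
    simp only [map_add, map_sub, map_smul, add_apply, smul_apply, smul_eq_mul, r.symm p hp s u]
    ring
  have n1 : ‖a • u‖ ≤ |a| * B := by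
    rw [norm_smul]
    exact mul_le_mul_of_nonneg_left u1 (abs_nonneg a)
  have k1 := ((le_abs_self _).trans ((h p (a • u + s)).le_opNorm (s - a • u))).trans
    (mul_le_mul_of_nonneg_left (norm_sub_le_of_le le_rfl n1) (norm_nonneg _))
  have k2 := sp s s0
  refine (norm_add_le_of_le n1 le_rfl).trans ?_
  rw [e, ← sq_abs a] at k1
  have := norm_nonneg (h p (a • u + s))
  have := abs_nonneg a
  have := norm_nonneg s
  generalize ‖h p (a • u + s)‖ = ε at *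
  generalize |a| = b at *
  generalize ‖s‖ = c at *
  have k3 : c ^ 2 + b ^ 2 ≤ B * (ε * (c + b * B)) := by
    nlinarith [mul_le_mul_of_nonneg_left k1 B0, mul_le_mul_of_nonneg_left u2 (sq_nonneg b)]
  refine le_of_not_gt fun a => ?_
  have p0 : 0 < b * B + c := lt_of_le_of_lt (by positivity) a
  nlinarith [mul_lt_mul_of_pos_right a p0, sq_nonneg (c * B - b),
    mul_le_mul_of_nonneg_left k3 (by positivity : 0 ≤ 1 + B ^ 2)]

theorem det_near {A A' : R4 →L[ℝ] R4} {C : ℝ} (C0 : 0 ≤ C) (h : ∀ v, ‖v‖ ≤ C * ‖A v‖)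
    (c : C * ‖A - A'‖ < 1) (d : 0 < LinearMap.det (A : R4 →ₗ[ℝ] R4)) :
    0 < LinearMap.det (A' : R4 →ₗ[ℝ] R4) := by
  by_contra n
  obtain ⟨s, m, e⟩ := intermediate_value_Icc' zero_le_one (f := fun s : ℝ => (A - s • (A - A')).det)
    (ContinuousLinearMap.continuous_det.comp (by fun_prop)).continuousOn
    (show (0 : ℝ) ∈ _ from ⟨by simpa using n, by simpa using d.le⟩)
  obtain ⟨v, hv, v0⟩ := (Submodule.ne_bot_iff _).1 (LinearMap.det_eq_zero_iff_ker_ne_bot.1 e)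
  have k := h v
  rw [show A v = s • (A - A') v from sub_eq_zero.1 hv, norm_smul, Real.norm_of_nonneg m.1] at k
  have := norm_pos_iff.2 v0
  have := mul_le_mul_of_nonneg_left
    ((mul_le_of_le_one_left (norm_nonneg _) m.2).trans ((A - A').le_opNorm v)) C0
  nlinarith

variable {J : Type} {k m : ℕ} {x : J → R4} {g g' : J → Tw} {μ : J → ℝ} {D : J → Set R4}
  {q : J → R4 × R4 × R4} {π : J → R4 → R4} {f : J → R4 → ℝ}
  {U Mg S : J → Set (R4 × Jet m × R4)} {F : J → R4 × Jet m × R4 → R4}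

theorem oj_jt (h : Oj (k + m) x (fun j => tb (g j)) μ) : Oj k x (fun j => jet m (g j)) μ :=
  oj_pi h.nn fun n => oj_pi h.nn fun α => oj_pi h.nn fun a => oj_pi h.nn fun b =>
    (oj_iter n ((((h.clm (.apply ℝ _ (bs a))).clm (.apply ℝ ℝ (bs b))).le (by omega)).congr'
      (g := fun j y => g j y (bs a) (bs b)) fun _ _ => (tb_bs a b).symm)).clm
      (ContinuousMultilinearMap.apply ℝ (fun _ : Fin n => R4) ℝ fun l => bs (α l))

theorem jet_sub {g g' : Tw} {D : Set R4} {y : R4} (hD : IsOpen D) (a : Met g D) (b : Met g' D)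
    (hy : y ∈ D) : jet m (g - g') y = jet m g y - jet m g' y := by
  funext n α i j
  simp only [jet, Pi.sub_apply]
  rw [fun_iteratedFDeriv_sub_apply (((a.smooth _ _).contDiffAt (hD.mem_nhds hy)).of_le (le_inf _))
    (((b.smooth _ _).contDiffAt (hD.mem_nhds hy)).of_le (le_inf _))]
  rfl

/-- What is used of a family of metrics at a family of points. -/
structure Mt (n : ℕ) (x : J → R4) (g : J → Tw) (D : J → Set R4) : Prop where
  op : ∀ j, IsOpen (D j)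
  met : ∀ j, Met (g j) (D j)
  mem : ∀ j, x j ∈ D j
  bd : Oj n x (fun j => tb (g j)) 1
  low : ∃ C, 0 ≤ C ∧ ∀ j v, ‖v‖ ≤ C * ‖tb (g j) (x j) v‖

theorem Mt.of {n : ℕ} {B : ℝ} {t : J → R4 → ℝ} (h : ∀ j, IsOpen (D j) ∧ Met (g j) (D j) ∧
    x j ∈ D j ∧ Nice n B (g j) (t j) (x j)) : Mt n x g D :=
  ⟨fun j => (h j).1, fun j => (h j).2.1, fun j => (h j).2.2.1,
    (Oj.tb (fun j v w => ((h j).2.1.smooth v w).contDiffAt ((h j).1.mem_nhds (h j).2.2.1))
      fun j => (h j).2.2.2.bd).wt (c := B) (fun _ => zero_le_one) fun _ => (mul_one _).ge,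
    (1 + B ^ 2) * |B|, by positivity, fun j v =>
      (nice_inv (rp_tb (h j).1 (h j).2.1) (h j).2.2.1 (h j).2.2.2 v).trans (by
        gcongr
        exact le_abs_self B)⟩

theorem Mt.isInv {n : ℕ} (h : Mt n x g D) (j : J) : (tb (g j) (x j)).IsInvertible :=
  P354RC.inv_of_inj ((rp_tb (h.op j) (h.met j)).nd _ (h.mem j))

theorem Mt.inv {n : ℕ} (h : Mt n x g D) : Oj n x (fun j y => (tb (g j) y).inverse) 1 :=
  h.bd.inv h.isInv (h.low.imp fun _ c j => ContinuousLinearMap.opNorm_le_bound _ c.1 fun l => by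
    simpa only [(h.isInv j).self_apply_inverse] using c.2 j ((tb (g j) (x j)).inverse l))

theorem Mt.gm (h : Mt (k + 1) x g D) : Oj k x (fun j => GM (tb (g j))) 1 := h.inv.pred.gm h.bd

theorem Mt.le {n : ℕ} (h : Mt n x g D) (a : k ≤ n) : Mt k x g D :=
  ⟨h.op, h.met, h.mem, h.bd.le a, h.low⟩

theorem Mt.sub (h : Mt k x g D) (h' : Mt k x g' D) (d : ∀ j, Bd k (g' j - g j) (x j) (μ j)) :
    Oj k x (fun j y => tb (g j) y - tb (g' j) y) μ :=
  ((Oj.tb (fun j v w => ((((h'.met j).smooth v w).sub ((h.met j).smooth v w)).contDiffAt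
    ((h.op j).mem_nhds (h.mem j)))) d).congr' fun _ _ => (tb_sub _ _ _).symm).symm

theorem Mt.gm_sub (h : Mt (k + 1) x g D) (h' : Mt (k + 1) x g' D)
    (d : Oj (k + 1) x (fun j y => tb (g j) y - tb (g' j) y) μ) :
    Oj k x (fun j y => GM (tb (g j)) y - GM (tb (g' j)) y) μ :=
  h.inv.pred.gm_sub h'.bd (Oj.inv_sub h.isInv h'.isInv h.bd.sm h'.bd.sm h.inv h'.inv d).pred
    h.bd.sm d

theorem Mt.jet_sub (h : Mt (k + m) x g D) (h' : Mt (k + m) x g' D)
    (d : Oj (k + m) x (fun j y => tb (g j) y - tb (g' j) y) μ) :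
    Oj k x (fun j y => jet m (g j) y - jet m (g' j) y) μ :=
  (oj_jt (g := fun j => g j - g' j) (d.congr' fun _ _ => tb_sub _ _ _)).congr fun j =>
    ((h.op j).eventually_mem (h.mem j)).mono fun _ a =>
      (P354YQ.jet_sub (h.op j) (h.met j) (h'.met j) a).symm

/-- The projections. -/
abbrev p1 : R4 × R4 × R4 →L[ℝ] R4 := .fst ℝ _ _
abbrev p2 : R4 × R4 × R4 →L[ℝ] R4 := (ContinuousLinearMap.fst ℝ _ _).comp (.snd ℝ _ _)
abbrev p3 : R4 × R4 × R4 →L[ℝ] R4 := (ContinuousLinearMap.snd ℝ _ _).comp (.snd ℝ _ _)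

theorem oj_arg (s : ∀ j, ContDiffAt ℝ ∞ (π j) (q j).1)
    (hπ : Oj k (fun j => (q j).1) (fun j => fderiv ℝ (π j)) 1)
    (hg : Oj (k + 1 + m) (fun j => (q j).2.1) (fun j => tb (g j)) 1) :
    (∀ j, ContDiffAt ℝ ∞ (fun y : R4 × R4 × R4 => (π j y.1, jet m (g j) y.2.1, y.2.2)) (q j)) ∧
    Oj k q (fun j => fderiv ℝ fun y => (π j y.1, jet m (g j) y.2.1, y.2.2)) 1 := by
  have a := ((oj_cl p1 (oj_cen hπ s)).pair ((oj_cl p2 (oj_jt hg)).pair
    (oj_cl p3 (Oj.idm (y := fun j => (q j).2.2) ⟨0, by simp⟩)))).congr'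
    (g := fun j y => (π j y.1, jet m (g j) y.2.1, y.2.2) - (π j (q j).1, 0, (q j).2.2)) (by simp)
  exact ⟨fun j => by simpa using (a.sm j).add (contDiffAt_const (c := (π j (q j).1, 0, (q j).2.2))),
    a.fd.congr' fun _ _ => (fderiv_sub_const _).symm⟩

theorem oj_vel (hw : ∃ C, ∀ j, ‖(q j).2.2‖ ≤ C) : Oj k q (fun _ y => y.2.2) 1 :=
  (oj_cl p3 (Oj.idm (y := fun _ => 0) (by simpa using hw))).congr' (by simp)

theorem oj_vg (s : ∀ j, ContDiffAt ℝ ∞ (π j) (q j).1)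
    (hπ : Oj k (fun j => (q j).1) (fun j => fderiv ℝ (π j)) 1)
    (hf : Oj (k + 1) (fun j => (q j).1) (fun j y => (f j y)⁻¹) 1) (hw : ∃ C, ∀ j, ‖(q j).2.2‖ ≤ C)
    (hg : Mt (k + m + 2) (fun j => (q j).2.1) g D)
    (hF : Oj (k + 1) (fun j => (π j (q j).1, jet m (g j) (q j).2.1, (q j).2.2)) F 1) :
    Oj (k + 1) q (fun j => vg ⟨m, U j, Mg j, F j⟩ (π j) (f j) (g j)) 1 :=
  have a := oj_arg (m := m) s hπ (hg.bd.le (by omega))
  (oj_cl p1 hf).smull ((oj_vel hw).pair ((Oj.comp a.1 (k + 1) a.2 hF).sub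
    (((oj_cl p2 (hg.le (by omega)).gm).apl (oj_vel hw)).apl (oj_vel hw))))

theorem oj_vg_sub (s : ∀ j, ContDiffAt ℝ ∞ (π j) (q j).1)
    (hπ : Oj k (fun j => (q j).1) (fun j => fderiv ℝ (π j)) 1)
    (hf : Oj (k + 1) (fun j => (q j).1) (fun j y => (f j y)⁻¹) 1) (hw : ∃ C, ∀ j, ‖(q j).2.2‖ ≤ C)
    (hg : Mt (k + m + 2) (fun j => (q j).2.1) g D) (hg' : Mt (k + m + 2) (fun j => (q j).2.1) g' D)
    (d : Oj (k + m + 2) (fun j => (q j).2.1) (fun j y => tb (g j) y - tb (g' j) y) μ)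
    (hS : ∀ j, segment ℝ (π j (q j).1, jet m (g j) (q j).2.1, (q j).2.2)
      (π j (q j).1, jet m (g' j) (q j).2.1, (q j).2.2) ⊆ S j) (hF : Os (k + 2) S F 1) :
    Oj (k + 1) q (fun j y => vg ⟨m, U j, Mg j, F j⟩ (π j) (f j) (g j) y -
      vg ⟨m, U j, Mg j, F j⟩ (π j) (f j) (g' j) y) μ := by
  have a := oj_arg (m := m) s hπ (hg.bd.le (by omega))
  have a' := oj_arg (m := m) s hπ (hg'.bd.le (by omega))
  have z : Oj (k + 1) q (fun _ _ => (0 : R4)) μ := .const d.nn ⟨0, by simp⟩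
  have b := Oj.lip a.1 a'.1 hS (k + 1) a.2 a'.2 ((z.pair ((oj_cl p2 (Mt.jet_sub (m := m) (hg.le (by omega))
    (hg'.le (by omega)) (d.le (by omega)))).pair z)).congr' (by simp)) hF
  rw [one_mul] at b
  refine ((oj_cl p1 hf).smulr (z.pair (b.sub (((oj_cl p2 (Mt.gm_sub (hg.le (by omega))
    (hg'.le (by omega)) (d.le (by omega)))).apl (oj_vel hw)).apl (oj_vel hw))))).congr'
    fun j y => ?_
  simp only [vg, ← smul_sub, Prod.mk_sub_mk, sub_self, sub_apply]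
  congr 2
  exact sub_sub_sub_comm _ _ _ _

end Vale.Agent.P354YQ
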