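import Vale.Agent.P354YQ.Ode
import Vale.Agent.P265.H185.Flow
import Mathlib.Analysis.ODE.ExistUnique
import Mathlib.Geometry.Manifold.PartitionOfUnity

/-!
Existence, uniqueness and smoothness of families of solutions.
-/

open Set Filter Topology
open scoped ContDiff Manifold

namespace Vale.Agent.P354YQ

variable {X E : Type} [NormedAddCommGroup X] [NormedSpace ℝ X] [NormedAddCommGroup E]
  [NormedSpace ℝ E]

/-- **Uniqueness** on a connected set of times. -/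
theorem uniq {w : ℝ × E → E} {γ γ' : ℝ → E} {S : Set ℝ} (hS : IsPreconnected S) {t0 : ℝ}
    (h0 : t0 ∈ S) (hw : ∀ t ∈ S, ContDiffAt ℝ 1 w (t, γ t))
    (h : ∀ t ∈ S, ∀ᶠ s in 𝓝 t, HasDerivAt γ (w (s, γ s)) s)
    (h' : ∀ t ∈ S, ∀ᶠ s in 𝓝 t, HasDerivAt γ' (w (s, γ' s)) s) (e : γ t0 = γ' t0) :
    ∀ t ∈ S, γ =ᶠ[𝓝 t] γ' := by
  have loc : ∀ t ∈ S, γ t = γ' t → γ =ᶠ[𝓝 t] γ' := fun t m e => by
    obtain ⟨K, T, hT, hK⟩ := (hw t m).exists_lipschitzOnWith
    refine ODE_solution_unique_of_eventually (K := K) (v := fun s x => w (s, x))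
      (s := fun s => {x | (s, x) ∈ T}) (.of_forall fun s x a y b => ?_) ((h t m).and ?_)
      ((h' t m).and ?_) e
    · simpa [Prod.edist_eq] using hK a b
    · exact (continuousAt_id.prodMk (h t m).self_of_nhds.continuousAt).eventually hT
    · exact (continuousAt_id.prodMk (h' t m).self_of_nhds.continuousAt).eventually
        (show T ∈ 𝓝 (t, γ' t) from e ▸ hT)
  exact hS.subset_of_closure_inter_subset isOpen_setOfPred_eventually_nhds ⟨t0, h0, loc _ h0 e⟩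
    fun t m => loc t m.2 (tendsto_nhds_unique_of_frequently_eq (h t m.2).self_of_nhds.continuousAt
      (h' t m.2).self_of_nhds.continuousAt
      ((mem_closure_iff_frequently.1 m.1).mono fun _ a => EventuallyEq.eq_of_nhds a))

/-- Gronwall with a bootstrap assumption. -/
theorem boot {f f' : ℝ → E} {K ε δ ρ : ℝ} (hK : 0 ≤ K) (hε : 0 ≤ ε)
    (hf : ∀ s ∈ Icc (0 : ℝ) 1, HasDerivAt f (f' s) s)
    (h : ∀ s ∈ Icc (0 : ℝ) 1, ‖f s‖ ≤ ρ → ‖f' s‖ ≤ K * ‖f s‖ + ε) (h0 : ‖f 0‖ ≤ δ)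
    (hρ : (δ + ε) * Real.exp K < ρ) :
    ∀ s ∈ Icc (0 : ℝ) 1, ‖f s‖ ≤ (δ + ε * s) * Real.exp (K * s) := by
  have δ0 := (norm_nonneg _).trans h0
  obtain ⟨η, h1, h2⟩ : ∃ η, ε < η ∧ (δ + η) * Real.exp K = ρ :=
    ⟨ρ / Real.exp K - δ, by
      rw [lt_sub_iff_add_lt', lt_div_iff₀ (Real.exp_pos K)]
      exact hρ, by field_simp; ring⟩
  have η0 := hε.trans h1.le
  have c : ContinuousOn f (Icc 0 1) := fun s m => (hf s m).continuousAt.continuousWithinAt
  have d : ∀ s ∈ Ico (0 : ℝ) 1, HasDerivWithinAt f (f' s) (Ici s) s := fun s m =>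
    (hf s (Ico_subset_Icc_self m)).hasDerivWithinAt
  have b : ∀ s ∈ Icc (0 : ℝ) 1, (δ + η * s) * Real.exp (K * s) ≤ ρ := fun s m => by
    have := m.1
    have := m.2
    rw [← h2]
    gcongr <;> nlinarith
  have k := image_norm_le_of_norm_deriv_right_lt_deriv_boundary c d
    (B := fun s => (δ + η * s) * Real.exp (K * s))
    (B' := fun s => η * Real.exp (K * s) + (δ + η * s) * (Real.exp (K * s) * K)) (by simpa using h0)
    (fun s => by
      simpa using (((hasDerivAt_id s).const_mul η).const_add δ).fun_mul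
        ((hasDerivAt_id s).const_mul K).exp) fun s m e => by
      have := h s (Ico_subset_Icc_self m) (e.trans_le (b s (Ico_subset_Icc_self m)))
      have := Real.one_le_exp (mul_nonneg hK m.1)
      nlinarith
  intro s m
  simpa using (norm_le_gronwallBound_of_norm_deriv_right_le c d h0 (fun s m =>
    h s (Ico_subset_Icc_self m) ((k (Ico_subset_Icc_self m)).trans (b s (Ico_subset_Icc_self m))))
    s m).trans (gb_le hK hε)

/-- A solution with the initial value `x` at `w`, up to the time `T`. -/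
structure Crv (e : X) (v : X × E → E) (U : Set (X × E)) (w : X) (x : E) (T : ℝ) (γ : ℝ → E) :
    Prop where
  init : γ 0 = x
  mem : ∀ t ∈ uIcc 0 T, (w + t • e, γ t) ∈ U
  ode : ∀ t ∈ uIcc 0 T, ∀ᶠ s in 𝓝 t, HasDerivAt γ (v (w + s • e, γ s)) s

variable {e : X} {v : X × E → E} {U : Set (X × E)} {w : X} {x : E} {T : ℝ} {γ γ' : ℝ → E}

theorem Crv.uniq (hU : IsOpen U) (hv : ContDiffOn ℝ ∞ v U) (h : Crv e v U w x T γ)
    (h' : Crv e v U w x T γ') : ∀ t ∈ uIcc 0 T, γ =ᶠ[𝓝 t] γ' :=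
  P354YQ.uniq (w := fun p => v (w + p.1 • e, p.2)) isPreconnected_uIcc left_mem_uIcc
    (fun t m => ContDiffAt.comp (g := v) _ ((hv.contDiffAt (hU.mem_nhds (h.mem t m))).of_le (by simp))
      (by fun_prop)) h.ode h'.ode (h.init.trans h'.init.symm)

variable [FiniteDimensional ℝ X] [FiniteDimensional ℝ E]

/-- A global smooth flow which solves the equation near a compact set. -/
theorem ex_flow (e : X) (hU : IsOpen U) (hv : ContDiffOn ℝ ∞ v U) {K : Set (X × E)}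
    (hK : IsCompact K) (hKU : K ⊆ U) : ∃ (u : X × E → E) (N : Set (X × E)) (Fl : ℝ × X × E → E),
    ContDiff ℝ ∞ u ∧ IsOpen N ∧ K ⊆ N ∧ N ⊆ U ∧ EqOn u v N ∧ ContDiff ℝ ∞ Fl ∧
      (∀ p, Fl (0, p) = p.2) ∧
      ∀ t w x, HasDerivAt (fun t => Fl (t, w, x)) (u (w + t • e, Fl (t, w, x))) t := by
  obtain ⟨L, hL, h1, h2⟩ := exists_compact_between hK hU hKU
  obtain ⟨χ, a, b, -⟩ := exists_contMDiffMap_one_nhds_of_subset_interior (n := ⊤) 𝓘(ℝ, X × E)
    hK.isClosed h1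
  obtain ⟨N, n1, n2, n3⟩ := eventually_nhdsSet_iff_exists.1 (a.and (hU.mem_nhdsSet.2 hKU))
  have z : ∀ p ∉ L, χ p • v p = 0 := fun p m => by rw [b p m, zero_smul]
  have s : ContDiff ℝ ∞ fun p => χ p • v p := contDiff_iff_contDiffAt.2 fun p => by
    by_cases m : p ∈ L
    · exact χ.contMDiff.contDiff.contDiffAt.smul (hv.contDiffAt (hU.mem_nhds (h2 m)))
    · exact contDiffAt_const.congr_of_eventuallyEq
        ((hL.isClosed.isOpen_compl.eventually_mem m).mono z)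
  obtain ⟨C, hC⟩ := (HasCompactSupport.intro hL z).exists_bound_of_continuous s.continuous
  have Ys : ContDiff ℝ ∞ fun p : X × E => (e, χ p • v p) := contDiff_const.prodMk s
  obtain ⟨Φ, Φs, Φ0, Φd, -⟩ := P265.H185.exists_global_flow _ Ys
    (P265.H185.exists_curve_of_bounded (C := max ‖e‖ C) (Ys.of_le (by simp))
      fun p => max_le_max le_rfl (hC p))
  have Φ1 : ∀ t p, (Φ t p).1 = p.1 + t • e := fun t p => by
    have h1 : ∀ t, HasDerivAt (fun t => (Φ t p).1 - t • e) 0 t := fun t => by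
      simpa using ((ContinuousLinearMap.fst ℝ X E).hasFDerivAt.comp_hasDerivAt t (Φd t p)).fun_sub
        ((hasDerivAt_id t).smul_const e)
    have := is_const_of_deriv_eq_zero (fun t => (h1 t).differentiableAt) (fun t => (h1 t).deriv) t 0
    simp only [zero_smul, sub_zero, Φ0] at this
    rw [← this, sub_add_cancel]
  refine ⟨_, N, fun q => (Φ q.1 q.2).2, s, n1, n2, fun p m => (n3 p m).2, fun p m => ?_, Φs.snd,
    fun p => congrArg _ (Φ0 p), fun t w x => ?_⟩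
  · simp [(n3 p m).1]
  · have := (ContinuousLinearMap.snd ℝ X E).hasFDerivAt.comp_hasDerivAt t (Φd t (w, x))
    rw [← Φ1 t (w, x)]
    exact this

/-- **Existence in a tube** around an approximate solution `r`. -/
theorem ex_crv (hU : IsOpen U) (hv : ContDiffOn ℝ ∞ v U) {r r' : ℝ → E} {L ε δ ρ : ℝ}
    (hL : 0 ≤ L) (hε : 0 ≤ ε) (hr : ∀ t ∈ uIcc 0 T, HasDerivAt r (r' t) t)
    (h : ∀ t ∈ uIcc 0 T, ∀ y, ‖y - r t‖ ≤ ρ →
      (w + t • e, y) ∈ U ∧ ‖v (w + t • e, y) - r' t‖ ≤ L * ‖y - r t‖ + ε)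
    (h0 : ‖x - r 0‖ ≤ δ) (hρ : (δ + ε * |T|) * Real.exp (L * |T|) < ρ) :
    ∃ γ, Crv e v U w x T γ ∧ ∀ t ∈ uIcc 0 T, ‖γ t - r t‖ ≤ (δ + ε * |t|) * Real.exp (L * |t|) := by
  have : ProperSpace E := FiniteDimensional.proper ℝ E
  have c : ContinuousOn r (uIcc 0 T) := fun t m => (hr t m).continuousAt.continuousWithinAt
  obtain ⟨u, N, Fl, us, n1, n2, n3, n4, -, f0, fd⟩ := ex_flow e hU hv
    (K := (fun p : ℝ × E => (w + p.1 • e, r p.1 + p.2)) '' uIcc 0 T ×ˢ Metric.closedBall 0 ρ)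
    ((isCompact_uIcc.prod (isCompact_closedBall _ _)).image_of_continuousOn
      ((by fun_prop : ContinuousOn (fun p : ℝ × E => w + p.1 • e) _).prodMk
        ((c.comp continuousOn_fst fun _ m => m.1).add continuousOn_snd)))
    (by rintro _ ⟨p, m, rfl⟩; exact (h _ m.1 _ (by simpa using m.2)).1)
  have mN : ∀ t ∈ uIcc 0 T, ∀ y, ‖y - r t‖ ≤ ρ → (w + t • e, y) ∈ N := fun t m y a =>
    n2 ⟨(t, y - r t), ⟨m, by simpa using a⟩, by simp⟩
  have mT : ∀ s ∈ Icc (0 : ℝ) 1, T * s ∈ uIcc 0 T := fun s m => by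
    rw [← segment_eq_uIcc, segment_eq_image]
    exact ⟨s, m, by simp [mul_comm]⟩
  have k := boot (f := fun s => Fl (T * s, w, x) - r (T * s))
    (f' := fun s => T • (u (w + (T * s) • e, Fl (T * s, w, x)) - r' (T * s)))
    (K := L * |T|) (ε := ε * |T|) (δ := δ) (ρ := ρ) (by positivity) (by positivity)
    (fun s m => by
      simpa [Function.comp_def] using
        ((fd (T * s) w x).fun_sub (hr _ (mT s m))).scomp s ((hasDerivAt_id s).const_mul T))
    (fun s m a => by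
      rw [norm_smul, n4 (mN _ (mT s m) _ a), Real.norm_eq_abs]
      have := mul_le_mul_of_nonneg_left (h _ (mT s m) _ a).2 (abs_nonneg T)
      linarith) (by simpa [f0] using h0) hρ
  have k2 : ∀ t ∈ uIcc 0 T, ‖Fl (t, w, x) - r t‖ ≤ (δ + ε * |t|) * Real.exp (L * |t|) := by
    intro t m
    rw [← segment_eq_uIcc, segment_eq_image] at m
    obtain ⟨s, m, rfl⟩ := m
    simpa [abs_mul, abs_of_nonneg m.1, mul_comm, mul_left_comm, mul_assoc] using k s m
  have k3 : ∀ t ∈ uIcc 0 T, (w + t • e, Fl (t, w, x)) ∈ N := fun t m => mN t m _ ((k2 t m).trans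
    (le_trans (by
      have : |t| ≤ |T| := by simpa using abs_sub_left_of_mem_uIcc m
      have := (norm_nonneg _).trans h0
      gcongr) hρ.le))
  refine ⟨fun t => Fl (t, w, x), ⟨f0 _, fun t m => n3 (k3 t m), fun t m => ?_⟩, k2⟩
  have : ContinuousAt (fun t => (w + t • e, Fl (t, w, x))) t :=
    (by fun_prop : ContinuousAt (fun t : ℝ => w + t • e) t).prodMk (fd t w x).continuousAt
  exact (this.eventually (n1.eventually_mem (k3 t m))).mono fun s a => n4 a ▸ fd s w x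

/-- **Solutions depend smoothly on the parameters.** -/
theorem ode_fam (hU : IsOpen U) (hv : ContDiffOn ℝ ∞ v U) {Ω : Set X} (hΩ : IsOpen Ω) {τ : X → ℝ}
    (hτ : ∀ z ∈ Ω, SA τ z) (hτ' : ∀ z t, τ (z + t • e) = τ z + t) {x0 : X → E}
    (hx : ∀ z ∈ Ω, SA x0 (pt e τ 1 z))
    (h : ∀ z ∈ Ω, ∃ γ, Crv e v U (pt e τ 1 z) (x0 (pt e τ 1 z)) (τ z) γ) :
    ∃ Φ : X → E, ∀ z ∈ Ω, Sol e v Φ z ∧ (z, Φ z) ∈ U ∧
      ∀ γ, Crv e v U (pt e τ 1 z) (x0 (pt e τ 1 z)) (τ z) γ → Φ z = γ (τ z) := by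
  choose! γ hγ using h
  have pz : ∀ z, pt e τ 1 z + τ z • e = z := fun z => by simp [pt]
  have key : ∀ z ∈ Ω, SA (fun z => γ z (τ z)) z ∧
      fderiv ℝ (fun z => γ z (τ z)) z e = v (z, γ z (τ z)) := fun z m => by
    have g := hγ z m
    obtain ⟨u, N, Fl, us, n1, n2, n3, n4, fs, f0, fd⟩ := ex_flow e hU hv
      (K := (fun t => (pt e τ 1 z + t • e, γ z t)) '' uIcc 0 (τ z))
      (isCompact_uIcc.image_of_continuousOn
        ((by fun_prop : ContinuousOn (fun t : ℝ => pt e τ 1 z + t • e) _).prodMk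
          fun t m => (g.ode t m).self_of_nhds.continuousAt.continuousWithinAt))
      (by rintro _ ⟨t, m, rfl⟩; exact g.mem t m)
    have sp : SA (pt e τ 1) z := (jd_pt (k := 0) (C := max ‖e‖ ‖τ z‖) ⟨zero_le_one, le_rfl⟩
      (le_max_left _ _) ((JD.zero (hτ z m)).jb (le_max_right _ _))).sm
    have sq := sp.prod ((hx z m).comp sp)
    have cr : ∀ y, (∀ t ∈ uIcc 0 (τ y), (pt e τ 1 y + t • e,
        Fl (t, pt e τ 1 y, x0 (pt e τ 1 y))) ∈ N) → Crv e v U (pt e τ 1 y) (x0 (pt e τ 1 y)) (τ y)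
        fun t => Fl (t, pt e τ 1 y, x0 (pt e τ 1 y)) := fun y a =>
      ⟨f0 _, fun t m => n3 (a t m), fun t m => by
        have : ContinuousAt (fun t => (pt e τ 1 y + t • e, Fl (t, pt e τ 1 y, x0 (pt e τ 1 y)))) t :=
          (by fun_prop : ContinuousAt (fun t : ℝ => pt e τ 1 y + t • e) t).prodMk
            (fd t _ _).continuousAt
        exact (this.eventually (n1.eventually_mem (a t m))).mono fun s a => n4 a ▸ fd s _ _⟩
    have e1 := Crv.uniq (γ' := fun t => Fl (t, pt e τ 1 z, x0 (pt e τ 1 z))) isOpen_univ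
      us.contDiffOn ⟨g.init, fun _ _ => trivial, fun t m => by
        have : ContinuousAt (fun t => (pt e τ 1 z + t • e, γ z t)) t :=
          (by fun_prop : ContinuousAt (fun t : ℝ => pt e τ 1 z + t • e) t).prodMk
            (g.ode t m).self_of_nhds.continuousAt
        exact ((this.eventually (n1.eventually_mem (n2 ⟨t, m, rfl⟩))).and (g.ode t m)).mono
          fun s a => (n4 a.1).symm ▸ a.2⟩
      ⟨f0 _, fun _ _ => trivial, fun t _ => .of_forall fun s => fd s _ _⟩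
    have e2 : ∀ᶠ y in 𝓝 z, ∀ s ∈ Icc (0 : ℝ) 1, (pt e τ 1 y + (s * τ y) • e,
        Fl (s * τ y, pt e τ 1 y, x0 (pt e τ 1 y))) ∈ N := by
      refine isCompact_Icc.eventually_forall_of_forall_eventually fun s a => ?_
      have c0 : ContinuousAt (Prod.fst : X × ℝ → X) (z, s) := continuousAt_fst
      have c1 : ContinuousAt (fun p : X × ℝ => p.2 * τ p.1) (z, s) :=
        continuousAt_snd.mul ((hτ z m).cont.comp c0)
      have c2 := ((sp.cont.comp c0).add (c1.smul (continuousAt_const (y := e)))).prodMk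
        (fs.continuous.continuousAt.comp (c1.prodMk (sq.cont.comp c0)))
      refine Tendsto.eventually c2 (n1.eventually_mem ?_)
      have a' : s * τ z ∈ uIcc 0 (τ z) := by
        rw [← segment_eq_uIcc, segment_eq_image]
        exact ⟨s, a, by simp⟩
      exact n2 ⟨_, a', Prod.ext rfl (e1 _ a').self_of_nhds⟩
    have e3 : (fun z => γ z (τ z)) =ᶠ[𝓝 z] fun y => Fl (τ y, pt e τ 1 y, x0 (pt e τ 1 y)) := by
      filter_upwards [e2, hΩ.eventually_mem m] with y a b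
      refine ((hγ y b).uniq hU hv (cr y fun t c => ?_) _ right_mem_uIcc).self_of_nhds
      rw [← segment_eq_uIcc, segment_eq_image] at c
      obtain ⟨s, c, rfl⟩ := c
      simpa using a s c
    have s3 := ((SA.of fs).comp ((hτ z m).prod sq)).congr e3
    refine ⟨s3, ?_⟩
    have l : HasDerivAt (fun t : ℝ => z + t • e) e 0 := by
      simpa using ((hasDerivAt_id (0 : ℝ)).smul_const e).const_add z
    have d := s3.diff.hasFDerivAt.comp_hasDerivAt_of_eq 0 l (by simp)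
    have d2 := (g.ode _ right_mem_uIcc).self_of_nhds.scomp_of_eq 0
      ((hasDerivAt_id (0 : ℝ)).const_add (τ z)) (by simp)
    rw [pz, one_smul] at d2
    refine d.unique (d2.congr_of_eventuallyEq ?_)
    have t1 : Tendsto (fun t : ℝ => z + t • e) (𝓝 0) (𝓝 z) := by simpa using l.continuousAt.tendsto
    have t2 : Tendsto (fun t : ℝ => τ z + t) (𝓝 0) (𝓝 (τ z)) := by
      simpa using (tendsto_id (x := 𝓝 (0 : ℝ))).const_add (τ z)
    filter_upwards [t1.eventually e3, t2.eventually (e1 _ right_mem_uIcc)] with t a b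
    have : pt e τ 1 (z + t • e) = pt e τ 1 z := by simp [pt, hτ', add_smul]
    simp only [hτ', this] at a
    simp only [Function.comp, id, hτ', a, b]
  exact ⟨fun z => γ z (τ z), fun z m => ⟨⟨(key z m).1, (hΩ.eventually_mem m).mono
    fun y a => (key y a).2⟩, by simpa only [pz] using (hγ z m).mem _ right_mem_uIcc,
    fun g a => ((hγ z m).uniq hU hv a _ right_mem_uIcc).self_of_nhds⟩⟩

/-- **Existence of a smooth family of solutions** near an approximate solution `R`. -/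
theorem ode_ex (hU : IsOpen U) (hv : ContDiffOn ℝ ∞ v U) {Ω : Set X} (hΩ : IsOpen Ω) {τ : X → ℝ}
    (hτ : ∀ z ∈ Ω, SA τ z) (hτ' : ∀ z t, τ (z + t • e) = τ z + t) {x0 R : X → E}
    (hx : ∀ z ∈ Ω, SA x0 (pt e τ 1 z)) {L ε δ ρ : X → ℝ} (hL : ∀ z ∈ Ω, 0 ≤ L z ∧ 0 ≤ ε z)
    (h : ∀ z ∈ Ω, ∀ s ∈ Icc (0 : ℝ) 1, DifferentiableAt ℝ R (pt e τ s z) ∧
      ∀ y, ‖y - R (pt e τ s z)‖ ≤ ρ z → (pt e τ s z, y) ∈ U ∧
        ‖v (pt e τ s z, y) - fderiv ℝ R (pt e τ s z) e‖ ≤ L z * ‖y - R (pt e τ s z)‖ + ε z)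
    (h0 : ∀ z ∈ Ω, ‖x0 (pt e τ 1 z) - R (pt e τ 1 z)‖ ≤ δ z)
    (hρ : ∀ z ∈ Ω, (δ z + ε z * |τ z|) * Real.exp (L z * |τ z|) < ρ z) :
    ∃ Φ : X → E, ∀ z ∈ Ω, Sol e v Φ z ∧ (z, Φ z) ∈ U ∧ (τ z = 0 → Φ z = x0 z) ∧
      ‖Φ z - R z‖ ≤ (δ z + ε z * |τ z|) * Real.exp (L z * |τ z|) := by
  have k : ∀ z, ∀ t ∈ uIcc 0 (τ z), ∃ s ∈ Icc (0 : ℝ) 1, pt e τ 1 z + t • e = pt e τ s z :=
    fun z t m => by
      rw [← segment_eq_uIcc, segment_symm, segment_eq_image] at m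
      obtain ⟨s, m, rfl⟩ := m
      exact ⟨s, m, by simp [pt, sub_mul, sub_smul]⟩
  have ex := fun z m => ex_crv (e := e) (w := pt e τ 1 z) (x := x0 (pt e τ 1 z)) (T := τ z) hU hv
    (r := fun t => R (pt e τ 1 z + t • e)) (r' := fun t => fderiv ℝ R (pt e τ 1 z + t • e) e)
    (hL z m).1 (hL z m).2 (fun t a => by
      obtain ⟨s, b, c⟩ := k z t a
      refine HasFDerivAt.comp_hasDerivAt t (c ▸ (h z m s b).1).hasFDerivAt ?_
      simpa using ((hasDerivAt_id t).smul_const e).const_add (pt e τ 1 z))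
    (fun t a => by
      obtain ⟨s, b, c⟩ := k z t a
      simpa only [c] using (h z m s b).2) (by simpa using h0 z m) (hρ z m)
  obtain ⟨Φ, hΦ⟩ := ode_fam hU hv hΩ hτ hτ' hx fun z m => (ex z m).imp fun _ a => a.1
  refine ⟨Φ, fun z m => ?_⟩
  obtain ⟨γ, a, b⟩ := ex z m
  obtain ⟨c, d, f⟩ := hΦ z m
  refine ⟨c, d, fun t => ?_, ?_⟩
  · rw [f γ a, t, a.init, pt, t, mul_zero, zero_smul, sub_zero]
  · simpa [f γ a, pt] using b _ right_mem_uIcc

omit [FiniteDimensional ℝ X] [FiniteDimensional ℝ E] in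
/-- **Uniqueness for families**: solutions along a segment with the same value at the foot. -/
theorem ode_uniq {τ : X → ℝ} {Φ Φ' : X → E} {z : X}
    (h : ∀ s ∈ Icc (0 : ℝ) 1, Sol e v Φ (pt e τ s z) ∧ Sol e v Φ' (pt e τ s z) ∧
      ContDiffAt ℝ 1 v (pt e τ s z, Φ (pt e τ s z)))
    (h0 : Φ (pt e τ 1 z) = Φ' (pt e τ 1 z)) : Φ z = Φ' z := by
  have l : ∀ s, HasDerivAt (fun s => pt e τ s z) (-τ z • e) s := fun s => by
    simpa [pt] using (((hasDerivAt_id s).mul_const (τ z)).smul_const e).const_sub z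
  have d : ∀ {Φ : X → E} {s}, Sol e v Φ (pt e τ s z) → ∀ᶠ s in 𝓝 s,
      HasDerivAt (fun s => Φ (pt e τ s z)) (-τ z • v (pt e τ s z, Φ (pt e τ s z))) s :=
    fun {Φ s} a => ((l s).continuousAt.eventually (a.sm.ev.and a.ode)).mono fun s b => by
      rw [← b.2, ← map_smul]
      exact b.1.diff.hasFDerivAt.comp_hasDerivAt s (l s)
  simpa only [pt_zero] using (uniq (w := fun p => -τ z • v (pt e τ p.1 z, p.2)) isPreconnected_Icc
    ⟨zero_le_one, le_rfl⟩ (fun s m => ContDiffAt.const_smul _ (ContDiffAt.comp (g := v) _ (h s m).2.2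
      (by unfold pt; fun_prop))) (fun s m => d (h s m).1) (fun s m => d (h s m).2.1) h0 0
    ⟨le_rfl, zero_le_one⟩).self_of_nhds

end Vale.Agent.P354YQ
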