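import Mathlib.Analysis.Calculus.ContDiff.Bounds
import Mathlib.Analysis.Calculus.FDeriv.Symmetric
import Mathlib.Analysis.Calculus.MeanValue
import Mathlib.Analysis.Calculus.Deriv.Prod
import Mathlib.Analysis.ODE.Gronwall

/-!
Pointwise calculus of bounds for jets.
-/

open Set Filter Topology
open scoped ContDiff Nat

namespace Vale.Agent.P354YQ

variable {X Y F G H : Type} [NormedAddCommGroup X] [NormedSpace ℝ X] [NormedAddCommGroup Y]
  [NormedSpace ℝ Y] [NormedAddCommGroup F] [NormedSpace ℝ F] [NormedAddCommGroup G]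
  [NormedSpace ℝ G] [NormedAddCommGroup H] [NormedSpace ℝ H]

/-- Smooth near a point. -/
def SA (f : X → F) (z : X) : Prop := ∀ᶠ w in 𝓝 z, ContDiffAt ℝ ∞ f w

/-- The derivatives of order at most `k` are bounded by `C`. -/
structure JB (k : ℕ) (f : X → F) (z : X) (C : ℝ) : Prop where
  sm : SA f z
  le : ∀ i ≤ k, ‖iteratedFDeriv ℝ i f z‖ ≤ C

/-- The derivatives of positive order at most `k` are bounded by `C`. -/
structure JD (k : ℕ) (f : X → F) (z : X) (C : ℝ) : Prop where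
  sm : SA f z
  le : ∀ i, 1 ≤ i → i ≤ k → ‖iteratedFDeriv ℝ i f z‖ ≤ C

variable {k l : ℕ} {f f' : X → F} {g : X → G} {z : X} {C D : ℝ}

theorem le_inf (n : ℕ) : (n : WithTop ℕ∞) ≤ ∞ := by exact_mod_cast le_top

theorem SA.of_on {U : Set X} (h : ContDiffOn ℝ ∞ f U) (hU : IsOpen U) (hz : z ∈ U) : SA f z :=
  (hU.eventually_mem hz).mono fun _ m => h.contDiffAt (hU.mem_nhds m)

theorem SA.of (h : ContDiff ℝ ∞ f) : SA f z := Eventually.of_forall fun _ => h.contDiffAt

theorem SA.ev (h : SA f z) : ∀ᶠ w in 𝓝 z, SA f w := h.eventually_nhds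

theorem SA.at (h : SA f z) : ContDiffAt ℝ ∞ f z := h.self_of_nhds

theorem SA.atn (h : SA f z) (n : ℕ) : ContDiffAt ℝ n f z := h.at.of_le (le_inf n)

theorem SA.diff (h : SA f z) : DifferentiableAt ℝ f z := h.at.differentiableAt (by simp)

theorem SA.cont (h : SA f z) : ContinuousAt f z := h.at.continuousAt

theorem SA.congr (h : SA f z) (e : f' =ᶠ[𝓝 z] f) : SA f' z :=
  (h.and e.eventually_nhds).mono fun _ m => m.1.congr_of_eventuallyEq m.2

theorem SA.fderiv (h : SA f z) : SA (fderiv ℝ f) z :=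
  h.mono fun _ m => m.fderiv_right (m := ∞) (by simp)

theorem SA.add (h : SA f z) (h' : SA f' z) : SA (fun w => f w + f' w) z :=
  (h.and h').mono fun _ m => m.1.add m.2

theorem SA.sub (h : SA f z) (h' : SA f' z) : SA (fun w => f w - f' w) z :=
  (h.and h').mono fun _ m => m.1.sub m.2

theorem SA.prod (h : SA f z) (h' : SA g z) : SA (fun w => (f w, g w)) z :=
  (h.and h').mono fun _ m => m.1.prodMk m.2

theorem SA.comp {u : F → G} (hu : SA u (f z)) (h : SA f z) : SA (fun w => u (f w)) z :=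
  (h.and (h.cont.eventually hu)).mono fun _ m => m.2.comp _ m.1

theorem SA.clm (L : F →L[ℝ] G) (h : SA f z) : SA (fun w => L (f w)) z :=
  (SA.of L.contDiff).comp h

theorem SA.bil (B : F →L[ℝ] G →L[ℝ] H) (h : SA f z) (h' : SA g z) :
    SA (fun w => B (f w) (g w)) z :=
  ((h.clm B).and h').mono fun _ m => m.1.clm_apply m.2

theorem SA.on (h : SA f z) {p : X → Prop} (hp : ∀ᶠ w in 𝓝 z, p w) :
    ∃ U, IsOpen U ∧ z ∈ U ∧ ContDiffOn ℝ ∞ f U ∧ ∀ w ∈ U, p w := by
  obtain ⟨U, a, b, c⟩ := eventually_nhds_iff.1 (h.and hp)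
  exact ⟨U, b, c, fun w m => (a w m).1.contDiffWithinAt, fun w m => (a w m).2⟩

theorem JB.zero (h : JB k f z C) : ‖f z‖ ≤ C := by simpa using h.le 0 k.zero_le

theorem JB.nonneg (h : JB k f z C) : 0 ≤ C := (norm_nonneg _).trans h.zero

theorem JB.mono (h : JB k f z C) (e : C ≤ D) : JB k f z D := ⟨h.sm, fun i m => (h.le i m).trans e⟩

theorem JB.ord (h : JB k f z C) (e : l ≤ k) : JB l f z C := ⟨h.sm, fun i m => h.le i (m.trans e)⟩

theorem JD.mono (h : JD k f z C) (e : C ≤ D) : JD k f z D :=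
  ⟨h.sm, fun i a m => (h.le i a m).trans e⟩

theorem JD.ord (h : JD k f z C) (e : l ≤ k) : JD l f z C :=
  ⟨h.sm, fun i a m => h.le i a (m.trans e)⟩

theorem JB.jd (h : JB k f z C) : JD k f z C := ⟨h.sm, fun i _ m => h.le i m⟩

theorem JD.jb (h : JD k f z C) (h0 : ‖f z‖ ≤ C) : JB k f z C :=
  ⟨h.sm, fun i m => by
    rcases i.eq_zero_or_pos with rfl | e
    exacts [by simpa using h0, h.le i e m]⟩

theorem JB.congr (h : JB k f z C) (e : f' =ᶠ[𝓝 z] f) : JB k f' z C :=
  ⟨h.sm.congr e, fun i m => (e.iteratedFDeriv ℝ i).self_of_nhds ▸ h.le i m⟩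

theorem JD.congr (h : JD k f z C) (e : f' =ᶠ[𝓝 z] f) : JD k f' z C :=
  ⟨h.sm.congr e, fun i a m => (e.iteratedFDeriv ℝ i).self_of_nhds ▸ h.le i a m⟩

theorem JD.fderiv (h : JD (k + 1) f z C) : JB k (fderiv ℝ f) z C :=
  ⟨h.sm.fderiv, fun i m => norm_iteratedFDeriv_fderiv (𝕜 := ℝ) (f := f) ▸ h.le _ (by omega) (by omega)⟩

theorem JD.of_fderiv (s : SA f z) (h : JB k (_root_.fderiv ℝ f) z C) : JD (k + 1) f z C :=
  ⟨s, fun i a m => by
    obtain ⟨j, rfl⟩ : ∃ j, i = j + 1 := ⟨i - 1, by omega⟩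
    exact norm_iteratedFDeriv_fderiv (𝕜 := ℝ) (f := f) ▸ h.le j (by omega)⟩

theorem JD.zero (s : SA f z) : JD 0 f z C := ⟨s, fun _ a m => by omega⟩

theorem JB.add (h : JB k f z C) (h' : JB k f' z D) : JB k (fun w => f w + f' w) z (C + D) :=
  ⟨h.sm.add h'.sm, fun i m => by
    rw [fun_iteratedFDeriv_add_apply (h.sm.atn i) (h'.sm.atn i)]
    exact norm_add_le_of_le (h.le i m) (h'.le i m)⟩

theorem JB.sub (h : JB k f z C) (h' : JB k f' z D) : JB k (fun w => f w - f' w) z (C + D) :=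
  ⟨h.sm.sub h'.sm, fun i m => by
    rw [fun_iteratedFDeriv_sub_apply (h.sm.atn i) (h'.sm.atn i)]
    exact norm_sub_le_of_le (h.le i m) (h'.le i m)⟩

theorem JD.add (h : JD k f z C) (h' : JD k f' z D) : JD k (fun w => f w + f' w) z (C + D) :=
  ⟨h.sm.add h'.sm, fun i a m => by
    rw [fun_iteratedFDeriv_add_apply (h.sm.atn i) (h'.sm.atn i)]
    exact norm_add_le_of_le (h.le i a m) (h'.le i a m)⟩

theorem JD.sub (h : JD k f z C) (h' : JD k f' z D) : JD k (fun w => f w - f' w) z (C + D) :=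
  ⟨h.sm.sub h'.sm, fun i a m => by
    rw [fun_iteratedFDeriv_sub_apply (h.sm.atn i) (h'.sm.atn i)]
    exact norm_sub_le_of_le (h.le i a m) (h'.le i a m)⟩

theorem JD.const (c : F) : JD k (fun _ : X => c) z 0 :=
  ⟨SA.of contDiff_const, fun i a _ => by rw [iteratedFDeriv_const_of_ne (by omega)]; simp⟩

theorem JB.const (c : F) : JB k (fun _ : X => c) z ‖c‖ :=
  ((JD.const c).mono (norm_nonneg _)).jb le_rfl

theorem JB.clm (L : F →L[ℝ] G) (h : JB k f z C) : JB k (fun w => L (f w)) z (‖L‖ * C) :=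
  ⟨h.sm.clm L, fun i m => (L.norm_iteratedFDeriv_comp_left h.sm.at (le_inf i)).trans
    (mul_le_mul_of_nonneg_left (h.le i m) (norm_nonneg _))⟩

theorem JD.clm (L : F →L[ℝ] G) (h : JD k f z C) : JD k (fun w => L (f w)) z (‖L‖ * C) :=
  ⟨h.sm.clm L, fun i a m => (L.norm_iteratedFDeriv_comp_left h.sm.at (le_inf i)).trans
    (mul_le_mul_of_nonneg_left (h.le i a m) (norm_nonneg _))⟩

theorem JD.lin (L : X →L[ℝ] F) : JD k L z ‖L‖ := by
  cases k with
  | zero => exact JD.zero (SA.of L.contDiff)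
  | succ k =>
    exact JD.of_fderiv (SA.of L.contDiff) ((JB.const L).congr (.of_forall fun _ => L.fderiv))

theorem JD.id : JD k (fun w : X => w) z 1 :=
  (JD.lin (ContinuousLinearMap.id ℝ X)).mono ContinuousLinearMap.norm_id_le

theorem JD.prod (h : JD k f z C) (h' : JD k g z C) : JD k (fun w => (f w, g w)) z C :=
  ⟨h.sm.prod h'.sm, fun i a m => by
    rw [iteratedFDeriv_prodMk (h.sm.atn i) (h'.sm.atn i) le_rfl,
      ContinuousMultilinearMap.opNorm_prod]
    exact max_le (h.le i a m) (h'.le i a m)⟩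

theorem JB.prod (h : JB k f z C) (h' : JB k g z C) : JB k (fun w => (f w, g w)) z C :=
  (h.jd.prod h'.jd).jb (max_le h.zero h'.zero)

theorem JD.sub_const (h : JD k f z C) (h0 : 0 ≤ C) : JB k (fun w => f w - f z) z C :=
  ((h.sub (JD.const _)).mono (add_zero C).le).jb (by simpa using h0)

theorem JD.of_sub (c : F) (h : JD k (fun w => f w - c) z C) : JD k f z C :=
  ((h.add (JD.const c)).mono (add_zero C).le).congr (.of_forall fun w => by simp)

theorem JB.bil (B : F →L[ℝ] G →L[ℝ] H) (hB : ‖B‖ ≤ 1) (h : JB k f z C) (h' : JB k g z D) :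
    JB k (fun w => B (f w) (g w)) z (2 ^ k * C * D) := by
  refine ⟨h.sm.bil B h'.sm, fun n m => ?_⟩
  obtain ⟨U, o, hz, a, b⟩ := h.sm.on h'.sm
  have := B.norm_iteratedFDerivWithin_le_of_bilinear_of_le_one a
    (fun w m => (b w m).contDiffWithinAt) o.uniqueDiffOn hz (le_inf n) hB
  simp only [iteratedFDerivWithin_of_isOpen _ o hz] at this
  have c0 := h.nonneg
  have d0 := h'.nonneg
  refine this.trans ((Finset.sum_le_sum (g := fun i => (n.choose i : ℝ) * C * D) fun i hi => ?_).trans ?_)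
  · have := Finset.mem_range.1 hi
    have := h.le i (by omega)
    have := h'.le (n - i) (by omega)
    gcongr
  · rw [← Finset.sum_mul, ← Finset.sum_mul, ← Nat.cast_sum, Nat.sum_range_choose]
    push_cast
    gcongr
    norm_num

theorem JB.smul {a : X → ℝ} (h : JB k a z C) (h' : JB k g z D) :
    JB k (fun w => a w • g w) z (2 ^ k * C * D) :=
  h.bil (ContinuousLinearMap.lsmul ℝ ℝ) ContinuousLinearMap.opNorm_lsmul_le h'

theorem JB.ccomp {A : X → G →L[ℝ] H} {B : X → F →L[ℝ] G} (h : JB k A z C) (h' : JB k B z D) :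
    JB k (fun w => (A w).comp (B w)) z (2 ^ k * C * D) :=
  h.bil (ContinuousLinearMap.compL ℝ F G H) (ContinuousLinearMap.norm_compL_le ℝ F G H) h'

theorem JB.app {A : X → G →L[ℝ] H} (h : JB k A z C) (h' : JB k g z D) :
    JB k (fun w => A w (g w)) z (2 ^ k * C * D) :=
  h.bil (ContinuousLinearMap.id ℝ (G →L[ℝ] H)) ContinuousLinearMap.norm_id_le h'

theorem JB.comp {u : F → G} (hu : JB k u (f z) C) (h : JD k f z D) (hD : 1 ≤ D) :
    JB k (fun w => u (f w)) z (k ! * C * D ^ k) := by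
  refine ⟨hu.sm.comp h.sm, fun n m => ?_⟩
  obtain ⟨V, oV, hV, a, -⟩ := hu.sm.on (p := fun _ => True) (.of_forall fun _ => trivial)
  obtain ⟨U, o, hz, b, c⟩ := h.sm.on (h.sm.cont.eventually (oV.eventually_mem hV))
  have := norm_iteratedFDerivWithin_comp_le a b (le_inf n) oV.uniqueDiffOn o.uniqueDiffOn c hz
    (C := C) (D := D) (fun i hi => by
      rw [iteratedFDerivWithin_of_isOpen _ oV hV]
      exact hu.le i (hi.trans m)) fun i a hi => by
      rw [iteratedFDerivWithin_of_isOpen _ o hz]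
      exact (h.le i a (hi.trans m)).trans (le_self_pow₀ hD (by omega))
  rw [iteratedFDerivWithin_of_isOpen _ o hz] at this
  have c0 := hu.nonneg
  refine this.trans ?_
  gcongr

theorem fderiv_ev {u : F → G} (hu : SA u (f z)) (h : SA f z) :
    fderiv ℝ (fun w => u (f w)) =ᶠ[𝓝 z] fun w => (fderiv ℝ u (f w)).comp (fderiv ℝ f w) :=
  (h.ev.and (h.cont.eventually hu.ev)).mono fun w m => fderiv_comp w m.2.diff m.1.diff

theorem JD.comp {u : F → G} (hu : JD k u (f z) C) (h : JD k f z D) (hD : 1 ≤ D) (hC : 0 ≤ C) :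
    JD k (fun w => u (f w)) z (k ! * C * D ^ k) :=
  JD.of_sub (u (f z)) ((hu.sub_const hC).comp h hD).jd

/-- The top order enters linearly. -/
theorem JB.comp_lin {u : F → G} {m : ℝ} (hu : JB (k + 1) u (f z) C) (h : JD k f z D) (hD : 1 ≤ D)
    (h' : JD (k + 1) f z m) :
    JB (k + 1) (fun w => u (f w)) z (2 ^ k * (k ! * C * D ^ k) * m + C) := by
  have a := (hu.jd.fderiv.comp h hD).ccomp h'.fderiv
  exact ((JD.of_fderiv (hu.sm.comp h.sm) (a.congr (fderiv_ev hu.sm h.sm))).mono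
    (le_add_of_nonneg_right hu.nonneg)).jb (hu.zero.trans (le_add_of_nonneg_left a.nonneg))

/-- Composition is Lipschitz in the inner map. -/
theorem lip (k : ℕ) (D : ℝ) (hD : 1 ≤ D) : ∃ L, 1 ≤ L ∧ ∀ (X F G : Type) [NormedAddCommGroup X]
    [NormedSpace ℝ X] [NormedAddCommGroup F] [NormedSpace ℝ F] [NormedAddCommGroup G]
    [NormedSpace ℝ G] (u : F → G) (f f' : X → F) (z : X) (C δ : ℝ),
    (∀ p ∈ segment ℝ (f z) (f' z), JB (k + 1) u p C) → JD k f z D → JD k f' z D →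
    JB k (fun w => f w - f' w) z δ → JB k (fun w => u (f w) - u (f' w)) z (L * C * δ) := by
  have z0 : ∀ (X F G : Type) [NormedAddCommGroup X]
      [NormedSpace ℝ X] [NormedAddCommGroup F] [NormedSpace ℝ F] [NormedAddCommGroup G]
      [NormedSpace ℝ G] (u : F → G) (f f' : X → F) (z : X) (C δ : ℝ),
      (∀ p ∈ segment ℝ (f z) (f' z), JB 1 u p C) → ‖f z - f' z‖ ≤ δ →
      ‖u (f z) - u (f' z)‖ ≤ C * δ := fun X F G _ _ _ _ _ _ u f f' z C δ h e =>
    ((convex_segment _ _).norm_image_sub_le_of_norm_fderiv_le (𝕜 := ℝ) (fun p m => (h p m).sm.diff)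
      (fun p m => (h p m).jd.fderiv.zero) (right_mem_segment _ _ _) (left_mem_segment _ _ _)).trans
      (mul_le_mul_of_nonneg_left e (h _ (left_mem_segment _ _ _)).nonneg)
  induction k with
  | zero =>
    exact ⟨1, le_rfl, fun X F G _ _ _ _ _ _ u f f' z C δ h a b e =>
      (JD.zero (((h _ (left_mem_segment _ _ _)).sm.comp a.sm).sub
        ((h _ (right_mem_segment _ _ _)).sm.comp b.sm))).jb
        (by rw [one_mul]; exact z0 X F G u f f' z C δ h e.zero)⟩
  | succ k ih =>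
    obtain ⟨L, hL, ih⟩ := ih
    refine ⟨2 ^ k * L * D + 2 ^ k * (k ! * D ^ k) + 1, le_add_of_nonneg_left (by positivity),
      fun X F G _ _ _ _ _ _ u f f' z C δ h a b e => ?_⟩
    have u1 := h _ (left_mem_segment _ _ _)
    have u2 := h _ (right_mem_segment _ _ _)
    have c0 := u1.nonneg
    have d0 := e.nonneg
    have s := (u1.sm.comp a.sm).sub (u2.sm.comp b.sm)
    have i1 := (ih X F _ (fderiv ℝ u) f f' z C δ (fun p m => (h p m).jd.fderiv) (a.ord k.le_succ)
      (b.ord k.le_succ) (e.ord k.le_succ)).ccomp a.fderiv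
    have i2 := (((u2.jd.fderiv.ord k.le_succ).comp (b.ord k.le_succ) hD)).ccomp e.jd.fderiv
    refine ((JD.of_fderiv s ((i1.add i2).congr ?_)).mono ?_).jb
      ((z0 X F G u f f' z C δ (fun p m => (h p m).ord (by omega)) e.zero).trans ?_)
    · filter_upwards [fderiv_ev u1.sm a.sm, fderiv_ev u2.sm b.sm, (u1.sm.comp a.sm).ev,
        (u2.sm.comp b.sm).ev, a.sm.ev, b.sm.ev] with w e1 e2 s1 s2 s3 s4
      rw [fderiv_fun_sub s1.diff s2.diff, fderiv_fun_sub s3.diff s4.diff, e1, e2]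
      simp [ContinuousLinearMap.sub_comp, ContinuousLinearMap.comp_sub]
    · have : 0 ≤ C * δ := by positivity
      nlinarith
    · have : 0 ≤ (2 ^ k * L * D + 2 ^ k * (k ! * D ^ k)) * (C * δ) := by positivity
      nlinarith

/-- Derivatives in the parameter commute with jets. -/
theorem hasDerivAt_jet (i : ℕ) : ∀ (F : Type) [NormedAddCommGroup F] [NormedSpace ℝ F]
    (Ψ : ℝ × X → F) (s : ℝ) (q : X), SA Ψ (s, q) →
    HasDerivAt (fun s => iteratedFDeriv ℝ i (fun q => Ψ (s, q)) q)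
      (iteratedFDeriv ℝ i (fun q => fderiv ℝ Ψ (s, q) (1, 0)) q) s := by
  induction i with
  | zero =>
    intro F _ _ Ψ s q h
    simp only [iteratedFDeriv_zero_eq_comp, Function.comp]
    exact (continuousMultilinearCurryFin0 ℝ X F).symm.toContinuousLinearEquiv.hasFDerivAt
      |>.comp_hasDerivAt s (h.diff.hasFDerivAt.comp_hasDerivAt s
        ((hasDerivAt_id s).prodMk (hasDerivAt_const s q)))
  | succ i ih =>
    intro F _ _ Ψ s q h
    let R := (ContinuousLinearMap.compL ℝ X (ℝ × X) F).flip (.inr ℝ ℝ X)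
    have e : ∀ s q, SA Ψ (s, q) → fderiv ℝ (fun q => Ψ (s, q)) q = R (fderiv ℝ Ψ (s, q)) :=
      fun s q h => (h.diff.hasFDerivAt.comp q (hasFDerivAt_prodMk_right s q)).fderiv
    have c : ∀ s : ℝ, ContinuousAt (fun q : X => (s, q)) q := fun s => by fun_prop
    have := (continuousMultilinearCurryRightEquiv' ℝ i X F).symm.toContinuousLinearEquiv.hasFDerivAt
      |>.comp_hasDerivAt s (ih _ (fun p => R (fderiv ℝ Ψ p)) s q (h.fderiv.clm R))
    simp only [iteratedFDeriv_succ_eq_comp_right, Function.comp]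
    refine (this.congr_of_eventuallyEq ?_).congr_deriv ?_
    swap
    · refine congrArg _ (Filter.EventuallyEq.iteratedFDeriv ℝ ?_ i).self_of_nhds
      filter_upwards [(c s).eventually h.ev] with w m
      have d := m.fderiv.diff.hasFDerivAt
      have sy := m.at.isSymmSndFDerivAt (by simpa using le_inf 2)
      refine (congrArg (· (1, 0)) (R.hasFDerivAt.comp (s, w) d).fderiv).trans (Eq.trans ?_
        (((ContinuousLinearMap.apply ℝ F (1, 0)).hasFDerivAt.comp (s, w) d).comp w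
          (hasFDerivAt_prodMk_right s w)).fderiv.symm)
      ext v
      exact sy _ _
    · have c' : ContinuousAt (fun s : ℝ => (s, q)) s := by fun_prop
      filter_upwards [c'.eventually h.ev] with r m
      refine congrArg _ (Filter.EventuallyEq.iteratedFDeriv ℝ ?_ i).self_of_nhds
      filter_upwards [(c r).eventually m.ev] with w m
      exact e r w m

theorem gb_le {δ K ε x : ℝ} (hK : 0 ≤ K) (hε : 0 ≤ ε) :
    gronwallBound δ K ε x ≤ (δ + ε * x) * Real.exp (K * x) := by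
  rcases hK.eq_or_lt with rfl | hK
  · simp [gronwallBound_K0]
  rw [gronwallBound_of_K_ne_0 hK.ne', add_mul]
  refine add_le_add_right ?_ _
  have h1 := Real.add_one_le_exp (-(K * x))
  have h2 := Real.exp_pos (K * x)
  have h3 : Real.exp (-(K * x)) * Real.exp (K * x) = 1 := by rw [← Real.exp_add]; simp
  rw [div_mul_eq_mul_div, div_le_iff₀ hK]
  have : Real.exp (K * x) - 1 ≤ K * x * Real.exp (K * x) := by nlinarith
  nlinarith

/-- Gronwall for jets. -/
theorem gron_jet {Ψ : ℝ × X → F} {q : X} {L a b : ℝ} (hL : 0 ≤ L) (hb : 0 ≤ b)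
    (hs : ∀ s ∈ Icc (0 : ℝ) 1, SA Ψ (s, q))
    (h : ∀ s ∈ Icc (0 : ℝ) 1, ∀ m, JB k (fun q => Ψ (s, q)) q m →
      JB k (fun q => fderiv ℝ Ψ (s, q) (1, 0)) q (L * m + b))
    (h0 : JB k (fun q => Ψ (0, q)) q a) :
    ∀ s ∈ Icc (0 : ℝ) 1, JB k (fun q => Ψ (s, q)) q ((a + b) * Real.exp L) := by
  have sm : ∀ s ∈ Icc (0 : ℝ) 1, SA (fun q => Ψ (s, q)) q := fun s m =>
    (hs s m).comp (f := fun q => (s, q)) (SA.of (by fun_prop))
  let j := fun (s : ℝ) (i : Fin (k + 1)) => iteratedFDeriv ℝ i (fun q => Ψ (s, q)) q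
  let j' := fun (s : ℝ) (i : Fin (k + 1)) =>
    iteratedFDeriv ℝ i (fun q => fderiv ℝ Ψ (s, q) (1, 0)) q
  have d : ∀ s ∈ Icc (0 : ℝ) 1, HasDerivAt j (j' s) s := fun s m =>
    hasDerivAt_pi.2 fun i => hasDerivAt_jet i F Ψ s q (hs s m)
  have jb : ∀ s ∈ Icc (0 : ℝ) 1, JB k (fun q => Ψ (s, q)) q ‖j s‖ := fun s m =>
    ⟨sm s m, fun i hi => norm_le_pi_norm (j s) ⟨i, by omega⟩⟩
  have a0 := h0.nonneg
  intro s m
  refine (jb s m).mono ((norm_le_gronwallBound_of_norm_deriv_right_le (δ := a) (K := L) (ε := b)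
    (fun s m => (d s m).continuousAt.continuousWithinAt)
    (fun s m => (d s (Ico_subset_Icc_self m)).hasDerivWithinAt)
    ((pi_norm_le_iff_of_nonneg a0).2 fun i => h0.le i (by omega)) (fun s m => ?_) s m).trans ?_)
  · have := h s (Ico_subset_Icc_self m) _ (jb s (Ico_subset_Icc_self m))
    exact (pi_norm_le_iff_of_nonneg this.nonneg).2 fun i => this.le i (by omega)
  · refine (gb_le hL hb).trans ?_
    have := m.1
    have := m.2
    gcongr <;> nlinarith

end Vale.Agent.P354YQ
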