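import Vale.Agent.P354YO.Ob
import Vale.Agent.P354YI.Defs
import Vale.Agent.P354XA.Xi

/-!
Bounds along words in the fields vf for families of functions, and symbols.
-/

set_option maxSynthPendingDepth 3

open scoped ContDiff
open Set Filter Topology

noncomputable section

namespace Vale.Agent.P354YQ

open Vale.Agent.P354n (R4)
open Vale.Agent.P354R (Del)
open Vale.Agent.P354RC (B2 bs)
open Vale.Agent.P354XD (tb)
open Vale.Agent.P354XE Vale.Agent.P354YI Vale.Agent.P354YO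
open Vale.Agent.P354YR (s_gin s_rd xs_ne)

variable {M a : ℝ} {p : R4}

theorem wd_app (α β : List (Fin 5)) (f : R4 → ℝ) :
    wd M a (α ++ β) f = wd M a α (wd M a β f) := by
  induction α with
  | nil => rfl
  | cons i α ih => simp only [List.cons_append, wd, ih]

theorem wd_congr {f g : R4 → ℝ} (e : f =ᶠ[𝓝 p] g) (α : List (Fin 5)) :
    wd M a α f =ᶠ[𝓝 p] wd M a α g := by
  induction α with
  | nil => exact e
  | cons i α ih => exact (ih.fderiv (𝕜 := ℝ)).mono fun y h => by simp only [wd, h]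

theorem wd_zero (α : List (Fin 5)) : wd M a α (fun _ => 0) = fun _ => 0 := by
  induction α with
  | nil => rfl
  | cons i α ih => funext y; simp [wd, ih]

section words
variable {J : Type} {x : J → R4} {n n' : ℕ} {f g : J → R4 → ℝ} {μ ν : J → ℝ}

/-- The derivatives of f j at x j along words of length at most n are O(μ j). -/
structure Wo (M a : ℝ) (n : ℕ) (x : J → R4) (f : J → R4 → ℝ) (μ : J → ℝ) : Prop where
  sv : ∀ j i, ContDiffAt ℝ ∞ (vf M a i) (x j)
  sm : ∀ j, ContDiffAt ℝ ∞ (f j) (x j)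
  nn : ∀ j, 0 ≤ μ j
  bd : ∀ᶠ C in atTop, ∀ j (α : List (Fin 5)), α.length ≤ n → |wd M a α (f j) (x j)| ≤ C * μ j

theorem Wo.ex (h : Wo M a n x f μ) : ∃ C, 0 ≤ C ∧
    ∀ j (α : List (Fin 5)), α.length ≤ n → |wd M a α (f j) (x j)| ≤ C * μ j :=
  ((eventually_ge_atTop 0).and h.bd).exists

theorem Wo.of (sv : ∀ j i, ContDiffAt ℝ ∞ (vf M a i) (x j)) (sm : ∀ j, ContDiffAt ℝ ∞ (f j) (x j))
    (nn : ∀ j, 0 ≤ μ j)
    (h : ∃ C, ∀ j (α : List (Fin 5)), α.length ≤ n → |wd M a α (f j) (x j)| ≤ C * μ j) :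
    Wo M a n x f μ :=
  let ⟨C, hC⟩ := h
  ⟨sv, sm, nn, (eventually_ge_atTop C).mono fun _ k j α hα =>
    (hC j α hα).trans (mul_le_mul_of_nonneg_right k (nn j))⟩

theorem Wo.le (h : Wo M a n x f μ) (hn : n' ≤ n) : Wo M a n' x f μ :=
  ⟨h.sv, h.sm, h.nn, h.bd.mono fun _ k j α hα => k j α (hα.trans hn)⟩

theorem Wo.pred (h : Wo M a (n + 1) x f μ) : Wo M a n x f μ := h.le n.le_succ

theorem Wo.wt (h : Wo M a n x f μ) {c : ℝ} (hν : ∀ j, 0 ≤ ν j) (hμ : ∀ j, μ j ≤ c * ν j) :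
    Wo M a n x f ν :=
  let ⟨C, c0, hC⟩ := h.ex
  .of h.sv h.sm hν ⟨C * c, fun j α hα => (hC j α hα).trans
    (mul_assoc C c _ ▸ mul_le_mul_of_nonneg_left (hμ j) c0)⟩

theorem Wo.mono (h : Wo M a n x f μ) (hμ : ∀ j, μ j ≤ ν j) : Wo M a n x f ν :=
  h.wt (c := 1) (fun j => (h.nn j).trans (hμ j)) (by simpa using hμ)

theorem Wo.congr (h : Wo M a n x f μ) (e : ∀ j, g j =ᶠ[𝓝 (x j)] f j) : Wo M a n x g μ :=
  ⟨h.sv, fun j => (h.sm j).congr_of_eventuallyEq (e j), h.nn, h.bd.mono fun _ k j α hα => by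
    rw [(wd_congr (e j) α).eq_of_nhds]
    exact k j α hα⟩

theorem Wo.der (h : Wo M a (n + 1) x f μ) (i : Fin 5) :
    Wo M a n x (fun j => wd M a [i] (f j)) μ :=
  ⟨h.sv, fun j => (at_fd (h.sm j)).clm_apply (h.sv j i), h.nn, h.bd.mono fun _ k j α hα => by
    rw [← wd_app]
    exact k j _ (by simpa using hα)⟩

theorem Wo.zero (sv : ∀ j i, ContDiffAt ℝ ∞ (vf M a i) (x j))
    (sm : ∀ j, ContDiffAt ℝ ∞ (f j) (x j)) (nn : ∀ j, 0 ≤ μ j)
    (h : ∃ C, ∀ j, |f j (x j)| ≤ C * μ j) : Wo M a 0 x f μ :=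
  .of sv sm nn (h.imp fun _ k j α hα => by
    obtain rfl := List.length_eq_zero_iff.1 (Nat.le_zero.1 hα)
    exact k j)

theorem Wo.succ (h0 : Wo M a 0 x f μ) (h : ∀ i, Wo M a n x (fun j => wd M a [i] (f j)) μ) :
    Wo M a (n + 1) x f μ :=
  ⟨h0.sv, h0.sm, h0.nn, (h0.bd.and (eventually_all.2 fun i => (h i).bd)).mono fun _ k j α hα => by
    rcases α.eq_nil_or_concat with rfl | ⟨β, i, rfl⟩
    · exact k.1 j [] le_rfl
    · rw [List.concat_eq_append, wd_app]
      exact k.2 i j β (by simpa using hα)⟩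

theorem Wo.add (h : Wo M a n x f μ) (h' : Wo M a n x g μ) :
    Wo M a n x (fun j y => f j y + g j y) μ := by
  have base : ∀ {n f g}, Wo M a n x f μ → Wo M a n x g μ →
      Wo M a 0 x (fun j y => f j y + g j y) μ := fun h h' =>
    let ⟨C, _, hC⟩ := h.ex
    let ⟨D, _, hD⟩ := h'.ex
    .zero h.sv (fun j => (h.sm j).add (h'.sm j)) h.nn ⟨C + D, fun j => (abs_add_le _ _).trans
      (add_mul C D _ ▸ add_le_add (hC j [] (Nat.zero_le _)) (hD j [] (Nat.zero_le _)))⟩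
  induction n generalizing f g with
  | zero => exact base h h'
  | succ n ih =>
    refine (base h h').succ fun i => (ih (h.der i) (h'.der i)).congr fun j => ?_
    filter_upwards [ev_dif (h.sm j), ev_dif (h'.sm j)] with y h1 h2
    simp only [wd, fderiv_fun_add h1 h2, add_apply]

theorem wd_mul {f g : R4 → ℝ} (hf : ContDiffAt ℝ ∞ f p) (hg : ContDiffAt ℝ ∞ g p) (i : Fin 5) :
    wd M a [i] (fun y => f y * g y) =ᶠ[𝓝 p]
      fun y => f y * wd M a [i] g y + wd M a [i] f y * g y := by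
  filter_upwards [ev_dif hf, ev_dif hg] with y h1 h2
  simp only [wd, fderiv_fun_mul h1 h2, add_apply,
    smul_apply, smul_eq_mul, mul_comm]

theorem Wo.mul (h : Wo M a n x f μ) (h' : Wo M a n x g ν) :
    Wo M a n x (fun j y => f j y * g j y) (μ * ν) := by
  have base : ∀ {n f g}, Wo M a n x f μ → Wo M a n x g ν →
      Wo M a 0 x (fun j y => f j y * g j y) (μ * ν) := fun h h' =>
    let ⟨C, c0, hC⟩ := h.ex
    let ⟨D, _, hD⟩ := h'.ex
    .zero h.sv (fun j => (h.sm j).mul (h'.sm j)) (fun j => mul_nonneg (h.nn j) (h'.nn j))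
      ⟨C * D, fun j => (abs_mul _ _).trans_le ((mul_le_mul (hC j [] (Nat.zero_le _))
        (hD j [] (Nat.zero_le _)) (abs_nonneg _) (mul_nonneg c0 (h.nn j))).trans_eq
          (mul_mul_mul_comm _ _ _ _))⟩
  induction n generalizing f g with
  | zero => exact base h h'
  | succ n ih =>
    exact (base h h').succ fun i => ((ih h.pred (h'.der i)).add (ih (h.der i) h'.pred)).congr
      fun j => wd_mul (h.sm j) (h'.sm j) i

/-- The inverse radius. -/
abbrev ri (x : J → R4) : J → ℝ := fun j => (rd (x j))⁻¹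

/-- Words, with the gain of 1 / r for the time derivative. -/
structure Wp (M a : ℝ) (n : ℕ) (x : J → R4) (f : J → R4 → ℝ) (μ : J → ℝ) : Prop where
  w : Wo M a (n + 1) x f μ
  t : Wo M a n x (fun j => wd M a [0] (f j)) (μ * ri x)

theorem ri_nn (j : J) : 0 ≤ ri x j := inv_nonneg.2 (norm_nonneg _)

theorem Wp.mono (h : Wp M a n x f μ) (hμ : ∀ j, μ j ≤ ν j) : Wp M a n x f ν :=
  ⟨h.w.mono hμ, h.t.mono fun j => mul_le_mul_of_nonneg_right (hμ j) (ri_nn j)⟩

theorem Wp.congr (h : Wp M a n x f μ) (e : ∀ j, g j =ᶠ[𝓝 (x j)] f j) : Wp M a n x g μ :=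
  ⟨h.w.congr e, h.t.congr fun j => wd_congr (e j) _⟩

theorem Wp.add (h : Wp M a n x f μ) (h' : Wp M a n x g μ) :
    Wp M a n x (fun j y => f j y + g j y) μ :=
  ⟨h.w.add h'.w, (h.t.add h'.t).congr fun j => by
    filter_upwards [ev_dif (h.w.sm j), ev_dif (h'.w.sm j)] with y h1 h2
    simp only [wd, fderiv_fun_add h1 h2, add_apply]⟩

theorem Wp.mul (h : Wp M a n x f μ) (h' : Wp M a n x g ν) :
    Wp M a n x (fun j y => f j y * g j y) (μ * ν) :=
  ⟨h.w.mul h'.w, (((h.w.pred.mul h'.t).mono fun _ => (mul_assoc _ _ _).ge).add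
    ((h.t.mul h'.w.pred).mono fun _ => (mul_right_comm _ _ _).le)).congr
      fun j => wd_mul (h.w.sm j) (h'.w.sm j) 0⟩

theorem Wp.sum3 {F : Fin 3 → J → R4 → ℝ} (h : ∀ i, Wp M a n x (F i) μ) :
    Wp M a n x (fun j y => ∑ i, F i j y) μ :=
  (((h 0).add (h 1)).add (h 2)).congr fun _ => .of_forall fun _ => Fin.sum_univ_three _

end words

theorem it_sc {V : Type} [NormedAddCommGroup V] [NormedSpace ℝ V] {t : ℝ} (ht : t ≠ 0)
    (F : R4 → V) (j : ℕ) (x : R4) :
    iteratedFDeriv ℝ j (fun w => F (t • w)) x = t ^ j • iteratedFDeriv ℝ j F (t • x) := by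
  let g : R4 ≃L[ℝ] R4 := ContinuousLinearEquiv.smulLeft (Units.mk0 t ht)
  have h := g.iteratedFDerivWithin_comp_right F uniqueDiffOn_univ (mem_univ (g x)) j
  rw [preimage_univ, iteratedFDerivWithin_univ, iteratedFDerivWithin_univ] at h
  refine h.trans ?_
  ext v
  have := (iteratedFDeriv ℝ j F (t • x)).map_smul_univ (fun _ => t) v
  rw [Finset.prod_const, Finset.card_univ, Fintype.card_fin] at this
  exact this

theorem rd_sm {r : ℝ} (h : 0 ≤ r) (y : R4) : rd (r • y) = r * rd y := by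
  have := P354XA.rd_sc (p := y) h 0
  rwa [show ((0, 0) : R4) = 0 from rfl, add_zero] at this

theorem Om_sm (i : Fin 3) (r : ℝ) (y : R4) : Om i (r • y) = r • Om i y := by
  fin_cases i <;> simp [Om]

theorem Om_cd (i : Fin 3) : ContDiff ℝ ∞ (Om i) := by
  fin_cases i
  · show ContDiff ℝ ∞ fun p : R4 => ((0, 0, -p.2.2.2, p.2.2.1) : R4)
    fun_prop
  · show ContDiff ℝ ∞ fun p : R4 => ((0, p.2.2.2, 0, -p.2.1) : R4)
    fun_prop
  · show ContDiff ℝ ∞ fun p : R4 => ((0, -p.2.2.1, p.2.1, 0) : R4)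
    fun_prop

theorem Lo_sm {r : ℝ} (h : 0 < r) (y : R4) : Lo M a (r • y) = Lo (r⁻¹ * M) (r⁻¹ * a) y := by
  have e : Del M a (r * rd y) = r ^ 2 * Del (r⁻¹ * M) (r⁻¹ * a) (rd y) := by
    unfold Del; field_simp
  simp only [Lo, rd_sm h.le, e, Om_sm, smul_smul, Prod.smul_snd]
  congr 2 <;> field_simp

/-- The fields in the scaled variable. -/
def vs (M a l : ℝ) : Fin 5 → R4 → R4 :=
  ![fun _ => l • eT, fun p => rd p • Lo (l * M) (l * a) p, Om 0, Om 1, Om 2]

theorem vf_sc {r : ℝ} (h : 0 < r) (i : Fin 5) (y : R4) :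
    vf M a i (r • y) = r • vs M a r⁻¹ i y := by
  fin_cases i <;> simp [vf, vs, Om_sm, rd_sm h.le, Lo_sm h, smul_smul, h.ne']

section sym
variable {J W : Type} [NormedAddCommGroup W] [NormedSpace ℝ W] {x : J → R4} {n : ℕ} {μ : J → ℝ}

/-- Symbols. -/
abbrev Sy (n : ℕ) (x : J → R4) (f : J → R4 → W) (μ : J → ℝ) : Prop :=
  Oj n (fun j => ri x j • x j) (fun j y => f j (rd (x j) • y)) μ

variable (hM : 0 ≤ M) (hx : ∀ j, 1 + 4 * M ≤ rd (x j))
include hM hx

theorem r_one (j : J) : 1 ≤ rd (x j) := by linarith [hx j]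
theorem r_pos (j : J) : 0 < rd (x j) := one_pos.trans_le (r_one hM hx j)
theorem ri_one (j : J) : ri x j ≤ 1 := inv_le_one_of_one_le₀ (r_one hM hx j)
theorem r_ri (j : J) : rd (x j) * ri x j = 1 := mul_inv_cancel₀ (r_pos hM hx j).ne'
theorem r_sc (j : J) : rd (x j) • ri x j • x j = x j := by rw [smul_smul, r_ri hM hx, one_smul]

theorem Sy.sm {f : J → R4 → W} (h : Sy n x f μ) (j : J) : ContDiffAt ℝ ∞ (f j) (x j) := by
  have := (Oj.sm h j).comp (f := fun y => ri x j • y) (x j) (contDiffAt_id.const_smul _)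
  simpa only [Function.comp_def, smul_smul, r_ri hM hx, one_smul] using this

theorem oj_fx {F : ℝ → R4 → W} (hF : ∀ y : ℝ × R4, 0 ≤ y.1 → y.1 * (1 + 4 * M) ≤ 1 → rd y.2 = 1 →
    ContDiffAt ℝ ∞ (fun z : ℝ × R4 => F z.1 z.2) y) (e : ∀ l y, F l (pr0 y) = F l y) :
    Oj n (fun j => ri x j • x j) (fun j => F (ri x j)) 1 := by
  have k : 0 < 1 + 4 * M := by positivity
  have r : ∀ j, rd (ri x j • x j) = 1 := fun j => by rw [rd_sm (ri_nn j), mul_comm, r_ri hM hx]
  have o : Oj n (fun j => (ri x j, pr0 (ri x j • x j))) (fun _ (z : ℝ × R4) => F z.1 z.2) 1 :=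
    Oj.fix ((isCompact_Icc (a := 0) (b := (1 + 4 * M)⁻¹)).prod (shell_cpt 1 1)) (fun z hz =>
      hF z hz.1.1 ((le_mul_inv_iff₀ k).1 (by simpa using hz.1.2)) (le_antisymm hz.2.2.2 hz.2.2.1))
      fun j => mem_prod.2 ⟨⟨ri_nn j, inv_anti₀ k (hx j)⟩, rfl, (r j).ge, (r j).le⟩
  have d : ∀ (l : ℝ) (y : R4), fderiv ℝ (fun y => (l, pr0 y)) y = (0 : R4 →L[ℝ] ℝ).prod pr0 :=
    fun _ _ => ((hasFDerivAt_const _ _).prodMk pr0.hasFDerivAt).fderiv
  exact (Oj.comp (f := fun j y => (ri x j, pr0 y)) (fun _ => contDiffAt_const.prodMk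
    pr0.contDiff.contDiffAt) n ((Oj.cst _).congr' fun _ => d _) o).congr' fun j y => (e _ _).symm

theorem oj_vs (i : Fin 5) : Oj n (fun j => ri x j • x j) (fun j => vs M a (ri x j) i) 1 := by
  refine oj_fx hM hx (F := fun l => vs M a l i) (fun y h0 h1 h2 => ?_) fun l y => ?_
  swap
  · fin_cases i <;> rfl
  have o := fun i => (Om_cd i).contDiffAt.comp y contDiffAt_snd
  have r := s_rd (q := y) contDiffAt_snd (xs_ne (h2 ▸ one_pos))
  have m : ∀ c : ℝ, ContDiffAt ℝ ∞ (fun z : ℝ × R4 => z.1 * c) y := fun _ =>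
    contDiffAt_fst.mul contDiffAt_const
  have d : ContDiffAt ℝ ∞ (fun z : ℝ × R4 => Del (z.1 * M) (z.1 * a) (rd z.2)) y :=
    ((r.pow 2).sub ((contDiffAt_const.mul (m M)).mul r)).add ((m a).pow 2)
  have d0 : Del (y.1 * M) (y.1 * a) (rd y.2) ≠ 0 := by
    rw [h2, Del]
    nlinarith [sq_nonneg (y.1 * a), mul_nonneg h0 hM]
  fin_cases i
  · exact contDiffAt_fst.smul contDiffAt_const
  · exact r.smul (((((contDiffAt_const.mul ((r.pow 2).add ((m a).pow 2))).div d d0).sub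
      contDiffAt_const).prodMk ((r.inv (h2 ▸ one_ne_zero)).smul contDiffAt_snd.snd)).add
      (((contDiffAt_const.mul (m a)).div d d0).smul (o 2)))
  exacts [o 0, o 1, o 2]

theorem oj_r {E : Type} [NormedAddCommGroup E] [NormedSpace ℝ E] {z : J → E} :
    Oj n z (fun j _ => rd (x j)) fun j => rd (x j) :=
  .const (fun j => (r_pos hM hx j).le) ⟨1, fun j => by
    rw [one_mul, Real.norm_of_nonneg (r_pos hM hx j).le]⟩

theorem sy_vf (i : Fin 5) : Sy n x (fun _ => vf M a i) fun j => rd (x j) :=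
  ((oj_r hM hx).smull (oj_vs hM hx i)).congr' fun j => vf_sc (r_pos hM hx j) i

theorem sy_rd : Sy n x (fun _ => rd) fun j => rd (x j) :=
  ((oj_r hM hx).smull (oj_fx hM hx (F := fun _ => rd) (fun _ _ _ h => s_rd contDiffAt_snd
    (xs_ne (h ▸ one_pos))) fun _ _ => rfl)).congr' fun j => rd_sm (r_pos hM hx j).le

theorem sy_ri : Sy n x (fun _ y => (rd y)⁻¹) (ri x) :=
  ((Oj.const (v := ri x) ri_nn ⟨1, fun j => by
    rw [one_mul, Real.norm_of_nonneg (ri_nn j)]⟩).smull (oj_fx hM hx (F := fun _ y => (rd y)⁻¹)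
      (fun _ _ _ h => (s_rd contDiffAt_snd (xs_ne (h ▸ one_pos))).inv (h ▸ one_ne_zero))
      fun _ _ => rfl)).congr' fun j y => by
    simp only [rd_sm (r_pos hM hx j).le, mul_inv, smul_eq_mul]

theorem sy_gin : Sy n x (fun _ => tb (gin M a)) 1 :=
  (oj_fx hM hx (F := fun l => tb (gin (l * M) (l * a))) (fun _ _ _ h => ContDiffAt.sum fun _ _ =>
    ContDiffAt.sum fun _ _ => (s_gin contDiffAt_snd (xs_ne (h ▸ one_pos)) (contDiffAt_fst.mul
      contDiffAt_const) (contDiffAt_fst.mul contDiffAt_const) _ _).smul contDiffAt_const)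
    fun _ _ => rfl).congr' fun j y => congrArg (fun B => tb (fun _ => B) y) (by
      have := P354XA.gin_sc (M := M) (a := a) (p := y) (r_pos hM hx j) 0
      rwa [show ((0, 0) : R4) = 0 from rfl, add_zero] at this)

theorem sy_sm {h : J → Tw} {e : J → ℝ} (s : ∀ j, Sb (h j) (x j)) (e0 : ∀ j, 0 ≤ e j)
    (b : ∀ j, Sm n (e j) (h j) (x j)) : Sy n x (fun j => tb (h j)) (e * ri x) := by
  refine oj_of_bd (h := fun j y => h j (rd (x j) • y)) (fun j => ?_) fun j k hk v w => ?_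
  · have c : ContDiffAt ℝ ∞ (fun y : R4 => rd (x j) • y) (ri x j • x j) :=
      contDiffAt_id.const_smul _
    have s' := (r_sc hM hx j).symm ▸ s j
    exact ⟨c.continuousAt.eventually s'.bl, fun v w => (s'.sm v w).comp _ c⟩
  have r := r_pos hM hx j
  rw [it_sc r.ne' (fun y => h j y v w), r_sc hM hx, norm_smul, Real.norm_of_nonneg (by positivity)]
  refine (mul_le_mul_of_nonneg_left (b j k hk v w) (by positivity)).trans ?_
  rw [← mul_assoc]
  refine mul_le_mul_of_nonneg_right ?_ (by positivity)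
  rw [Pi.mul_apply, ← div_eq_mul_inv, ← mul_div_assoc, div_le_div_iff₀ (by positivity) r,
    mul_right_comm, ← pow_succ, mul_comm]
  have := e0 j
  gcongr
  linarith

variable {f : J → R4 → ℝ}

theorem Sy.der (h : Sy (n + 1) x f μ) (i : Fin 5) : Sy n x (fun j => wd M a [i] (f j)) μ :=
  (h.fd.apl (oj_vs hM hx i)).congr' fun j y => by
    simp only [fderiv_comp_smul, wd, vf_sc (r_pos hM hx j), map_smul]
    rfl

theorem Sy.dt (h : Sy (n + 1) x f μ) : Sy n x (fun j => wd M a [0] (f j)) (μ * ri x) :=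
  (h.fd.ap (Oj.const (v := fun j => ri x j • eT) ri_nn ⟨‖eT‖, fun j => by
    rw [norm_smul, Real.norm_of_nonneg (ri_nn j), mul_comm]⟩)).congr' fun j y => by
    simp only [fderiv_comp_smul, wd, vf_sc (r_pos hM hx j)]
    exact map_smul _ _ _

theorem Sy.wo (h : Sy n x f μ) : Wo M a n x f μ := by
  have base : ∀ {n f}, Sy n x f μ → Wo M a 0 x f μ := fun h =>
    .zero (fun j i => (sy_vf (n := 0) hM hx i).sm hM hx j) (h.sm hM hx) h.nn
      (h.val.imp fun C k j => by simpa only [r_sc hM hx, Real.norm_eq_abs] using k.2 j)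
  induction n generalizing f with
  | zero => exact base h
  | succ n ih => exact (base h).succ fun i => ih (h.der hM hx i)

theorem Sy.wp (h : Sy (n + 1) x f μ) : Wp M a n x f μ := ⟨h.wo hM hx, (h.dt hM hx).wo hM hx⟩

end sym

end Vale.Agent.P354YQ
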