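import Vale.Agent.P354YQ.Oj

/-!
Perturbation of families of solutions, when the bounds hold on one side only.
-/

open Set Filter Topology
open scoped ContDiff

namespace Vale.Agent.P354YQ

open Vale.Agent.P354YI (Jb Oj Os)

variable {J Y E : Type} [NormedAddCommGroup Y] [NormedSpace ℝ Y] [NormedAddCommGroup E]
  [NormedSpace ℝ E]

/-- Gronwall with a bootstrap assumption on the past. -/
theorem boot2 {f f' : ℝ → E} {K ε δ ρ T : ℝ} (hK : 0 ≤ K) (hε : 0 ≤ ε)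
    (hf : ∀ s ∈ Icc 0 T, HasDerivAt f (f' s) s)
    (h : ∀ s ∈ Icc 0 T, (∀ t ∈ Icc 0 s, ‖f t‖ ≤ ρ) → ‖f' s‖ ≤ K * ‖f s‖ + ε) (h0 : ‖f 0‖ ≤ δ)
    (hρ : (δ + ε * T) * Real.exp (K * T) < ρ) : ∀ s ∈ Icc 0 T, ‖f s‖ ≤ ρ := by
  have δ0 := (norm_nonneg _).trans h0
  have c : ContinuousOn f (Icc 0 T) := fun s m => (hf s m).continuousAt.continuousWithinAt
  have b : ∀ s ∈ Icc 0 T, (δ + ε * s) * Real.exp (K * s) < ρ := fun s m => by
    have := m.1.trans m.2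
    have := m.2
    refine lt_of_le_of_lt ?_ hρ
    gcongr
  intro s m
  refine IsClosed.Icc_subset_of_forall_mem_nhdsGT_of_Icc_subset (s := {t | ‖f t‖ ≤ ρ})
    (inter_comm _ _ ▸ c.norm.preimage_isClosed_of_isClosed isClosed_Icc isClosed_Iic)
    (h0.trans (by simpa using (b 0 ⟨le_rfl, m.1.trans m.2⟩).le)) (fun t a i => ?_) m
  have u : Icc 0 t ⊆ Icc 0 T := Icc_subset_Icc_right a.2.le
  have k := (norm_le_gronwallBound_of_norm_deriv_right_le (c.mono u)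
    (fun s m => (hf s (u (Ico_subset_Icc_self m))).hasDerivWithinAt) h0
    (fun s m => h s (u (Ico_subset_Icc_self m)) fun r j => i ⟨j.1, j.2.trans m.2.le⟩) t
    ⟨a.1, le_rfl⟩).trans (gb_le hK hε)
  rw [sub_zero] at k
  exact mem_nhdsWithin_of_mem_nhds (((hf t (Ico_subset_Icc_self a)).continuousAt.norm.eventually_lt_const
    (k.trans_lt (b t (Ico_subset_Icc_self a)))).mono fun _ => le_of_lt)

/-- The part of the tube with values in C. -/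
def Tc (A : Set (ℝ × Y)) (Φ : ℝ × Y → E) (ρ : ℝ) (C : Set E) : Set ((ℝ × Y) × E) :=
  {q | q.1 ∈ A ∧ q.2 ∈ Metric.closedBall (Φ q.1) ρ ∩ C}

theorem foot_fst : pt (1, 0) Prod.fst 1 = fun z : ℝ × Y => ((0 : ℝ), z.2) :=
  funext fun z => by rw [pt_fst, sub_self, zero_mul]

/-- **Perturbation of families of solutions**, for sets A j which need not be open, and bounds
only for values in a closed convex set C which is invariant. -/
theorem oj_ex1 [FiniteDimensional ℝ Y] [FiniteDimensional ℝ E] {k : ℕ} {A : J → Set (ℝ × Y)}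
    {U : J → Set ((ℝ × Y) × E)} {v v' : J → (ℝ × Y) × E → E} {Φ : J → ℝ × Y → E} {x0 : J → Y → E}
    {μ : J → ℝ} {C : Set E} (hC : IsClosed C) (hC' : Convex ℝ C) {ρ a : ℝ} (hρ : 0 < ρ)
    (hU : ∀ j, IsOpen (U j) ∧ ContDiffOn ℝ ∞ (v j) (U j) ∧ ContDiffOn ℝ ∞ (v' j) (U j) ∧
      Tc (A j) (Φ j) ρ C ⊆ U j)
    (h : ∀ j, ∀ z ∈ A j, z.1 ∈ Icc 0 a ∧ Sol (1, 0) (v j) (Φ j) z ∧ Φ j z ∈ C ∧ SA (x0 j) z.2 ∧
      (∀ s ∈ Icc 0 z.1, (s, z.2) ∈ A j) ∧ x0 j z.2 ∈ C ∧ ∀ γ : ℝ → E, γ 0 = x0 j z.2 →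
        (∀ t ∈ Icc 0 z.1, HasDerivAt γ (v' j ((t, z.2), γ t)) t ∧ ‖γ t - Φ j (t, z.2)‖ ≤ ρ) →
        γ z.1 ∈ C)
    (hv : Os (k + 2) (fun j => Tc (A j) (Φ j) ρ C) v 1)
    (hd : Os (k + 1) (fun j => Tc (A j) (Φ j) ρ C) (fun j q => v j q - v' j q) μ)
    (h1 : Os k A (fun j => fderiv ℝ fun w => Φ j (0, w.2)) 1)
    (h0 : Os (k + 1) A (fun j w => Φ j (0, w.2) - x0 j w.2) μ) :
    ∃ ε > 0, ∃ (W : J → Set (ℝ × Y)) (Ψ : J → ℝ × Y → E), (∀ j, IsOpen (W j) ∧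
      (∀ z ∈ W j, Sol (1, 0) (v' j) (Ψ j) z ∧ (z, Ψ j z) ∈ U j ∧ (z.1 = 0 → Ψ j z = x0 j z.2)) ∧
      (μ j ≤ ε → ∀ z ∈ A j, z ∈ W j ∧ (z, Ψ j z) ∈ Tc (A j) (Φ j) ρ C)) ∧
      Os (k + 1) (fun j : {j // μ j ≤ ε} => A j) (fun j w => Φ j w - Ψ j w) fun j => μ j := by
  obtain ⟨b, b0, hb⟩ := hv.bd
  obtain ⟨c, c0, hc⟩ := hd.bd
  obtain ⟨d, d0, hd'⟩ := h0.bd
  simp only [Pi.one_apply, mul_one] at hb
  have sv := fun j q (m : q ∈ Tc (A j) (Φ j) ρ C) => And.intro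
    (SA.of_on (hU j).2.1 (hU j).1 ((hU j).2.2.2 m)) (SA.of_on (hU j).2.2.1 (hU j).1 ((hU j).2.2.2 m))
  have sg : ∀ j z x, (z, x) ∈ Tc (A j) (Φ j) ρ C → ∀ y ∈ segment ℝ (Φ j z) x,
      (z, y) ∈ Tc (A j) (Φ j) ρ C := fun j z x m y i =>
    ⟨m.1, ((convex_closedBall _ _).inter hC').segment_subset
      ⟨Metric.mem_closedBall_self hρ.le, (h j z m.1).2.2.1⟩ m.2 i⟩
  let K := (d + c * |a| + 1) * Real.exp (b * |a|)
  have K0 : 0 < K := by positivity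
  choose W Ψ w1 w2 _ _ w3 using fun j => slice_max (hU j).1 (hU j).2.2.1 (x0 j)
  have ex : ∀ j, μ j ≤ min 1 (ρ / K) → ∀ z ∈ A j, z ∈ W j ∧ (z, Ψ j z) ∈ Tc (A j) (Φ j) ρ C := by
    intro j m
    have l : ∀ z ∈ A j, 0 ≤ μ j ∧ (d * μ j + c * μ j * z.1) * Real.exp (b * z.1) < ρ := fun z i => by
      have n : 0 ≤ μ j := h0.nn ⟨(j, z), i⟩
      have t := (h j z i).1.2.trans (le_abs_self a)
      have := (h j z i).1.1
      have m2 := (le_div_iff₀ K0).1 (m.trans (min_le_right _ _))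
      refine ⟨n, ?_⟩
      rcases n.eq_or_lt with p | p
      · simpa [← p] using hρ
      refine lt_of_lt_of_le ?_ m2
      calc _ ≤ (d * μ j + c * μ j * |a|) * Real.exp (b * |a|) := by gcongr
        _ < _ := by
          simp only [K]
          nlinarith [mul_pos p (Real.exp_pos (b * |a|))]
    have ln : ∀ {v Φ} {t : ℝ} {y : Y}, Sol (1, 0) v Φ (t, y) →
        HasDerivAt (fun t => (Φ (t, y) : E)) (v ((t, y), Φ (t, y))) t := fun {v Φ t y} s =>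
      s.ode.self_of_nhds ▸ s.sm.diff.hasFDerivAt.comp_hasDerivAt t
        ((hasDerivAt_id t).prodMk (hasDerivAt_const t y))
    have k1 : ∀ z ∈ A j, z ∈ W j → (z, Ψ j z) ∈ Tc (A j) (Φ j) ρ C := fun ⟨T, y⟩ i m => by
      have i' := (h j _ i).2.2.2.2.1
      have m' := fun t (a : t ∈ Icc 0 T) => w2 j _ ((w2 j _ m).2.2.2.2 t (Icc_subset_uIcc a))
      have g0 : Ψ j (0, y) = x0 j y := (m' 0 ⟨le_rfl, (h j _ i).1.1⟩).2.2.2.1 rfl
      have tc : ∀ s ∈ Icc 0 T, (∀ t ∈ Icc 0 s, ‖Ψ j (t, y) - Φ j (t, y)‖ ≤ ρ) →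
          ((s, y), Ψ j (s, y)) ∈ Tc (A j) (Φ j) ρ C := fun s a e =>
        ⟨i' s a, mem_closedBall_iff_norm.2 (e s ⟨a.1, le_rfl⟩), (h j _ (i' s a)).2.2.2.2.2.2
          (fun t => Ψ j (t, y)) g0 fun t f => ⟨ln (m' t ⟨f.1, f.2.trans a.2⟩).1, e t f⟩⟩
      refine tc T ⟨(h j _ i).1.1, le_rfl⟩ (boot2 b0 (mul_nonneg c0 (l _ i).1)
        (fun s a => (ln (m' s a).1).fun_sub (ln (h j _ (i' s a)).2.1)) (fun s a e => ?_)
        (by rw [g0, norm_sub_rev]; exact (hd' j _ i).zero) (l _ i).2)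
      have sg' : ∀ q ∈ segment ℝ ((s, y), Φ j (s, y)) ((s, y), Ψ j (s, y)),
          q ∈ Tc (A j) (Φ j) ρ C := fun q i => by
        rw [← Prod.image_mk_segment_right] at i
        obtain ⟨x, i, rfl⟩ := i
        exact sg j _ _ (tc s a e) x i
      have u := (convex_segment _ _).norm_image_sub_le_of_norm_fderiv_le (𝕜 := ℝ) (f := v j)
        (fun q i => (sv j q (sg' q i)).1.diff) (fun q i => (hb j q (sg' q i)).fd.zero)
        (left_mem_segment _ _ _) (right_mem_segment _ _ _)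
      rw [← sub_sub_sub_cancel_left _ _ (v j ((s, y), Ψ j (s, y)))]
      rw [Prod.mk_sub_mk, sub_self, Prod.norm_mk, norm_zero, max_eq_right (norm_nonneg _)] at u
      exact norm_sub_le_of_le u (hc j _ (tc s a e)).zero
    refine fun ⟨T, y⟩ i => (and_iff_left_of_imp (k1 _ i)).2 ?_
    have := FiniteDimensional.proper ℝ E
    have T0 : 0 ≤ T := (h j _ i).1.1
    have i' := (h j _ i).2.2.2.2.1
    have mk : ∀ s ∈ Icc 0 T, ∀ x, ((s, y), x) ∈ Tc (A j) (Φ j) ρ C → ((s, y), x) ∈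
        (fun p : ℝ × E => ((p.1, y), Φ j (p.1, y) + p.2)) '' Icc 0 T ×ˢ Metric.closedBall 0 ρ ∩
          Prod.snd ⁻¹' C := fun s a x e =>
      ⟨⟨(s, x - Φ j (s, y)), ⟨a, by simpa [dist_eq_norm] using e.2.1⟩, by simp⟩, e.2.2⟩
    refine w3 j T y (h j _ i).2.2.2.1 _ ?_ (((isCompact_Icc.prod
      (isCompact_closedBall _ _)).image_of_continuousOn fun p a => ?_).inter_right
      (hC.preimage continuous_snd)) (mk 0 ⟨le_rfl, T0⟩ _ ⟨i' 0 ⟨le_rfl, T0⟩,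
        mem_closedBall_iff_norm'.2 ((hd' j _ i).zero.trans ?_), (h j _ i).2.2.2.2.2.1⟩)
      fun s a e => ?_
    · rintro _ ⟨⟨p, a, rfl⟩, e⟩
      exact (hU j).2.2.2 ⟨i' _ a.1, by simpa using a.2, e⟩
    · exact ((continuousAt_fst.prodMk continuousAt_const).prodMk
        (((ln (h j _ (i' _ a.1)).2.1).continuousAt.comp continuousAt_fst).add
          continuousAt_snd)).continuousWithinAt
    · simpa using (l _ (i' 0 ⟨le_rfl, T0⟩)).2.le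
    · rw [uIoo_of_le T0] at a
      exact mk s (Ioo_subset_Icc_self a) _ (k1 _ (i' s (Ioo_subset_Icc_self a)) e)
  refine ⟨min 1 (ρ / K), by positivity, W, Ψ, fun j => ⟨w1 j, fun z i =>
    ⟨(w2 j z i).1, (w2 j z i).2.1, (w2 j z i).2.2.2.1⟩, ex j⟩, ?_⟩
  let I := {i : {j // μ j ≤ min 1 (ρ / K)} × ℝ × Y // i.2 ∈ A i.1}
  have m1 : ∀ i : I, μ i.1.1 ≤ 1 := fun i => i.1.1.2.trans (min_le_left _ _)
  have H : ∀ i : I, ∀ s ∈ Icc (0 : ℝ) 1, pt (1, 0) Prod.fst s i.1.2 ∈ A i.1.1 := fun i s m => by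
    have := (h _ _ i.2).1.1
    rw [pt_fst]
    exact (h _ _ i.2).2.2.2.2.1 _ ⟨mul_nonneg (sub_nonneg.2 m.2) this,
      mul_le_of_le_one_left this (sub_le_self _ m.1)⟩
  have G := fun (i : I) s m => ex _ i.1.1.2 _ (H i s m)
  have sf : ∀ z : ℝ × Y, SA (pt (1, 0) Prod.fst 1) z := fun z => sa_foot (.of contDiff_fst)
  have e0 : ∀ i : I, (fun w => Ψ i.1.1 (pt (1, 0) Prod.fst 1 w)) =ᶠ[𝓝 i.1.2] fun w =>
      x0 i.1.1 w.2 := fun i =>
    ((sf _).cont.eventually ((w1 _).eventually_mem (G i 1 ⟨zero_le_one, le_rfl⟩).1)).mono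
      fun w m => by
        rw [foot_fst] at m ⊢
        exact (w2 _ _ m).2.2.2.1 rfl
  have k1 : Oj k (fun i : I => i.1.2) (fun i => fderiv ℝ fun w => Φ i.1.1 (pt (1, 0) Prod.fst 1 w))
    1 := foot_fst (Y := Y) ▸ h1.at (fun i : I => i.1.1.1) fun i => i.2
  have k0 := (h0.at (fun i : I => i.1.1.1) fun i => i.2).congr
    (g := fun i w => Φ i.1.1 (pt (1, 0) Prod.fst 1 w) - Ψ i.1.1 (pt (1, 0) Prod.fst 1 w))
    fun i => (e0 i).mono fun w a => by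
      simp only [a]
      rw [foot_fst]
  have u1 := hv.at (fun i : {i : I × (ℝ × Y) × E // i.2 ∈ Tc (A i.1.1.1) (Φ i.1.1.1) ρ C} =>
    i.1.1.1.1.1) fun i => i.2
  have u2 := hd.at (fun i : {i : I × (ℝ × Y) × E // i.2 ∈ Tc (A i.1.1.1) (Φ i.1.1.1) ρ C} =>
    i.1.1.1.1.1) fun i => i.2
  refine oj_lip (e := (1, 0)) (τ := fun _ => Prod.fst) (S := fun i : I => Tc (A i.1.1) (Φ i.1.1) ρ C)
    (fun i => .of contDiff_fst) ((Oj.zero (fun _ => contDiffAt_fst) (fun _ => zero_le_one)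
      ⟨a, fun i => by simpa [abs_of_nonneg (h _ _ i.2).1.1] using (h _ _ i.2).1.2⟩).succ
      ((Oj.cst (.fst ℝ ℝ Y)).congr' fun _ _ => fderiv_fst))
    (fun i s m => ⟨(h _ _ (H i s m)).2.1, (w2 _ _ (G i s m).1).1, sg _ _ _ (G i s m).2⟩)
    (fun i => sv _) u1 ((u1.pred.sub (u2.mono le_rfl fun i => m1 i.1.1)).congr' (by simp)) u2 k1
    ((k1.sub (k0.fd.mono le_rfl m1)).congr fun i => ?_) k0
  filter_upwards [((h _ _ (H i 1 ⟨zero_le_one, le_rfl⟩)).2.1.sm.comp (sf _)).ev,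
    ((w2 _ _ (G i 1 ⟨zero_le_one, le_rfl⟩).1).1.sm.comp (sf _)).ev] with w p q
  rw [fderiv_fun_sub p.diff q.diff, sub_sub_cancel]

end Vale.Agent.P354YQ
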