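import Vale.Agent.P354YQ.Rq
import Vale.Agent.P354YQ.One
import Vale.Agent.P354YI.Defs

/-!
REG: a map close to the identity puts the metric into the gauge.
-/

set_option maxSynthPendingDepth 3

open scoped ContDiff
open Set Filter Topology

noncomputable section

namespace Vale.Agent.P354YQ

open Vale.Agent.P354n (R4)
open Vale.Agent.P354R (Met Pull)
open Vale.Agent.P354XD (tb rp_tb)
open Vale.Agent.P354XE (Tw eT pb Bd)
open Vale.Agent.P354XV (Jet jet Lv Gq jet_cd)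
open Vale.Agent.P354YI (Oj Os Jb RgIn REG)

variable {J I : Type} {n : ℕ} {x : J → R4} {g g' : J → Tw} {μ : J → ℝ} {D : J → Set R4}

theorem Mt.ix (h : Mt n x g D) (φ : I → J) :
    Mt n (fun i => x (φ i)) (fun i => g (φ i)) fun i => D (φ i) :=
  ⟨fun _ => h.op _, fun _ => h.met _, fun _ => h.mem _, h.bd.ix φ,
    h.low.imp fun _ c => ⟨c.1, fun _ => c.2 _⟩⟩

theorem Mt.near (h : Mt n x g D) (m : ∀ j, Met (g' j) (D j))
    (d : Oj n x (fun j y => tb (g j) y - tb (g' j) y) μ) : ∃ η > 0, ∀ {I : Type} (φ : I → J),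
    (∀ i, μ (φ i) ≤ η) → Mt n (fun i => x (φ i)) (fun i => g' (φ i)) fun i => D (φ i) := by
  obtain ⟨C, C0, hC⟩ := h.low
  obtain ⟨c, c0, hc⟩ := d.val
  refine ⟨min 1 (1 / (2 * C * c + 1)), by positivity, fun φ e => ⟨fun _ => h.op _, fun _ => m _,
    fun _ => h.mem _, ((h.bd.ix φ).sub ((d.ix φ).mono le_rfl fun i =>
      (e i).trans (min_le_left _ _))).congr' (by simp), 2 * C, by positivity, fun i v => ?_⟩⟩
  have a := (le_div_iff₀ (by positivity)).1 ((e i).trans (min_le_right _ _))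
  have b := (tb (g (φ i)) (x (φ i)) - tb (g' (φ i)) (x (φ i))).le_of_opNorm_le (hc _) v
  have k := (hC (φ i) v).trans (mul_le_mul_of_nonneg_left
    ((norm_le_norm_add_norm_sub' _ (tb (g' (φ i)) (x (φ i)) v)).trans (add_le_add le_rfl b)) C0)
  nlinarith [d.nn (φ i), norm_nonneg v, mul_le_mul_of_nonneg_right a (norm_nonneg v),
    mul_nonneg (d.nn (φ i)) (norm_nonneg v)]

/-- The data of REG. -/
structure Cf (N : P354XV.Nat) (m : ℕ) (B r : ℝ) where
  ε : ℝ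
  A : Set R4
  O : Set R4
  D : Set R4
  g0 : Tw
  g : Tw
  f : R4 → ℝ
  π : R4 → R4
  w0 : R4 → R4
  h : RgIn N m B r ε A O D g0 g f π w0

theorem reg : REG := by
  refine fun N hN k => ⟨k + N.m + 3, fun B r hr => ?_⟩
  let J := Cf N (k + N.m + 3) B r
  let T0 := {i : J × R4 // ∃ z ∈ i.1.A, dist i.2 z ≤ r ∧ 0 ≤ i.2.1}
  have t0 := fun i : T0 => i.1.1.h.tube _ i.2.choose_spec.1 _ i.2.choose_spec.2.1 i.2.choose_spec.2.2
  have sm := fun (i : T0) {g} (m : Met g i.1.1.D) v w =>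
    (m.smooth v w).contDiffAt (i.1.1.h.lv.isOpen.mem_nhds (t0 i).1)
  have M0 : Mt (k + N.m + 3) (fun i : T0 => i.1.2) (fun i => i.1.1.g0) fun i => i.1.1.D :=
    ⟨fun i => i.1.1.h.lv.isOpen, fun i => i.1.1.h.lv0.met, fun i => (t0 i).1,
      (Oj.tb (fun i => sm i i.1.1.h.lv0.met) fun i => (t0 i).2.1).wt (c := B)
        (fun _ => zero_le_one) fun _ => (mul_one _).ge, |B|, abs_nonneg _, fun i v => by
      conv_lhs => rw [← (P354RC.inv_of_inj ((rp_tb i.1.1.h.lv.isOpen i.1.1.h.lv0.met).nd _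
        (t0 i).1)).inverse_apply_self v]
      exact ContinuousLinearMap.le_of_opNorm_le _ ((t0 i).2.2.1.trans (le_abs_self B)) _⟩
  have d0 : Oj (k + N.m + 3) (fun i : T0 => i.1.2) (fun i y => tb i.1.1.g0 y - tb i.1.1.g y)
      fun i => i.1.1.ε :=
    ((Oj.tb (fun i v w => (sm i i.1.1.h.lv.met v w).sub (sm i i.1.1.h.lv0.met v w))
      fun i => (t0 i).2.2.2).congr' fun _ _ => (P354YI.tb_sub _ _ _).symm).symm
  obtain ⟨η, η0, M1⟩ := M0.near (fun i => i.1.1.h.lv.met) d0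
  obtain ⟨a, a0, ha⟩ := (oj_jt (k := 1) (m := N.m) (M0.bd.le (by omega))).fd.val
  obtain ⟨c, c0, hc⟩ := (oj_jt (k := 0) (m := N.m) (g := fun i : T0 => i.1.1.g0 - i.1.1.g)
    ((d0.le (by omega)).congr' fun _ _ => P354YI.tb_sub _ _ _)).val
  let ρ := min (r / (2 * (a + 1))) (|B| + 1)⁻¹
  let ε := min η (r / (2 * (c + 1)))
  have r0 : 0 < ρ := by positivity
  have r1 : ρ * (2 * (a + 1)) ≤ r := (le_div_iff₀ (by positivity)).1 (min_le_left _ _)
  have r2 : ρ ≤ r := by nlinarith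
  let Φ : J → R4 → R4 × R4 := fun j x => (x, j.f x • eT)
  let C : Set (R4 × R4) := {x | 0 ≤ x.1.1}
  let S : J → Set (R4 × Jet N.m × R4) := fun j =>
    {x | ∃ z ∈ j.A, dist x (j.π z, jet N.m j.g0 z, j.f z • eT) ≤ r}
  have hS : ∀ j, ∀ x ∈ S j, x ∈ N.U ∧ Jb (k + N.m + 3) N.F x B := fun j x ⟨z, a, b⟩ =>
    j.h.nat z a x b
  have hF : Os (k + 2) S (fun _ => N.F) 1 := (Oj.of1 (fun i => hN.sm.contDiffAt
    (hN.opn.mem_nhds (hS _ _ i.2).1)) fun i => (hS _ _ i.2).2).le (by omega)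
  have f1 : ∀ j : J, ∀ z ∈ j.A, j.f z ∈ Icc (|B| + 1)⁻¹ (|B| + 1) := fun j z i => by
    obtain ⟨-, p, q, -⟩ := j.h.bd z i
    have := q.nonneg
    have := (le_abs_self _).trans q.zero
    rw [abs_of_nonneg q.nonneg]
    have : 0 < j.f z := by
      by_contra a
      nlinarith
    exact ⟨by rw [inv_le_iff_one_le_mul₀' (by positivity)]; nlinarith, by linarith⟩
  have f0 : ∀ j : J, ∀ z ∈ j.A, j.f z ≠ 0 := fun j z i => (lt_of_lt_of_le (by positivity) (f1 j z i).1).ne'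
  have nO := fun (j : J) z (i : z ∈ j.A) => j.h.opn.mem_nhds (j.h.sub i)
  have hf : Os (k + 2) (fun j : J => j.A) (fun j => j.f) 1 := (Oj.of1 (fun i =>
    i.1.1.h.sm.1.contDiffAt (nO _ _ i.2)) fun i => (i.1.1.h.bd _ i.2).2.2.1).le (by omega)
  have hf' : Os (k + 2) (fun j : J => j.A) (fun j z => (j.f z)⁻¹) 1 :=
    Oj.comp hf.sm (k + 2) hf.fd (Oj.fix isCompact_Icc (F := fun x : ℝ => x⁻¹) (fun y i =>
      contDiffAt_inv ℝ (lt_of_lt_of_le (by positivity) i.1).ne') fun i => f1 _ _ i.2)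
  have hπ : Os (k + 1) (fun j : J => j.A) (fun j => fderiv ℝ j.π) 1 := (Oj.of1 (fun i =>
    P354YI.at_fd (i.1.1.h.sm.2.1.contDiffAt (nO _ _ i.2))) fun i =>
      (i.1.1.h.bd _ i.2).2.2.2.1).le (by omega)
  have tT : ∀ j, ∀ q ∈ Tc j.A (Φ j) ρ C, ∃ z ∈ j.A, dist q.2.1 z ≤ r ∧ 0 ≤ q.2.1.1 := fun j q i =>
    ⟨_, i.1, ((le_max_left _ _).trans i.2.1).trans r2, i.2.2⟩
  have tS : ∀ j : J, j.ε ≤ ε → ∀ q ∈ Tc j.A (Φ j) ρ C, segment ℝ
      (j.π q.1, jet N.m j.g0 q.2.1, q.2.2) (j.π q.1, jet N.m j.g q.2.1, q.2.2) ⊆ S j := by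
    intro j e q i
    have d := fun y (a : y ∈ Metric.closedBall q.1 r ∩ {y : R4 | 0 ≤ y.1}) =>
      (⟨(j, y), _, i.1, a⟩ : T0)
    have n1 : dist q.2.1 q.1 ≤ ρ := (le_max_left _ _).trans i.2.1
    have h1 := ((convex_closedBall q.1 r).inter (convex_halfSpace_ge (f := Prod.fst)
      (LinearMap.fst ℝ ℝ _).isLinear 0)).norm_image_sub_le_of_norm_fderiv_le (𝕜 := ℝ) (C := a)
      (fun y a => ((jet_cd N.m j.h.lv.isOpen j.h.lv0.met).contDiffAt (j.h.lv.isOpen.mem_nhds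
        (j.h.tube _ i.1 y a.1 a.2).1)).differentiableAt (by simp))
      (fun y m => by simpa using ha ⟨(j, y), _, i.1, m⟩)
      ⟨Metric.mem_closedBall_self hr.le, (j.h.bd _ i.1).1.1⟩ ⟨n1.trans r2, i.2.2⟩
    have h2 := hc ⟨(j, _), tT j q i⟩
    rw [jet_sub j.h.lv.isOpen j.h.lv0.met j.h.lv.met (t0 ⟨(j, _), tT j q i⟩).1] at h2
    have h3 := (le_div_iff₀ (by positivity)).1 (e.trans (min_le_right _ _))
    have h4 : 0 ≤ j.ε := d0.nn ⟨(j, _), tT j q i⟩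
    have h5 := mul_le_mul_of_nonneg_left (dist_eq_norm q.2.1 q.1 ▸ n1) a0
    rw [← Prod.image_mk_segment_right, ← Prod.image_mk_segment_left]
    rintro _ ⟨_, ⟨ξ, p, rfl⟩, rfl⟩
    refine ⟨_, i.1, max_le (by simpa using hr.le) (max_le
      ((convex_closedBall _ _).segment_subset (mem_closedBall_iff_norm.2 (by nlinarith))
        (mem_closedBall_iff_norm.2 ?_) p) (((le_max_right _ _).trans i.2.1).trans r2))⟩
    rw [← sub_sub_sub_cancel_left _ _ (jet N.m j.g0 q.2.1)]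
    exact (norm_sub_le_of_le h1 h2).trans (by nlinarith)
  have oO : ∀ j : J, IsOpen {z ∈ j.O | j.f z ≠ 0} := fun j =>
    j.h.sm.1.continuousOn.isOpen_inter_preimage j.h.opn isOpen_ne
  have S0 : ∀ j : J, ∀ z ∈ j.A, Sol eT (vg N j.π j.f j.g0) (Φ j) z := fun j z i => by
    have u := fun x => interior_subset (a := x) (s := {x | (x ∈ j.O ∧ j.f x ≠ 0) ∧ x ∈ j.D ∧
      Gq N (j.π x) j.g0 (fun x => j.f x • eT) x})
    simpa only [fderiv_id, ContinuousLinearMap.id_apply, id] using (rg_sol (b := id) hN j.h.lv0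
      ⟨isOpen_interior, j.h.lv.isOpen, j.h.lv0.met, contDiffOn_id, fun x a => (u x a).2.1,
        fun x _ => by simpa using Function.injective_id, fun x _ => by simp⟩
      (j.h.sm.1.mono fun x a => (u x a).1.1) (fun x a => ⟨(u x a).1.2, by simp, (u x a).2.2⟩)
      (mem_interior_iff_mem_nhds.2 (((oO j).eventually_mem ⟨j.h.sub i, f0 j z i⟩).and
        ((j.h.lv.isOpen.eventually_mem (j.h.tube z i z (by simpa using hr.le)
          (j.h.bd z i).1.1).1).and (j.h.gau z i))))).1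
  have ft := fun (j : J) z i => j.h.star z i 0 left_mem_uIcc
  let J1 := {j : J // j.ε ≤ ε}
  let T := {i : J1 × R4 × R4 × R4 // i.2 ∈ Tc i.1.1.A (Φ i.1) ρ C}
  let ψ : T → T0 := fun i => ⟨(i.1.1, i.1.2.2.1), tT _ _ i.2⟩
  have MT := M1 ψ fun i => i.1.1.2.trans (min_le_left _ _)
  have sπ := fun i : T => i.1.1.1.h.sm.2.1.contDiffAt (nO _ _ i.2.1)
  have hw : ∃ C, ∀ i : T, ‖i.1.2.2.2‖ ≤ C := ⟨ρ + (|B| + 1), fun i => by
    rw [← sub_add_cancel i.1.2.2.2 (Φ i.1.1 i.1.2.1).2]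
    refine norm_add_le_of_le (dist_eq_norm i.1.2.2.2 _ ▸ (le_max_right _ _).trans i.2.2.1) ?_
    have := f1 _ _ i.2.1
    simpa [Φ, eT, Prod.norm_def, abs_of_pos (lt_of_lt_of_le (by positivity) this.1)] using
      ⟨this.2, by positivity⟩⟩
  let L : R4 →L[ℝ] R4 := (ContinuousLinearMap.inr ℝ ℝ _).comp (.snd ℝ ℝ _)
  obtain ⟨ε2, e2, W, Ψ, hΨ, cl⟩ := oj_ex1 (J := J1) (k := k) (A := fun j => j.1.A) (a := B)
    (v := fun j => vg N j.1.π j.1.f j.1.g0) (v' := fun j => vg N j.1.π j.1.f j.1.g)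
    (Φ := fun j => Φ j) (μ := fun j => j.1.ε) (x0 := fun j y => ((0, y), j.1.w0 (0, y))) (C := C)
    (U := fun j => Ug N j.1.π {z ∈ j.1.O | j.1.f z ≠ 0} j.1.g0 j.1.D ∩
      Ug N j.1.π {z ∈ j.1.O | j.1.f z ≠ 0} j.1.g j.1.D)
    (isClosed_le continuous_const continuous_fst.fst) (convex_halfSpace_ge (f := fun x : R4 × R4 =>
      x.1.1) ((LinearMap.fst ℝ ℝ _).comp (LinearMap.fst ℝ R4 R4)).isLinear 0) r0
    (fun j => by
      have p := j.1.h.sm.2.1.mono (sep_subset _ fun z => j.1.f z ≠ 0)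
      have q := j.1.h.sm.1.mono (sep_subset _ fun z => j.1.f z ≠ 0)
      refine ⟨(ug_open hN (oO _) p j.1.h.lv.isOpen j.1.h.lv0.met).inter
        (ug_open hN (oO _) p j.1.h.lv.isOpen j.1.h.lv.met),
        (vg_cd hN (oO _) p q (fun _ i => i.2) j.1.h.lv.isOpen j.1.h.lv0.met).mono inter_subset_left,
        (vg_cd hN (oO _) p q (fun _ i => i.2) j.1.h.lv.isOpen j.1.h.lv.met).mono inter_subset_right,
        fun q i => ?_⟩
      have u := And.intro (j.1.h.sub i.1) (f0 _ _ i.1)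
      exact ⟨⟨u, (t0 ⟨(_, _), tT _ q i⟩).1, (hS _ _ (tS _ j.2 q i (left_mem_segment _ _ _))).1⟩,
        u, (t0 ⟨(_, _), tT _ q i⟩).1, (hS _ _ (tS _ j.2 q i (right_mem_segment _ _ _))).1⟩)
    (fun j z i => ⟨(j.1.h.bd z i).1, S0 _ z i, (j.1.h.bd z i).1.1,
      have s : SA (fun y => ((0, y) : R4)) z.2 := .of (by fun_prop)
      s.prod ((SA.of_on j.1.h.sm.2.2 j.1.h.opn (j.1.h.sub (ft _ z i))).comp s),
      fun s m => j.1.h.star z i s (Icc_subset_uIcc m), le_refl (0 : ℝ), fun γ g0 h => by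
        have := monotoneOn_of_hasDerivWithinAt_nonneg (convex_Icc 0 z.1) (f := fun t => (γ t).1.1)
          (fun t m => (h t m).1.continuousAt.fst.fst.continuousWithinAt)
          (fun t m => (((ContinuousLinearMap.fst ℝ ℝ _).comp (.fst ℝ R4 R4)).hasFDerivAt.comp_hasDerivAt
            t (h t (interior_subset m)).1).hasDerivWithinAt) (fun t m => by
            have p := (f1 _ _ (j.1.h.star z i t (Icc_subset_uIcc (interior_subset m)))).1
            have q := (abs_le.1 (((norm_fst_le _).trans (norm_snd_le _)).trans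
              ((h t (interior_subset m)).2.trans (min_le_right _ _)))).1
            refine mul_nonneg (inv_nonneg.2 (le_trans (by positivity) p)) ?_
            simp only [Φ, eT, Prod.snd_sub, Prod.fst_sub, Prod.smul_fst, smul_eq_mul, mul_one] at q
            exact sub_nonneg.1 (by linarith))
          ⟨le_rfl, (j.1.h.bd z i).1.1⟩ ⟨(j.1.h.bd z i).1.1, le_rfl⟩ (j.1.h.bd z i).1.1
        simp only [g0] at this
        exact this⟩)
    (oj_vg (U := fun _ => N.U) (Mg := fun _ => N.Mg) sπ (hπ.at _ fun i => i.2.1)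
      (hf'.at _ fun i => i.2.1) hw ((M0.ix ψ).le (by omega))
      (hF.at _ fun i => tS _ i.1.1.2 _ i.2 (left_mem_segment _ _ _)))
    (oj_vg_sub (U := fun _ => N.U) (Mg := fun _ => N.Mg) sπ (hπ.at _ fun i => i.2.1).pred
      (hf'.at _ fun i => i.2.1).pred hw ((M0.ix ψ).le (by omega)) (MT.le (by omega))
      ((d0.ix ψ).le (by omega)) (fun i => tS _ i.1.1.2 _ i.2)
      (hF.at (fun i : {i : T × _ // i.2 ∈ S i.1.1.1.1} => i.1.1.1.1.1) fun i => i.2))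
    (oj_cd (J := {i : J1 × R4 // i.2 ∈ i.1.1.A}) (f := fun _ => L) (G := fun i => Φ i.1.1)
      (fun _ => L.contDiff.contDiffAt)
      (fun i => (S0 _ _ (ft _ _ i.2)).sm.at) ((Oj.cst L).congr' fun _ _ => L.fderiv)
      (oj_fp (fun _ => contDiffAt_id) ((Oj.cst (.id ℝ R4)).congr' fun _ _ => fderiv_id)
        ((hf.at _ fun i => ft _ _ i.2).pred.smull (.cst eT))))
    (by
      have u := oj_cl L (((Oj.of (fun i : {i : J1 × R4 // i.2 ∈ i.1.1.A} =>
        (i.1.1.1.h.sm.2.2.contDiffAt (nO _ _ (ft _ _ i.2))).sub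
          ((i.1.1.1.h.sm.1.contDiffAt (nO _ _ (ft _ _ i.2))).smul contDiffAt_const))
        fun i => (i.1.1.1.h.bd _ (ft _ _ i.2)).2.2.2.2 rfl).le (m' := k + 1) (by omega)).symm)
      exact (u.clm (.inr ℝ R4 R4)).congr' fun _ _ => Prod.ext (sub_self _) rfl)
  obtain ⟨C1, C10, hC1⟩ := ((cl.clm (.fst ℝ _ _)).neg.congr'
    (g := fun i y => (Ψ i.1.1 y).1 - y) fun _ _ => (neg_sub _ _).symm).bd
  refine ⟨min (min ε ε2) (1 / (C1 + 1)), by positivity, C1, fun e A O D g0 g f π w0 h he => ?_⟩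
  let j : J1 := ⟨⟨e, A, O, D, g0, g, f, π, w0, h⟩, he.trans ((min_le_left _ _).trans (min_le_left _ _))⟩
  have e3 : j.1.ε ≤ ε2 := he.trans ((min_le_left _ _).trans (min_le_right _ _))
  have e4 := (le_div_iff₀ (by positivity)).1 (he.trans (min_le_right _ _))
  obtain ⟨w1, w2, w3⟩ := hΨ j
  have s2 : ∀ z ∈ W j, SA (fun y => (Ψ j y).1) z := fun z i => (w2 z i).1.sm.clm (.fst ℝ R4 R4)
  have w4 : IsOpen {z ∈ W j | 0 < LinearMap.det (fderiv ℝ (fun y => (Ψ j y).1) z : R4 →ₗ[ℝ] R4)} :=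
    isOpen_iff_mem_nhds.2 fun z i => (w1.eventually_mem i.1).and
      ((ContinuousLinearMap.continuous_det.continuousAt.comp
        (s2 z i.1).fderiv.cont).eventually_const_lt i.2)
  have P := pull_of w4 h.lv.isOpen h.lv.met fun z i => ⟨s2 z i.1, (w2 z i.1).2.1.2.2.1, i.2.ne'⟩
  refine ⟨_, _, w4, fun z i => ⟨(w3 e3 z i).1, ?_⟩, fun z i => (w2 z i.1).2.1.1.1.1, P,
    fun z i => ?_, fun z i => ⟨(hC1 ⟨(⟨j, e3⟩, z), i⟩).mono k.le_succ le_rfl, (w3 e3 z i).2.2.2⟩⟩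
  · have h1 : ‖fderiv ℝ (fun y => (Ψ j y).1 - y) z‖ ≤ C1 * e := (hC1 ⟨(⟨j, e3⟩, z), i⟩).fd.zero
    rw [fderiv_fun_sub (s2 z (w3 e3 z i).1).diff differentiableAt_fun_id, fderiv_fun_id,
      norm_sub_rev] at h1
    have h4 : 0 ≤ e := cl.nn ⟨(⟨j, e3⟩, z), i⟩
    refine det_near (A := .id ℝ R4) zero_le_one (by simp) ((one_mul _).trans_lt (h1.trans_lt ?_))
      (by simp)
    rcases h4.eq_or_lt with p | p
    · simp [← p]
    · nlinarith
  · obtain ⟨p, q, u⟩ := w2 z i.1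
    have sf := (SA.of_on h.sm.1 h.opn q.1.1.1).diff
    refine ⟨i.2, rg_gq hN h.lv P i i.2 sf q.1.1.2 p q.2.2.2, fun a => ?_⟩
    have e : (0, z.2) = z := Prod.ext a.symm rfl
    have e' := u a
    simp only [e] at e'
    exact ⟨congrArg Prod.fst e', (p.vel (sf.continuousAt.eventually_ne q.1.1.2)).eq_of_nhds.trans
      (congrArg Prod.snd e')⟩

end Vale.Agent.P354YQ
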