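import Vale.Agent.P354YQ.OgD
import Vale.Agent.P354CV.Bas
import Vale.Agent.P354XR.Es3
import Vale.Agent.P354SG.Inv

/-!
The chart of the final parameters, inverse maps, and the convergence to Kerr.
-/

set_option maxSynthPendingDepth 3

open scoped ContDiff
open Set Filter Topology

noncomputable section

namespace Vale.Agent.P354YQ

open Vale.Agent.P354n (R4)
open Vale.Agent.P354Z Vale.Agent.P354YI
open Vale.Agent.P354YT (prim_d prim_cd)

theorem prim_sm {H : ℝ × ℝ × ℝ → ℝ} (hH : ContDiff ℝ ∞ H) (M a r1 ρ : ℝ) (N : ℕ) :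
    ∀ᶠ C in atTop, ∀ M' a', |M' - M| + |a' - a| ≤ 1 → ∀ r ∈ Icc r1 ρ,
      Jb N (fun r => ∫ x in r1..r, (H (M, a, x) - H (M', a', x))) r (C * (|M' - M| + |a' - a|)) := by
  let J := {j : ℝ × ℝ × ℝ // |j.1 - M| + |j.2.1 - a| ≤ 1 ∧ j.2.2 ∈ Icc r1 ρ}
  have s : ∀ M a : ℝ, ContDiff ℝ ∞ fun x : ℝ => (M, a, x) := fun _ _ => by fun_prop
  have d : ∀ M a x : ℝ, fderiv ℝ (fun x : ℝ => (M, a, x)) x = (0 : ℝ →L[ℝ] ℝ).prod
      ((0 : ℝ →L[ℝ] ℝ).prod (.id ℝ ℝ)) := fun _ _ x => ((hasFDerivAt_const _ _).prodMk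
        ((hasFDerivAt_const _ _).prodMk (hasFDerivAt_id x))).fderiv
  have K := (isCompact_Icc (a := M - 1) (b := M + 1)).prod ((isCompact_Icc (a := a - 1)
    (b := a + 1)).prod (isCompact_Icc (a := r1) (b := ρ)))
  have n0 : ∀ j : J, 0 ≤ |j.1.1 - M| + |j.1.2.1 - a| := fun _ => by positivity
  have o : Oj N (fun j : J => j.1.2.2) (fun j x => H (M, a, x) - H (j.1.1, j.1.2.1, x))
      fun j => |j.1.1 - M| + |j.1.2.1 - a| := by
    refine (Oj.lip (fun _ => (s _ _).contDiffAt) (fun _ => (s _ _).contDiffAt)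
      (S := fun _ => Icc (M - 1) (M + 1) ×ˢ Icc (a - 1) (a + 1) ×ˢ Icc r1 ρ) (fun j => ?_) N
      ((Oj.cst _).congr' fun _ => d _ _) ((Oj.cst _).congr' fun _ => d _ _)
      ((Oj.const (v := fun j : J => (M - j.1.1, a - j.1.2.1, (0 : ℝ))) n0 ⟨1, fun j => ?_⟩).congr'
        fun _ _ => by simp) (Oj.fix K (fun _ _ => hH.contDiffAt) fun j => j.2)).mono le_rfl
      fun j => (one_mul _).le
    · have h1 := abs_le.1 ((le_add_of_nonneg_right (abs_nonneg _)).trans j.2.1)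
      have h2 := abs_le.1 ((le_add_of_nonneg_left (abs_nonneg _)).trans j.2.1)
      exact ((convex_Icc _ _).prod ((convex_Icc _ _).prod (convex_Icc _ _))).segment_subset
        ⟨⟨by linarith, by linarith⟩, ⟨by linarith, by linarith⟩, j.2.2⟩
        ⟨⟨by linarith, by linarith⟩, ⟨by linarith, by linarith⟩, j.2.2⟩
    · simp only [Prod.norm_def, Real.norm_eq_abs, abs_sub_comm M, abs_sub_comm a, abs_zero, one_mul,
        max_le_iff]
      exact ⟨le_add_of_nonneg_right (abs_nonneg _), le_add_of_nonneg_left (abs_nonneg _), n0 j⟩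
  have c : ∀ M' a', ContDiff ℝ ∞ fun x => H (M, a, x) - H (M', a', x) := fun _ _ =>
    (hH.comp (s _ _)).sub (hH.comp (s _ _))
  obtain ⟨C, c0, hC⟩ := o.val
  obtain ⟨D, -, hD⟩ := ((Oj.zero (fun j : J => (prim_cd (c j.1.1 j.1.2.1) r1).contDiffAt) n0
    ⟨C * |ρ - r1|, fun j => (intervalIntegral.norm_integral_le_of_norm_le_const fun x hx =>
      hC ⟨(j.1.1, j.1.2.1, x), j.2.1, uIcc_subset_Icc (left_mem_Icc.2 (j.2.2.1.trans j.2.2.2))
        j.2.2 (uIoc_subset_uIcc hx)⟩).trans (by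
          rw [mul_right_comm]
          gcongr
          exacts [sub_nonneg.2 j.2.2.1, j.2.2.2])⟩).succ
    ((o.clm (ContinuousLinearMap.smulRightL ℝ ℝ ℝ 1)).congr' fun j x =>
      (prim_d (c _ _).continuous r1 x).hasFDerivAt.fderiv)).bd
  exact (eventually_ge_atTop D).mono fun E k M' a' h r hr => (hD ⟨(M', a', r), h, hr⟩).mono
    N.le_succ (mul_le_mul_of_nonneg_right k (by positivity))

theorem ths : THS := fun M a r1 ρ N h0 ε hε => by
  have h1 := P354CV.hs_cd h0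
  have h2 := (contDiff_const (c := (2 : ℝ))).mul (P354CV.js_cd h0)
  obtain ⟨C, ⟨k1, k2⟩, c0⟩ := (((prim_sm h1 M a r1 ρ N).and (prim_sm h2 M a r1 ρ N)).and
    (eventually_gt_atTop 0)).exists
  refine ⟨min 1 (ε / C), by positivity, fun M' a' A B h t => ?_⟩
  have e : C * (|M' - M| + |a' - a|) ≤ ε := (le_div_iff₀' c0).1 (h.trans (min_le_right _ _))
  have s : ∀ M a : ℝ, Continuous fun x : ℝ => (M, a, x) := fun _ _ => by fun_prop
  refine ⟨A - fun r => ∫ x in r1..r, (hs M (M, a, x) - hs M (M', a', x)),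
    B - fun r => ∫ x in r1..r, (2 * js M (M, a, x) - 2 * js M (M', a', x)), fun r => ⟨?_, ?_⟩,
    fun r hr => ?_⟩
  · exact ((t r).1.sub (prim_d ((h1.continuous.comp (s _ _)).sub (h1.continuous.comp (s _ _)))
      r1 r)).congr_deriv (by simp)
  · exact ((t r).2.sub (prim_d ((h2.continuous.comp (s _ _)).sub (h2.continuous.comp (s _ _)))
      r1 r)).congr_deriv (by simp)
  · simp only [sub_sub_cancel]
    exact ⟨(k1 M' a' (h.trans (min_le_left _ _)) r hr).mono le_rfl e,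
      (k2 M' a' (h.trans (min_le_left _ _)) r hr).mono le_rfl e⟩

theorem inv_jb (n : ℕ) : ∃ C ≥ 0, ∀ (ψ b : R4 → R4) (p : R4) (ε : ℝ), ε ≤ 1 / 2 →
    ContDiffAt ℝ ∞ b p → ContDiffAt ℝ ∞ ψ (b p) → (∀ᶠ y in 𝓝 p, ψ (b y) = y) →
    Jb (n + 1) (fun y => ψ y - y) (b p) ε → Jb (n + 1) (fun y => b y - y) p (C * ε) := by
  let J := {j : (R4 → R4) × (R4 → R4) × R4 × ℝ // j.2.2.2 ≤ 1 / 2 ∧
    ContDiffAt ℝ ∞ j.2.1 j.2.2.1 ∧ ContDiffAt ℝ ∞ j.1 (j.2.1 j.2.2.1) ∧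
    (∀ᶠ y in 𝓝 j.2.2.1, j.1 (j.2.1 y) = y) ∧
    Jb (n + 1) (fun y => j.1 y - y) (j.2.1 j.2.2.1) j.2.2.2}
  have o : Oj (n + 1) (fun j : J => j.1.2.1 j.1.2.2.1) (fun j y => j.1.1 y - y) fun j => j.1.2.2.2 :=
    .of (fun j => j.2.2.2.1.sub contDiffAt_id) fun j => j.2.2.2.2.2
  have l := fun j : J => P354SG.inv_low (A := fderiv ℝ j.1.1 (j.1.2.1 j.1.2.2.1)) two_pos.le
    fun v => by
      have k := (fderiv ℝ (fun y => j.1.1 y - y) _).le_of_opNorm_le j.2.2.2.2.2.fd.zero v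
      rw [fderiv_fun_sub (j.2.2.2.1.differentiableAt (by simp)) differentiableAt_fun_id,
        fderiv_fun_id, sub_apply, ContinuousLinearMap.id_apply, norm_sub_rev] at k
      nlinarith [norm_sub_norm_le v (fderiv ℝ j.1.1 (j.1.2.1 j.1.2.2.1) v), j.2.1, norm_nonneg v]
  obtain ⟨C, c0, hC⟩ := ((Oj.comp (fun j : J => j.2.2.1) (n + 1) (P354SG.oj_rinv (fun j => j.2.2.1)
    (fun j => j.2.2.2.1) (fun j => j.2.2.2.2.1) (fun j => (l j).1) ⟨2, fun j => (l j).2⟩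
    (P354YO.oj_fd1 o fun j => j.2.1.trans (by norm_num))) o).neg.congr
      (g := fun j y => j.1.2.1 y - y) fun j => j.2.2.2.2.1.mono fun y h => by simp [h]).bd
  exact ⟨C, c0, fun ψ b p ε h1 h2 h3 h4 h5 => hC ⟨(ψ, b, p, ε), h1, h2, h3, h4, h5⟩⟩

theorem w_le {t y D : ℝ} (h1 : 1 ≤ D) (h : 1 + |t| ≤ D * (1 + |y|)) :
    (1 + |y|) ^ (-(7 / 5) : ℝ) ≤ D ^ 2 * (1 + |t|) ^ (-(7 / 5) : ℝ) := by
  have a := Real.rpow_le_rpow_of_nonpos (by positivity) h (show -(7 / 5 : ℝ) ≤ 0 by norm_num)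
  rw [Real.mul_rpow (by positivity) (by positivity)] at a
  refine le_trans ?_ (mul_le_mul_of_nonneg_left a (by positivity))
  rw [← mul_assoc, ← Real.rpow_two, ← Real.rpow_add (by positivity)]
  exact le_mul_of_one_le_left (by positivity) (Real.one_le_rpow h1 (by norm_num))

theorem w_two {b t y : ℝ} (hb : 0 ≤ b) (h : y ≤ t + b) : (1 + |y|) ^ (-(7 / 5) : ℝ) ≤
    16 * (1 + b) ^ 2 * 2 ^ b * (1 + |t|) ^ (-(7 / 5) : ℝ) * 2 ^ (t - y) := by
  have a := abs_nonneg y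
  have e : (1 + (t - y + b) / 4) ^ 2 ≤ 2 ^ b * 2 ^ (t - y) := by
    rw [← Real.rpow_add two_pos, Real.rpow_def_of_pos two_pos]
    refine (pow_le_pow_left₀ (by linarith) ((add_comm _ _).trans_le (Real.add_one_le_exp _)) 2).trans ?_
    rw [← Real.exp_nat_mul]
    exact Real.exp_le_exp.2 (by push_cast; nlinarith [Real.log_two_gt_d9])
  have k : |t - y| ≤ t - y + b + b := abs_le.2 ⟨by linarith, by linarith⟩
  refine (w_le (t := t) (D := 4 * (1 + b) * (1 + (t - y + b) / 4)) (by nlinarith) ?_).trans ?_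
  · nlinarith [abs_sub_abs_le_abs_sub t y, mul_nonneg hb (sub_nonneg.2 h), mul_nonneg hb a,
      mul_nonneg a (sub_nonneg.2 h), mul_nonneg (mul_nonneg hb a) (sub_nonneg.2 h)]
  · rw [mul_right_comm _ _ (2 ^ (t - y)), mul_pow, mul_pow, mul_assoc _ (2 ^ b)]
    gcongr
    norm_num

theorem dec : DEC := fun c o => by
  obtain ⟨b, hb⟩ : ∃ b, b = c.B + |c.bt c.R1| + c.c0 := ⟨_, rfl⟩
  have b1 := o.B
  have b2 := abs_nonneg (c.bt c.R1)
  have b3 := o.c0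
  have b0 : 0 ≤ b := by linarith
  have S : Summable fun j : ℕ => (1 + |(j : ℝ)|) ^ (-(7 / 5) : ℝ) := by
    simpa [add_comm] using (summable_nat_add_iff 1).2 (Real.summable_nat_rpow.2
      (show -(7 / 5 : ℝ) < -1 by norm_num))
  obtain ⟨s, hs⟩ : ∃ s, s = ∑' j : ℕ, (1 + |(j : ℝ)|) ^ (-(7 / 5) : ℝ) := ⟨_, rfl⟩
  have s0 : 0 ≤ s := hs ▸ tsum_nonneg fun _ => by positivity
  have c1 := o.C c.R1
  have c2 := o.C (c.Rs + 1)
  obtain ⟨P, hP⟩ : ∃ P, P = 16 * (1 + b) ^ 2 * 2 ^ b := ⟨_, rfl⟩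
  have p0 : 0 ≤ P := hP ▸ by positivity
  obtain ⟨Q, hQ⟩ : ∃ Q, Q = (1 + b) ^ 2 * (1 + b) ^ 2 * s := ⟨_, rfl⟩
  have q0 : 0 ≤ Q := hQ ▸ by positivity
  refine ⟨1 + c.C c.R1 * (1 + Q) + c.C (c.Rs + 1) * (P + Q),
    by nlinarith [mul_nonneg (zero_le_one.trans c2) (add_nonneg p0 q0)],
    fun E L η h hL h1 e0 d => ?_⟩
  have η0 := h.near.e0.trans e0
  have d0 : ∀ y ∈ E.O1, P354XD.nq y = 1 → E.eta c.L0 y ≤ _ := fun y hy n =>
    (P354XR.eta_mono E hL y).trans (d y hy n)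
  have T : ∀ t, c.c0 - b ≤ t → E.Tail c t (Q * η * (1 + |t|) ^ (-(7 / 5) : ℝ)) := fun t ht => by
    refine ⟨fun j => η * ((1 + b) ^ 2 * (1 + |t|) ^ (-(7 / 5) : ℝ)) *
      ((1 + b) ^ 2 * (1 + |(j : ℝ)|) ^ (-(7 / 5) : ℝ)), fun _ => by positivity, fun k => ?_,
      fun y hy n _ j a _ => (d0 y hy n).trans ?_⟩
    · rw [← Finset.mul_sum, ← Finset.mul_sum]
      refine (mul_le_mul_of_nonneg_left (mul_le_mul_of_nonneg_left (S.sum_le_tsum _
        fun _ _ => by positivity) (by positivity)) (by positivity)).trans_eq ?_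
      rw [hQ, hs]
      ring
    · have j0 : (0 : ℝ) ≤ j := j.cast_nonneg
      have y0 := mul_nonneg b0 (abs_nonneg y.1)
      have y1 := le_abs_self y.1
      have y2 := abs_nonneg y.1
      rw [mul_pow, sq (_ ^ _), ← mul_assoc]
      refine mul_le_mul (mul_le_mul (by nlinarith) (w_le (by linarith) ?_) (by positivity) η0)
        (w_le (by linarith) ?_) (by positivity) (by positivity)
      · have : |t| ≤ |y.1| + b := abs_le.2 ⟨by linarith, by linarith⟩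
        linarith
      · rw [abs_of_nonneg j0]
        linarith
  have A : ∀ t ρ, -c.B ≤ t → E.Past c (E.eta c.L0) ρ t (P * η * (1 + |t|) ^ (-(7 / 5) : ℝ)) :=
    fun t ρ ht => by
    refine ⟨e0.trans ?_, fun y hy n _ a => (d0 y hy n).trans (pow_le_pow_left₀ (by positivity)
      ((mul_le_mul_of_nonneg_left (w_two (t := t) b0 (by linarith)) η0).trans_eq ?_) 2)⟩
    · have := mul_le_mul_of_nonneg_left (w_two (t := t) (y := 0) b0 (by linarith)) η0
      simp only [abs_zero, add_zero, Real.one_rpow, mul_one, sub_zero] at this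
      exact this.trans_eq (by rw [hP]; ring)
    · rw [hP]; ring
  have R : c.R1 + 3 ≤ c.Rs + 1 := by linarith [o.R1, o.R2, o.Rs, (abs_nonneg _).trans_lt o.aM]
  have F : ∀ t, (c.C (c.Rs + 1) * (P * η * (1 + |t|) ^ (-(7 / 5) : ℝ) + Q * η *
      (1 + |t|) ^ (-(7 / 5) : ℝ))) ^ 2 ≤ ((1 + c.C c.R1 * (1 + Q) + c.C (c.Rs + 1) * (P + Q)) * η *
      (1 + |t|) ^ (-(7 / 5) : ℝ)) ^ 2 := fun t => pow_le_pow_left₀ (by positivity) (by
    rw [← add_mul, ← add_mul, ← mul_assoc, ← mul_assoc]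
    gcongr
    exact le_add_of_nonneg_left (by positivity)) 2
  refine ⟨?_, fun x hx n i => have r := (h.shape.rad1 x hx).2
    (h.near.n1 _ R x hx n r.1 _ _ (A _ _ r.2) (T _ (by linarith [r.2])) i).trans (F _),
    fun x hx n f i => have r := (h.shape.rad1 x hx).2
    (h.near.n2 _ R x hx n r.1 f _ _ (A _ _ r.2) (T _ (by linarith [r.2])) i).trans (F _)⟩
  have k := h.near.par _ (T _ (by linarith [neg_abs_le (c.bt c.R1)]))
  have w := mul_le_of_le_one_right (mul_nonneg q0 η0) (Real.rpow_le_one_of_one_le_of_nonpos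
    (le_add_of_nonneg_right b2) (show -(7 / 5 : ℝ) ≤ 0 by norm_num))
  have := mul_le_mul_of_nonneg_left (add_le_add e0 w) (zero_le_one.trans c1)
  nlinarith [mul_nonneg (mul_nonneg (zero_le_one.trans c2) (add_nonneg p0 q0)) η0]

end Vale.Agent.P354YQ
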