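import Vale.Agent.P354YQ.Max

/-!
Extension of a family of solutions past a lid.
-/

open Set Filter Topology
open scoped ContDiff

namespace Vale.Agent.P354YQ

variable {X Y E : Type} [NormedAddCommGroup X] [NormedSpace ℝ X] [NormedAddCommGroup Y]
  [NormedSpace ℝ Y] [NormedAddCommGroup E] [NormedSpace ℝ E]

/-- The lines of a family of solutions are solutions. -/
theorem crv_of_sol {e w : X} {v : X × E → E} {U : Set (X × E)} {Φ : X → E} {T : ℝ}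
    (h : ∀ t ∈ uIcc 0 T, Sol e v Φ (w + t • e) ∧ (w + t • e, Φ (w + t • e)) ∈ U) :
    Crv e v U w (Φ w) T fun t => Φ (w + t • e) := by
  have l : ∀ t : ℝ, HasDerivAt (fun t : ℝ => w + t • e) e t := fun t => by
    simpa using ((hasDerivAt_id t).smul_const e).const_add w
  exact ⟨by simp, fun t m => (h t m).2, fun t m => ((l t).continuousAt.eventually
    ((h t m).1.sm.ev.and (h t m).1.ode)).mono fun s a =>
      a.2 ▸ a.1.diff.hasFDerivAt.comp_hasDerivAt s (l s)⟩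

theorem pt_fst (s : ℝ) (z : ℝ × Y) : pt (1, 0) Prod.fst s z = ((1 - s) * z.1, z.2) := by
  simp [pt, sub_mul, Prod.ext_iff]

variable [FiniteDimensional ℝ Y] [FiniteDimensional ℝ E] {v : (ℝ × Y) × E → E}
  {U : Set ((ℝ × Y) × E)} {x0 : Y → E}

/-- **The maximal family** for initial values on the slice `z.1 = 0`. -/
theorem slice_max (hU : IsOpen U) (hv : ContDiffOn ℝ ∞ v U) (x0 : Y → E) :
    ∃ (W : Set (ℝ × Y)) (Φ : ℝ × Y → E), IsOpen W ∧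
      (∀ z ∈ W, Sol (1, 0) v Φ z ∧ (z, Φ z) ∈ U ∧ SA x0 z.2 ∧ (z.1 = 0 → Φ z = x0 z.2) ∧
        ∀ s ∈ uIcc 0 z.1, (s, z.2) ∈ W) ∧
      (∀ T y γ, SA x0 y → Crv (1, 0) v U (0, y) (x0 y) T γ → (T, y) ∈ W ∧ Φ (T, y) = γ T) ∧
      (∀ y, SA x0 y → ((0, y), x0 y) ∈ U → (0, y) ∈ W) ∧
      ∀ T y, SA x0 y → ∀ K ⊆ U, IsCompact K → ((0, y), x0 y) ∈ K →
        (∀ s ∈ uIoo 0 T, (s, y) ∈ W → ((s, y), Φ (s, y)) ∈ K) → (T, y) ∈ W := by
  obtain ⟨W, Φ, a, b, c, d, f, k⟩ := ode_max (e := ((1, 0) : ℝ × Y)) (τ := Prod.fst) hU hv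
    (O := {z | SA x0 z.2}) (isOpen_setOfPred_eventually_nhds.preimage continuous_snd)
    (fun _ _ => .of contDiff_fst) (by simp) (x0 := fun z => x0 z.2)
    (fun z m => SA.comp (by rwa [pt_fst]) (.of contDiff_snd)) fun z m s _ => by rwa [pt_fst]
  simp only [pt_fst, sub_self, zero_mul] at c d k
  refine ⟨W, Φ, a, fun z m => ⟨(c z m).1, (c z m).2.1, b m, (c z m).2.2.1, fun s i => ?_⟩,
    fun T y γ m g => d (T, y) m γ g, fun y m i => f (0, y) m rfl i, fun T y m K h1 h2 h3 h4 => ?_⟩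
  · obtain ⟨r, j, rfl⟩ := mem_uIcc_iff.1 i
    simpa using (c z m).2.2.2 _ (flip_mem j)
  · rcases eq_or_ne T 0 with rfl | n
    · exact f _ m rfl (h1 h3)
    refine k (T, y) m K h1 h2 h3 fun s i => h4 _ ?_
    have := i.1
    have := i.2
    rcases n.lt_or_gt with n | n
    · rw [uIoo_of_gt n]
      constructor <;> nlinarith
    · rw [uIoo_of_lt n]
      constructor <;> nlinarith

/-- **Extension past a lid.** -/
theorem rg_ext (hU : IsOpen U) (hv : ContDiffOn ℝ ∞ v U) {B : Set Y} (hB : IsCompact B)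
    (hx : ∀ y ∈ B, SA x0 y) {η : ℝ} (hη : 0 < η) {K : Set ((ℝ × Y) × E)} (hK : IsCompact K)
    (hKU : K ⊆ U) (h : ∀ y ∈ B, ∀ T ∈ Ico 0 η, ∃ γ, Crv (1, 0) v U (0, y) (x0 y) T γ ∧
      ∀ t ∈ Icc 0 T, ((t, y), γ t) ∈ K) :
    ∃ η2 > η, ∃ (W : Set (ℝ × Y)) (Φ : ℝ × Y → E), IsOpen W ∧ Icc 0 η2 ×ˢ B ⊆ W ∧
      (∀ z ∈ W, Sol (1, 0) v Φ z ∧ (z, Φ z) ∈ U ∧ (z.1 = 0 → Φ z = x0 z.2) ∧
        ∀ s ∈ uIcc 0 z.1, (s, z.2) ∈ W) ∧
      ∀ T y γ, SA x0 y → Crv (1, 0) v U (0, y) (x0 y) T γ → (T, y) ∈ W ∧ Φ (T, y) = γ T := by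
  obtain ⟨W, Φ, a, b, c, -, k⟩ := slice_max hU hv x0
  have m : ∀ y ∈ B, (η, y) ∈ W := fun y m => by
    obtain ⟨γ, g, i⟩ := h y m 0 ⟨le_rfl, hη⟩
    refine k η y (hx y m) K hKU hK (g.init ▸ i 0 ⟨le_rfl, le_rfl⟩) fun s j _ => ?_
    rw [uIoo_of_lt hη] at j
    obtain ⟨γ, g, i⟩ := h y m s (Ioo_subset_Ico_self j)
    exact (c s y γ (hx y m) g).2 ▸ i s ⟨j.1.le, le_rfl⟩
  obtain ⟨η2, h1, h2⟩ := ((hB.eventually_forall_of_forall_eventually (x₀ := η)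
    (P := fun s y => (s, y) ∈ W) fun y i => a.eventually_mem (m y i)).filter_mono
      (nhdsWithin_le_nhds (s := Ioi η))).and self_mem_nhdsWithin |>.exists
  exact ⟨η2, h2, W, Φ, a, fun z i => (b _ (h1 _ i.2)).2.2.2.2 _ (Icc_subset_uIcc i.1),
    fun z i => ⟨(b z i).1, (b z i).2.1, (b z i).2.2.2⟩, c⟩

end Vale.Agent.P354YQ
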