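import Vale.Agent.P354YQ.OgE
import Vale.Agent.P354CS.Pre
import Vale.Agent.P354YO.OutA

/-!
The geometry of the second chart of the block OUT.
-/

open scoped ContDiff
open Set Filter Topology

noncomputable section

namespace Vale.Agent.P354YQ

open Vale.Agent.P354n (R4)
open Vale.Agent.P354I (rm rp)
open Vale.Agent.P354XG (E6)
open Vale.Agent.P354XD (pj nq nq_pos)
open Vale.Agent.P354XE Vale.Agent.P354YO Vale.Agent.P354Z
open Vale.Agent.P354XA (hor rd_cont)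
open Vale.Agent.P354XR (rd_pj)
open Vale.Agent.P354XO (b4 dn4 Cht lift rr sc)
open Vale.Agent.P354XV (Lv lv_local th0)
open Vale.Agent.P354YT (tb)
open Vale.Agent.P354YA (Ag La Ok2)
open Vale.Agent.P354MG (Lc lo)
open Vale.Agent.P354CQ (Nrm)

variable {p : R4} {U : Set E6} {a : E6 → E6} {A B : ℝ → ℝ} {g gc : Tw}

/-- Unit spinors over a point. -/
theorem ex_lift (h : 0 < rd p) : ∃ y : E6, nq y = 1 ∧ pj y = p ∧ y.1 = p.1 ∧ y.2.1 = rd p := by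
  have r : rr p = rd p := (P354YR.rd_eq (Real.sqrt_nonneg _) (Real.sq_sqrt (by positivity)).symm).symm
  have k : (lift p).2.2 ≠ 0 ∧ pj (lift p) = p ∧ (lift p).1 = p.1 ∧ (lift p).2.1 = rr p := by
    rw [lift]
    split_ifs with k
    · have n : rr p + p.2.2.2 ≠ 0 := by rw [r]; positivity
      exact ⟨fun e => Complex.ofReal_ne_zero.2 n (congrArg Prod.fst e), P354XO.pj_sN n, rfl, rfl⟩
    · have n : rr p - p.2.2.2 ≠ 0 := by rw [r]; linarith [not_le.1 k, h]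
      exact ⟨fun e => Complex.ofReal_ne_zero.2 n (congrArg Prod.snd e), P354XO.pj_sS n, rfl, rfl⟩
  have n := nq_pos k.1
  refine ⟨sc ((√(nq (lift p)))⁻¹ : ℝ) (lift p), ?_, (P354XO.pj_sc (Complex.ofReal_ne_zero.2
    (by positivity)) _).trans k.2.1, k.2.2.1, k.2.2.2.trans r⟩
  rw [P354XO.nq_sc, Complex.normSq_ofReal, ← mul_inv, Real.mul_self_sqrt n.le,
    inv_mul_cancel₀ n.ne']

section chart
variable (h : Cht U a) (hA : ContDiff ℝ ∞ A) (hB : ContDiff ℝ ∞ B)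
include h hA hB

theorem sa_open : IsOpen (Sa U a A B) :=
  h.cn.shadow.preimage (sh_cont hA.continuous.neg hB.continuous.neg)

theorem bb_ev (hp : p ∈ Sa U a A B) : bb U a A B =ᶠ[𝓝 p] b4 U a ∘ sh (-A) (-B) := by
  classical
  exact mem_of_superset ((sa_open h hA hB).mem_nhds hp) fun _ k => piecewise_eq_of_mem _ _ _ k

omit hA hB in
theorem sa_ex (hp : p ∈ Sa U a A B) : ∃ x ∈ U, pj (a x) = sh (-A) (-B) p ∧
    bb U a A B p = pj x ∧ (a x).1 = p.1 - A (rd p) ∧ (a x).2.1 = rd p ∧ 0 < rd p := by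
  classical
  obtain ⟨_, ⟨x, hx, rfl⟩, e⟩ := id hp
  have r : (a x).2.1 = rd p := by rw [← rd_pj (h.pos x hx) (h.eqv.ne x hx), e, rd_sh]
  refine ⟨x, hx, e, (piecewise_eq_of_mem _ _ _ hp).trans ?_, congrArg Prod.fst e, r,
    r ▸ h.pos x hx⟩
  rw [Function.comp, ← e, h.b4_a hx]

theorem bb_loc (hp : p ∈ Sa U a A B) : ContDiffAt ℝ ∞ (bb U a A B) p ∧
    Function.Injective (fderiv ℝ (bb U a A B) p) ∧
    pb (bb U a A B) g =ᶠ[𝓝 p] pb (sh (-A) (-B)) (pb (b4 U a) g) := by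
  obtain ⟨-, -, -, -, -, -, r⟩ := sa_ex h hp
  have e := bb_ev h hA hB hp
  have s := sh_cd r.ne' hA.neg.contDiffAt hB.neg.contDiffAt
  have t := h.dif_b4.sm _ hp
  refine ⟨(t.comp p s).congr_of_eventuallyEq e, ?_, (pb_map e).trans (pb_comp s t)⟩
  rw [e.fderiv_eq, fderiv_comp p (t.differentiableAt (by simp)) (s.differentiableAt (by simp))]
  exact (h.dif_b4.fd _ hp).comp (sh_inj r.ne' hA.neg.contDiffAt hB.neg.contDiffAt)

end chart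

theorem la_le {M a r1 θ θ1 : ℝ} (h : |a| < M) (h1 : rm M a < r1) (hp : p ∈ La M a r1 θ θ1) :
    (rp M a < rd p ∧ p.1 = tb M a (rd p)) ∨ Real.exp (ka M a * p.1) ≤ 2 * θ1 := by
  have d : rm M a < rd p := h1.trans hp.1.1
  obtain ⟨-, h1, h2, -, h4, -⟩ := hor h
  have m0 := mf_pos d
  have v0 := mul_pos m0 (Real.exp_pos (ka M a * p.1))
  refine hp.2.2.imp (fun e => ?_) fun e => ?_
  · have e : (-(rd p - rp M a) / (mf M a (rd p) * Real.exp (ka M a * p.1)) +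
      mf M a (rd p) * Real.exp (ka M a * p.1)) / 2 = 0 := e
    rw [div_add' _ _ _ v0.ne', div_eq_zero_iff, or_iff_left two_ne_zero, div_eq_zero_iff,
      or_iff_left v0.ne', neg_add_eq_zero] at e
    refine ⟨sub_pos.1 (e ▸ mul_pos v0 v0), ?_⟩
    rw [tb, e, Real.log_mul v0.ne' v0.ne', Real.log_mul m0.ne' (Real.exp_pos _).ne', Real.log_exp,
      mf, Real.log_rpow (sub_pos.2 d)]
    have := (h1.trans_lt h2).ne'
    field_simp
    ring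
  · have v := P354YR.kap_V h d
    rw [P354YR.kap_r h d] at e
    rw [P354YR.kV, P354YR.pV] at v
    exact le_of_mul_le_mul_left (by linarith [le_abs_self (kx M a (kap M a p))]) m0

theorem ur_cd {M a : ℝ} (h : |a| < M) (hr : rp M a < rd p) : ContDiffAt ℝ ∞ (ur M a) p := by
  rw [funext (P354XA.ur_eq M a)]
  exact contDiffAt_fst.sub ((P354XA.psi_cd h hr).comp p
    (P354XA.rd_cd (((hor h).2.1.trans_lt (hor h).2.2.1).trans hr).ne'))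

theorem ur_tb (M a : ℝ) (p : R4) : ur M a p = p.1 - rd p - 2 * tb M a (rd p) := by
  rw [P354XA.ur_eq, P354YT.psi_tb, sub_sub]

/-- The domain of g, and the set on which the second chart is the identity. -/
def Dm (g : Tw) : Set R4 := {p | ∃ D, Lv g D ∧ p ∈ D}
def Ql (z : Z1) (k : ℝ) : Set R4 := {p | z.R1 + 3 < rd p ∧ ur z.M z.a p + k < -(2 * z.R1)}

theorem lv_dm (g : Tw) : Lv g (Dm g) :=
  lv_local (isOpen_iff_forall_mem_open.2 fun _ ⟨D, l, k⟩ => ⟨D, fun _ h => ⟨D, l, h⟩, l.isOpen, k⟩)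
    fun _ ⟨D, l, k⟩ => ⟨g, D, l, k, .rfl⟩

/-- The hypotheses on the state. -/
structure Gh (z : Z1) (c : Cs) (Rb : ℝ) (m : ℕ) (dd : ℝ) (gc g : Tw) (E : Est) (κ Cl e : ℝ)
    (U : Set E6) (a : E6 → E6) (A B : ℝ → ℝ) (tw k : ℝ) : Prop where
  ag : Ag z c
  o : (z.pm c.Rs Rb).Ok
  th : 2 * z.θ1 ≤ th0 (z.pm c.Rs Rb)
  cg : z.Cg c.Rs Rb m dd gc
  st : ∀ V, z.St c.Rs Rb gc V g
  lv : E.Lv = univ
  lc : Lc z c gc g E κ Cl e U a A B tw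
  sm : ContDiff ℝ ∞ A ∧ ContDiff ℝ ∞ B
  nrm : Nrm z.M z.a k A

namespace Gh
variable {z : Z1} {c : Cs} {Rb dd κ Cl e tw k θ : ℝ} {m : ℕ} {E : Est}
  (H : Gh z c Rb m dd gc g E κ Cl e U a A B tw k)
include H

theorem ev (hp : 0 < rd p) (h0 : (z.pm c.Rs Rb).psi p < 0) : g =ᶠ[𝓝 p] gc := by
  filter_upwards [(H.o.psi_cd hp).continuousAt.eventually_lt continuousAt_const h0] with q hq
  by_cases o : q ∈ (z.pm c.Rs Rb).O
  exacts [(H.st 0).1.col ⟨o, hq⟩, (H.st 0).2 o]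

theorem dm (hp : p ∈ En z.M z.a z.r1 z.θ) : p ∈ Dm g := by
  rcases lt_or_ge ((z.pm c.Rs Rb).psi p) 0 with h0 | h0
  · obtain ⟨W, l, s⟩ := H.cg.lv
    obtain ⟨O, hO, oO, pO⟩ := mem_nhds_iff.1 (inter_mem (H.ev (H.o.pos hp.1) h0)
      (l.isOpen.mem_nhds (s ⟨hp, h0.le.trans zero_le_one⟩)))
    exact ⟨O, (l.mono oO fun q hq => (hO hq).2).congr fun q hq => (hO hq).1, pO⟩
  · exact ⟨_, (H.st _).1.lv, ⟨hp.1, by linarith⟩, Or.inl (lt_add_one _)⟩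

theorem num : 0 < z.M ∧ 10 * z.M + 10 ≤ z.R1 ∧ rp z.M z.a < z.R1 - 1 / 2 ∧ 4 * z.R1 + 6 ≤ c.t1 ∧
    z.r1 < z.R1 :=
  ⟨H.o.M0, H.ag.M ▸ H.ag.R1 ▸ H.ag.ok.R1, H.o.rpR, H.ag.R1 ▸ H.lc.big, H.o.lt⟩

theorem mon {x y : ℝ} (hx : z.R1 - 1 / 2 ≤ x) (h : x ≤ y) : tb z.M z.a x ≤ tb z.M z.a y :=
  H.o.tb_mono (H.o.rpR.trans_le hx) (H.o.rpR.trans_le (hx.trans h)) h

theorem uu_eq {y : E6} (hr : z.R1 ≤ rd p) (h1 : y.1 = p.1 - A (rd p)) (h2 : y.2.1 = rd p) :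
    uu c.M y = ur z.M z.a p + k := by
  rw [uu, h1, h2, H.nrm _ (by linarith [H.num.1, H.num.2.1]), ur_tb, H.ag.M]
  ring

theorem ql_open : IsOpen (Ql z k) :=
  ContinuousOn.isOpen_inter_preimage (f := fun p => ur z.M z.a p + k)
    (fun p (hp : _ < _) => ((ur_cd H.o.sub (show rp z.M z.a < _ by
      linarith [H.num.2.2.1])).continuousAt.add continuousAt_const).continuousWithinAt)
    (isOpen_lt continuous_const rd_cont) isOpen_Iio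

theorem idn {x : E6} (hx : x ∈ U) (h1 : c.R1 + 3 ≤ (a x).2.1) (h2 : uu c.M (a x) ≤ -(2 * c.R1)) :
    sh A B (pj (a x)) = pj x := H.lc.cht.eqv.pj_dn hx ▸ (H.lc.idn x hx h1 h2).self_of_nhds

theorem bb_id (hp : p ∈ Ql z k) : bb U a A B =ᶠ[𝓝 p] id := by
  classical
  filter_upwards [H.ql_open.mem_nhds hp] with q hq
  by_cases s : q ∈ Sa U a A B
  · obtain ⟨x, hx, e1, e2, e3, e4, -⟩ := sa_ex H.lc.cht s
    rw [e2, ← H.idn hx (by rw [e4, H.ag.R1]; exact hq.1.le) (by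
      rw [H.uu_eq (by linarith [hq.1]) e3 e4, H.ag.R1]; exact hq.2.le), e1, sh_inv', id]
  · exact piecewise_eq_of_notMem _ _ _ s

theorem fa (h1 : z.R1 + 3 ≤ rd p) (h2 : 0 ≤ ur z.M z.a p + k + rd p) : p ∈ Sa U a A B ∧
    ∃ y ∈ E.O2, nq y = 1 ∧ Est.Fa c y ∧ sh A B (pj y) = p ∧ y.2.1 = rd p ∧
      uu c.M y = ur z.M z.a p + k := by
  obtain ⟨y, y1, y2, y3, y4⟩ := ex_lift (p := sh (-A) (-B) p)
    (by rw [rd_sh]; linarith [H.num.1, H.num.2.1])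
  rw [rd_sh] at y4
  have u := H.uu_eq (by linarith) y3 y4
  have f : Est.Fa c y := ⟨by rwa [y4, H.ag.R1], by rwa [u, y4]⟩
  have o := (H.lc.onto H.lv y (P354YA.ne_of_nq y1)).2 f
  exact ⟨⟨y, H.lc.o2 o, y2⟩, y, o, y1, f, by rw [y2, sh_inv'], y4, u⟩

theorem win (h1 : z.r1 < rd p) (h2 : rd p ≤ c.t1 + 6) (h3 : |p.1 - tw| ≤ 6) :
    ∃ x ∈ U, pj x = p ∧ x.1 = p.1 ∧ x.2.1 = rd p :=
  let ⟨x, x1, x2, x3, x4⟩ := ex_lift (H.o.pos h1)
  ⟨x, (H.lc.win x (P354YA.ne_of_nq x1) (x4 ▸ h1) (x4 ▸ h2) (x3 ▸ h3) (H.lv ▸ mem_univ _)).1,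
    x2, x3, x4⟩

theorem en (h1 : z.r1 < rd p) (h2 : rd p ≤ c.t1 + 6) (h3 : |p.1 - tw| ≤ 6) :
    p ∈ En z.M z.a z.r1 z.θ :=
  let ⟨x, hx, e, _⟩ := H.win h1 h2 h3
  e ▸ (H.lc.dom x hx).1

theorem tb_le (hp : p ∈ En z.M z.a z.r1 θ) (h : z.R1 - 1 / 2 ≤ rd p) : tb z.M z.a (rd p) ≤ p.1 :=
  ((H.o.En_iff θ p).1 hp).2.2 (H.o.rpR.trans_le h)

theorem tb_tw : tb z.M z.a (c.t1 + 6) ≤ tw - 6 := by
  obtain ⟨n1, n2, -, n3, n4⟩ := H.num
  have r : rd (tw - 6, c.t1 + 6, 0, 0) = c.t1 + 6 := P354YR.rd_eq (by linarith) (by simp)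
  exact r ▸ H.tb_le (H.en (by linarith) r.le (by simp)) (by linarith)

theorem k_le : tw + 6 - c.t1 - 2 * tb z.M z.a c.t1 + k ≤ -(2 * z.R1) := by
  obtain ⟨n1, n2, -, n3, n4⟩ := H.num
  have r : rd (tw + 6, c.t1, 0, 0) = c.t1 := P354YR.rd_eq (by linarith) (by simp)
  obtain ⟨x, hx, e1, e2, e3⟩ := H.win (p := (tw + 6, c.t1, 0, 0)) (by linarith) (by linarith)
    (by simp)
  obtain ⟨o1, o2⟩ := H.lc.out x hx (r ▸ e3.ge) e2.le
  obtain ⟨x', -, f1, -, f2, f3, -⟩ := sa_ex (A := A) (B := B) (p := pj x) H.lc.cht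
    ⟨_, ⟨x, hx, rfl⟩, by rw [← H.idn hx o1 o2, sh_inv]⟩
  have f : pj (a x) = pj (a x') := by rw [f1, ← H.idn hx o1 o2, sh_inv]
  have := H.uu_eq (y := a x) (p := pj x) (by rw [e1, r]; linarith)
    ((congrArg Prod.fst f).trans f2) (by
      rw [← rd_pj (H.lc.cht.pos x hx) (H.lc.cht.eqv.ne x hx), f, f1, rd_sh])
  rwa [this, ur_tb, e1, r, H.ag.R1] at o2

theorem ql (h1 : c.t1 ≤ rd p) (h2 : p.1 ≤ tw + 1 ∨ p.1 ≤ tb z.M z.a (rd p)) : p ∈ Ql z k := by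
  obtain ⟨n1, n2, -, n3, -⟩ := H.num
  have := H.mon (by linarith) h1
  have := H.mon (x := c.t1) (by linarith) (le_add_of_nonneg_right (by norm_num) : _ ≤ c.t1 + 6)
  refine ⟨by linarith, ?_⟩
  rw [ur_tb]
  rcases h2 with h2 | h2 <;> linarith [H.k_le, H.tb_tw]

theorem la {rE ρ : ℝ} (h : z.r1 < rE) (hp : p ∈ La z.M z.a rE θ z.θ1) (h1 : z.R1 - 1 / 2 ≤ ρ)
    (h2 : rd p ≤ ρ) : p.1 ≤ tb z.M z.a ρ :=
  (la_le H.o.sub (H.o.r1.1.trans h) hp).elim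
    (fun k => k.2.trans_le (H.o.tb_mono k.1 (k.1.trans_le h2) h2)) fun k =>
      (le_of_mul_le_mul_left (Real.exp_le_exp.1 (k.trans H.th))
        (P354YR.ka_pos H.o.sub)).trans (H.mon le_rfl h1)

end Gh

end Vale.Agent.P354YQ
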