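import Vale.Agent.P354YA.BDefs

/-!
The second chart of the block OUT, and the statement LATE.
-/

open scoped ContDiff
open Set Filter Topology

noncomputable section

namespace Vale.Agent.P354YQ

open Vale.Agent.P354n (R4)
open Vale.Agent.P354XG (E6)
open Vale.Agent.P354XD (pj)
open Vale.Agent.P354XE (Tw rd Bd pb gin)
open Vale.Agent.P354XO (b4)
open Vale.Agent.P354YI (Jb)
open Vale.Agent.P354YO (sh)
open Vale.Agent.P354YA (Ag)
open Vale.Agent.P354MG (Lc)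
open Vale.Agent.P354Z

/-- The image of the chart of the estimates in the ingoing chart, and the map to the scaffold. -/
def Sa (U : Set E6) (a : E6 → E6) (A B : ℝ → ℝ) : Set R4 := sh (-A) (-B) ⁻¹' (pj '' (a '' U))
open Classical in
def bb (U : Set E6) (a : E6 → E6) (A B : ℝ → ℝ) : R4 → R4 :=
  (Sa U a A B).piecewise (b4 U a ∘ sh (-A) (-B)) id

/-- LATE: the clauses sm, shift, mid, late of Fn. -/
def LATE : Prop := ∀ (z : Z1) (c : Cs), Ag z c → ∀ rE > z.r1, ∀ N : ℕ, N + 2 ≤ c.N0 →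
  c.t1 + 3 ≤ c.Rs → ∀ K, ∀ ε > 0, ∃ η > 0, ∀ gc g E κ Cl e U a A B tw, E.Is c → Cmp c E η →
    Lc z c gc g E κ Cl e U a A B tw → E.Lv = univ → κ ≤ rE - z.r1 → |A z.R1| ≤ K → Cl * e ≤ η →
    (∀ p, rE < rd p → rd p ≤ c.t1 + 2 → tw - 3 ≤ p.1 → p ∈ Sa U a A B) ∧
    (∀ p, rE < rd p → rd p ≤ c.t1 + 2 → |p.1 - tw| ≤ 3 →
      Jb (N + 2) (fun y => bb U a A B y - y) p ε) ∧
    ∃ A' B' : ℝ → ℝ, (ContDiff ℝ ∞ A' ∧ ContDiff ℝ ∞ B') ∧
      (∀ r ∈ Icc rE (c.t1 + 2), Jb (N + 2) A' r ε ∧ Jb (N + 2) B' r ε) ∧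
      ∀ p, rE < rd p → rd p ≤ c.t1 + 2 → tw - 1 ≤ p.1 →
        Bd (N + 1) (pb (bb U a A B ∘ sh A' B') g - gin E.M E.a) p
          (ε * (1 + |p.1|) ^ (-(6 / 5) : ℝ))

end Vale.Agent.P354YQ
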