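import Vale.Agent.P354YQ.Ex

/-!
The maximal family of solutions, and the criterion for continuation.
-/

open Set Filter Topology
open scoped ContDiff

namespace Vale.Agent.P354YQ

variable {X E : Type} [NormedAddCommGroup X] [NormedSpace ℝ X] [NormedAddCommGroup E]
  [NormedSpace ℝ E] {e : X} {u v : X × E → E} {N U : Set (X × E)} {w z : X} {x : E} {T T' s : ℝ}
  {γ : ℝ → E} {τ : X → ℝ}

theorem mem_uIcc_iff {t : ℝ} : t ∈ uIcc 0 T ↔ ∃ s ∈ Icc (0 : ℝ) 1, s * T = t := by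
  rw [← segment_eq_uIcc, segment_eq_image]
  simp

theorem Crv.mono (h : Crv e v U w x T γ) (a : T' ∈ uIcc 0 T) : Crv e v U w x T' γ :=
  have b := uIcc_subset_uIcc left_mem_uIcc a
  ⟨h.init, fun t m => h.mem t (b m), fun t m => h.ode t (b m)⟩

theorem crv_fl {Fl : ℝ × X × E → E} (n1 : IsOpen N) (n3 : N ⊆ U) (n4 : EqOn u v N)
    (f0 : ∀ p, Fl (0, p) = p.2)
    (fd : ∀ t w x, HasDerivAt (fun t => Fl (t, w, x)) (u (w + t • e, Fl (t, w, x))) t)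
    (a : ∀ t ∈ uIcc 0 T, (w + t • e, Fl (t, w, x)) ∈ N) : Crv e v U w x T fun t => Fl (t, w, x) :=
  ⟨f0 _, fun t m => n3 (a t m), fun t m => by
    have : ContinuousAt (fun t => (w + t • e, Fl (t, w, x))) t :=
      (by fun_prop : ContinuousAt (fun t : ℝ => w + t • e) t).prodMk (fd t _ _).continuousAt
    exact (this.eventually (n1.eventually_mem (a t m))).mono fun s a => n4 a ▸ fd s _ _⟩

theorem tau_pt (h : ∀ z t, τ (z + t • e) = τ z + t) : τ (pt e τ s z) = (1 - s) * τ z := by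
  rw [pt, sub_eq_add_neg, ← neg_smul, h]
  ring

theorem foot_pt (h : ∀ z t, τ (z + t • e) = τ z + t) : pt e τ 1 (pt e τ s z) = pt e τ 1 z := by
  rw [pt, tau_pt h]
  simp [pt, sub_mul, sub_smul]

theorem foot_add : pt e τ 1 z + (s * τ z) • e = pt e τ (1 - s) z := by
  simp [pt, sub_mul, sub_smul, sub_add]

variable [FiniteDimensional ℝ X] [FiniteDimensional ℝ E]

/-- The existence of a solution is an open condition. -/
theorem Crv.nhds (hU : IsOpen U) (hv : ContDiffOn ℝ ∞ v U) (g : Crv e v U w x T γ) :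
    ∀ᶠ p : ℝ × X × E in 𝓝 (T, w, x), ∃ γ, Crv e v U p.2.1 p.2.2 p.1 γ := by
  obtain ⟨u, N, Fl, us, n1, n2, n3, n4, fs, f0, fd⟩ := ex_flow e hU hv
    (K := (fun t => (w + t • e, γ t)) '' uIcc 0 T) (isCompact_uIcc.image_of_continuousOn
      ((by fun_prop : ContinuousOn (fun t : ℝ => w + t • e) _).prodMk
        fun t m => (g.ode t m).self_of_nhds.continuousAt.continuousWithinAt))
    (by rintro _ ⟨t, m, rfl⟩; exact g.mem t m)
  have e1 := Crv.uniq (γ' := fun t => Fl (t, w, x)) isOpen_univ us.contDiffOn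
    ⟨g.init, fun _ _ => trivial, fun t m => by
      have : ContinuousAt (fun t => (w + t • e, γ t)) t :=
        (by fun_prop : ContinuousAt (fun t : ℝ => w + t • e) t).prodMk
          (g.ode t m).self_of_nhds.continuousAt
      exact ((this.eventually (n1.eventually_mem (n2 ⟨t, m, rfl⟩))).and (g.ode t m)).mono
        fun s a => (n4 a.1).symm ▸ a.2⟩
    ⟨f0 _, fun _ _ => trivial, fun t _ => .of_forall fun s => fd s _ _⟩
  have e2 : ∀ᶠ p : ℝ × X × E in 𝓝 (T, w, x), ∀ s ∈ Icc (0 : ℝ) 1,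
      (p.2.1 + (s * p.1) • e, Fl (s * p.1, p.2)) ∈ N := by
    refine isCompact_Icc.eventually_forall_of_forall_eventually fun s a => ?_
    have c := fs.continuous
    have c2 : Continuous fun q : (ℝ × X × E) × ℝ =>
      (q.1.2.1 + (q.2 * q.1.1) • e, Fl (q.2 * q.1.1, q.1.2)) := by fun_prop
    have a' := (mem_uIcc_iff (T := T)).2 ⟨s, a, rfl⟩
    exact c2.continuousAt.eventually (n1.eventually_mem (n2 ⟨_, a', Prod.ext rfl
      (e1 _ a').self_of_nhds⟩))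
  exact e2.mono fun p a => ⟨_, crv_fl n1 n3 n4 f0 fd fun t m => by
    obtain ⟨s, b, rfl⟩ := mem_uIcc_iff.1 m
    exact a s b⟩

/-- **The maximal family of solutions** on a set `O` which contains the segments to the feet. -/
theorem ode_max (hU : IsOpen U) (hv : ContDiffOn ℝ ∞ v U) {O : Set X} (hO : IsOpen O)
    (hτ : ∀ z ∈ O, SA τ z) (hτ' : ∀ z t, τ (z + t • e) = τ z + t) {x0 : X → E}
    (hx : ∀ z ∈ O, SA x0 (pt e τ 1 z)) (hs : ∀ z ∈ O, ∀ s ∈ Icc (0 : ℝ) 1, pt e τ s z ∈ O) :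
    ∃ (Ω : Set X) (Φ : X → E), IsOpen Ω ∧ Ω ⊆ O ∧
      (∀ z ∈ Ω, Sol e v Φ z ∧ (z, Φ z) ∈ U ∧ (τ z = 0 → Φ z = x0 z) ∧
        ∀ s ∈ Icc (0 : ℝ) 1, pt e τ s z ∈ Ω) ∧
      (∀ z ∈ O, ∀ γ, Crv e v U (pt e τ 1 z) (x0 (pt e τ 1 z)) (τ z) γ → z ∈ Ω ∧ Φ z = γ (τ z)) ∧
      (∀ z ∈ O, τ z = 0 → (z, x0 z) ∈ U → z ∈ Ω) ∧
      ∀ z ∈ O, ∀ K ⊆ U, IsCompact K → (pt e τ 1 z, x0 (pt e τ 1 z)) ∈ K →
        (∀ s ∈ Ioo (0 : ℝ) 1, pt e τ s z ∈ Ω → (pt e τ s z, Φ (pt e τ s z)) ∈ K) → z ∈ Ω := by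
  let Ω := {z ∈ O | ∃ γ, Crv e v U (pt e τ 1 z) (x0 (pt e τ 1 z)) (τ z) γ}
  have hΩ : IsOpen Ω := isOpen_iff_mem_nhds.2 fun z ⟨m, γ, g⟩ => by
    have sp : SA (pt e τ 1) z := (jd_pt (k := 0) (C := max ‖e‖ ‖τ z‖) ⟨zero_le_one, le_rfl⟩
      (le_max_left _ _) ((JD.zero (hτ z m)).jb (le_max_right _ _))).sm
    exact (hO.eventually_mem m).and (((hτ z m).prod (sp.prod ((hx z m).comp sp))).cont.eventually
      (g.nhds hU hv))
  obtain ⟨Φ, hΦ⟩ := ode_fam hU hv hΩ (fun z m => hτ z m.1) hτ' (fun z m => hx z m.1) fun z m => m.2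
  have k : ∀ z ∈ O, ∀ K ⊆ U, IsCompact K → (pt e τ 1 z, x0 (pt e τ 1 z)) ∈ K →
      (∀ s ∈ Ioo (0 : ℝ) 1, pt e τ s z ∈ Ω → (pt e τ s z, Φ (pt e τ s z)) ∈ K) → z ∈ Ω := by
    intro z m K hK c h0 h
    obtain ⟨u, N, Fl, -, n1, n2, n3, n4, fs, f0, fd⟩ := ex_flow e hU hv c hK
    let σ : ℝ → X × E := fun s =>
      (pt e τ 1 z + (s * τ z) • e, Fl (s * τ z, pt e τ 1 z, x0 (pt e τ 1 z)))
    have cs : Continuous σ := by
      have := fs.continuous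
      fun_prop
    have cr : ∀ s ∈ Icc (0 : ℝ) 1, (∀ r ∈ Icc 0 s, σ r ∈ N) → Crv e v U (pt e τ 1 z)
        (x0 (pt e τ 1 z)) (s * τ z) fun t => Fl (t, pt e τ 1 z, x0 (pt e τ 1 z)) := fun s a b =>
      crv_fl n1 n3 n4 f0 fd fun t d => by
        obtain ⟨r, f, rfl⟩ := mem_uIcc_iff.1 d
        rw [← mul_assoc]
        exact b _ ⟨mul_nonneg f.1 a.1, mul_le_of_le_one_left a.1 f.2⟩
    have := IsClosed.Icc_subset_of_forall_mem_nhdsGT_of_Icc_subset (s := σ ⁻¹' K) (a := 0) (b := 1)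
      ((c.isClosed.preimage cs).inter isClosed_Icc) (by simpa [σ, f0] using h0) fun t a b => by
        obtain ⟨r, r1, r2⟩ := (nhdsGE_basis_Icc (a := t)).eventually_iff.1
          (((cs.continuousAt.eventually (n1.eventually_mem (n2 (b ⟨a.1, le_rfl⟩)))).and
            (eventually_lt_nhds a.2)).filter_mono nhdsWithin_le_nhds)
        refine mem_of_superset (Ioc_mem_nhdsGT r1) fun s d => ?_
        have s1 := (r2 (Ioc_subset_Icc_self d)).2
        have s0 := a.1.trans_lt d.1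
        have g := cr s ⟨s0.le, s1.le⟩ fun q f => (le_total q t).elim (fun i => n2 (b ⟨f.1, i⟩))
          fun i => (r2 ⟨i, f.2.trans d.2⟩).1
        rw [← foot_pt (s := 1 - s) hτ', show s * τ z = τ (pt e τ (1 - s) z) by
          rw [tau_pt hτ', sub_sub_cancel]] at g
        have i : pt e τ (1 - s) z ∈ Ω := ⟨hs z m _ (flip_mem ⟨s0.le, s1.le⟩), _, g⟩
        have j := h (1 - s) ⟨sub_pos.2 s1, sub_lt_self _ s0⟩ i
        rw [(hΦ _ i).2.2 _ g, foot_pt hτ', tau_pt hτ', sub_sub_cancel, ← foot_add] at j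
        exact j
    exact ⟨m, _, by simpa using cr 1 ⟨zero_le_one, le_rfl⟩ fun r a => n2 (this a)⟩
  refine ⟨Ω, Φ, hΩ, fun _ m => m.1, fun z m => ?_, fun z m γ g => ⟨⟨m, γ, g⟩,
    (hΦ z ⟨m, γ, g⟩).2.2 γ g⟩, fun z m t a => ?_, k⟩
  · obtain ⟨a, b, c⟩ := hΦ z m
    obtain ⟨m, γ, g⟩ := m
    refine ⟨a, b, fun t => ?_, fun s d => ⟨hs z m s d, γ, ?_⟩⟩
    · rw [c γ g, t, g.init, pt, t, mul_zero, zero_smul, sub_zero]
    · rw [foot_pt hτ', tau_pt hτ']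
      exact g.mono (mem_uIcc_iff.2 ⟨_, flip_mem d, rfl⟩)
  · have p : ∀ s, pt e τ s z = z := fun s => by simp [pt, t]
    by_contra n
    exact n (k z m {(z, x0 z)} (singleton_subset_iff.2 a) isCompact_singleton (by simp [p])
      fun s _ b => (n (p s ▸ b)).elim)

end Vale.Agent.P354YQ
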