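import Vale.Agent.P354YQ.Jet

/-!
Bounds for the jets of families of solutions of an ordinary differential equation, and Lipschitz
dependence on the equation and on the initial values.
-/

open Set Filter Topology
open scoped ContDiff Nat

namespace Vale.Agent.P354YQ

section

variable {X E : Type} [NormedAddCommGroup X] [NormedSpace ℝ X] [NormedAddCommGroup E]
  [NormedSpace ℝ E]

/-- The points of the line in the direction `e` between `z` and its foot `z - τ z • e`. -/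
def pt (e : X) (τ : X → ℝ) (s : ℝ) (z : X) : X := z - (s * τ z) • e

/-- `Φ` is smooth and solves the equation near `w`. -/
structure Sol (e : X) (v : X × E → E) (Φ : X → E) (w : X) : Prop where
  sm : SA Φ w
  ode : ∀ᶠ x in 𝓝 w, fderiv ℝ Φ x e = v (x, Φ x)

variable {e : X} {τ : X → ℝ} {v : X × E → E} {Φ : X → E} {z : X} {k : ℕ} {C : ℝ}

theorem pt_zero : pt e τ 0 = fun z => z := funext fun z => by simp [pt]

theorem jd_pt {s : ℝ} (hs : s ∈ Icc (0 : ℝ) 1) (he : ‖e‖ ≤ C) (h : JB k τ z C) :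
    JD k (pt e τ s) z (1 + C * C) := by
  refine ((JD.id.sub (h.jd.clm ((ContinuousLinearMap.id ℝ ℝ).smulRight (s • e)))).mono ?_).congr
    (.of_forall fun w => by simp [pt, smul_smul, mul_comm])
  have := h.nonneg
  rw [ContinuousLinearMap.norm_smulRight_apply, ContinuousLinearMap.norm_id, one_mul, norm_smul,
    Real.norm_of_nonneg hs.1]
  have := hs.2
  have := norm_nonneg e
  gcongr
  nlinarith

theorem sa_pt {s : ℝ} (h : SA τ z) : SA (fun p : ℝ × X => pt e τ (1 - p.1) p.2) (s, z) :=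
  (h.comp (f := Prod.snd) (z := (s, z)) (SA.of contDiff_snd)).mono fun _ m =>
    contDiffAt_snd.sub (((contDiffAt_const.sub contDiffAt_fst).mul m).smul contDiffAt_const)

theorem sa_psi {s : ℝ} (hτ : SA τ z) (h : SA Φ (pt e τ (1 - s) z)) :
    SA (fun p : ℝ × X => Φ (pt e τ (1 - p.1) p.2)) (s, z) :=
  SA.comp (f := fun p : ℝ × X => pt e τ (1 - p.1) p.2) h (sa_pt hτ)

theorem Sol.fd {s : ℝ} (hτ : SA τ z) (h : Sol e v Φ (pt e τ (1 - s) z)) (c : ℝ × X → E)
    (hc : SA c (s, z)) :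
    (fun q => fderiv ℝ (fun p : ℝ × X => Φ (pt e τ (1 - p.1) p.2) - c p) (s, q) (1, 0)) =ᶠ[𝓝 z]
      fun q => τ q • v (pt e τ (1 - s) q, Φ (pt e τ (1 - s) q)) - fderiv ℝ c (s, q) (1, 0) := by
  have c1 : ContinuousAt (fun q : X => (s, q)) z := by fun_prop
  have c2 : ContinuousAt (pt e τ (1 - s)) z :=
    (sa_pt (e := e) (s := s) hτ).cont.comp (f := fun q : X => (s, q)) c1
  filter_upwards [c2.eventually (h.sm.ev.and h.ode), hτ.ev, c1.eventually hc.ev] with q a b d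
  have d1 := (sa_psi b a.1).diff
  rw [fderiv_fun_sub d1 d.diff, sub_apply, ← a.2, ← map_smul]
  congr 1
  have l : HasDerivAt (fun s : ℝ => (s, q)) (1, 0) s := (hasDerivAt_id s).prodMk (hasDerivAt_const s q)
  have p : HasDerivAt (fun s => pt e τ (1 - s) q) (τ q • e) s := by
    simpa [pt] using ((((hasDerivAt_id s).const_sub 1).mul_const (τ q)).smul_const e).const_sub q
  exact (d1.hasFDerivAt.comp_hasDerivAt s l).unique (a.1.diff.hasFDerivAt.comp_hasDerivAt s p)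

theorem flip_mem {s : ℝ} (h : s ∈ Icc (0 : ℝ) 1) : 1 - s ∈ Icc (0 : ℝ) 1 :=
  ⟨sub_nonneg.2 h.2, sub_le_self _ h.1⟩

end

/-- Bounds along the whole segment. -/
theorem ode_core (k : ℕ) (C : ℝ) : ∃ F, 0 ≤ F ∧ ∀ (X E : Type) [NormedAddCommGroup X]
    [NormedSpace ℝ X] [NormedAddCommGroup E] [NormedSpace ℝ E] (e : X) (τ : X → ℝ)
    (v : X × E → E) (Φ : X → E) (z : X), ‖e‖ ≤ C → JB k τ z C →
    (∀ s ∈ Icc (0 : ℝ) 1, Sol e v Φ (pt e τ s z) ∧ JB k v (pt e τ s z, Φ (pt e τ s z)) C) →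
    JD k (fun w => Φ (pt e τ 1 w)) z C →
    ∀ s ∈ Icc (0 : ℝ) 1, JD k (fun w => Φ (pt e τ s w)) z F := by
  induction k with
  | zero =>
    exact ⟨0, le_rfl, fun X E _ _ _ _ e τ v Φ z he hτ h _ s m =>
      JD.zero ((h s m).1.sm.comp (jd_pt m he hτ).sm)⟩
  | succ k ih =>
    obtain ⟨F, F0, ih⟩ := ih
    let P := 1 + C * C
    let L := 2 ^ (k + 1) * |C| * (2 ^ k * (k ! * |C| * (P + F) ^ k))
    have P1 : 1 ≤ P := le_add_of_nonneg_right (mul_self_nonneg C)
    refine ⟨(|C| + (L * P + 2 ^ (k + 1) * |C| * |C|)) * Real.exp L, by positivity,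
      fun X E _ _ _ _ e τ v Φ z he hτ h h0 s m => ?_⟩
    have C0 := hτ.nonneg
    have i := ih X E e τ v Φ z he (hτ.ord k.le_succ)
      (fun s m => ⟨(h s m).1, (h s m).2.ord k.le_succ⟩) (h0.ord k.le_succ)
    have := gron_jet (k := k + 1) (q := z) (L := L) (a := |C|) (b := L * P + 2 ^ (k + 1) * |C| * |C|)
      (Ψ := fun p : ℝ × X => Φ (pt e τ (1 - p.1) p.2) - Φ (pt e τ 1 z)) (by positivity)
      (by positivity)
      (fun s m => (sa_psi hτ.sm (h _ (flip_mem m)).1.sm).sub (SA.of contDiff_const))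
      (fun s m r hr => ?_) (by simpa using (h0.sub_const C0).mono (le_abs_self C)) _ (flip_mem m)
    · simpa using JD.of_sub _ this.jd
    have r0 := hr.nonneg
    have p := jd_pt (flip_mem m) he hτ
    have a := (h _ (flip_mem m)).2.comp_lin (f := fun w => (pt e τ (1 - s) w, Φ (pt e τ (1 - s) w)))
      (((p.ord k.le_succ).mono (le_add_of_nonneg_right F0)).prod
        ((i _ (flip_mem m)).mono (le_add_of_nonneg_left (by positivity)))) (by linarith)
      ((p.mono (le_add_of_nonneg_right r0)).prod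
        ((JD.of_sub _ hr.jd).mono (le_add_of_nonneg_left (by positivity))))
    refine ((hτ.smul a).congr (((h _ (flip_mem m)).1.fd hτ.sm _ (SA.of contDiff_const)).trans
      (.of_forall fun w => by simp))).mono (le_of_eq ?_)
    simp only [L, P, abs_of_nonneg C0]
    ring

/-- **Bounds for the jets of a family of solutions.** -/
theorem ode_jet (k : ℕ) (C : ℝ) : ∃ F, 0 ≤ F ∧ ∀ (X E : Type) [NormedAddCommGroup X]
    [NormedSpace ℝ X] [NormedAddCommGroup E] [NormedSpace ℝ E] (e : X) (τ : X → ℝ)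
    (v : X × E → E) (Φ : X → E) (z : X), ‖e‖ ≤ C → JB k τ z C →
    (∀ s ∈ Icc (0 : ℝ) 1, Sol e v Φ (pt e τ s z) ∧ JB k v (pt e τ s z, Φ (pt e τ s z)) C) →
    JD k (fun w => Φ (pt e τ 1 w)) z C → JD k Φ z F :=
  (ode_core k C).imp fun _ h => ⟨h.1, fun X E _ _ _ _ e τ v Φ z a b c d => by
    simpa only [pt_zero] using h.2 X E e τ v Φ z a b c d 0 ⟨le_rfl, zero_le_one⟩⟩

/-- **Lipschitz dependence of the jets on the equation and the initial values.** -/
theorem ode_lip (k : ℕ) (C : ℝ) : ∃ F, 0 ≤ F ∧ ∀ (X E : Type) [NormedAddCommGroup X]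
    [NormedSpace ℝ X] [NormedAddCommGroup E] [NormedSpace ℝ E] (e : X) (τ : X → ℝ)
    (v v' : X × E → E) (Φ Φ' : X → E) (z : X) (δ : ℝ), ‖e‖ ≤ C → JB k τ z C →
    (∀ s ∈ Icc (0 : ℝ) 1, Sol e v Φ (pt e τ s z) ∧ Sol e v' Φ' (pt e τ s z) ∧
      (∀ x ∈ segment ℝ (Φ (pt e τ s z)) (Φ' (pt e τ s z)), JB (k + 1) v (pt e τ s z, x) C) ∧
      JB k v' (pt e τ s z, Φ' (pt e τ s z)) C ∧
      JB k (fun p => v p - v' p) (pt e τ s z, Φ' (pt e τ s z)) δ) →
    JD k (fun w => Φ (pt e τ 1 w)) z C → JD k (fun w => Φ' (pt e τ 1 w)) z C →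
    JB k (fun w => Φ (pt e τ 1 w) - Φ' (pt e τ 1 w)) z δ →
    JB k (fun w => Φ w - Φ' w) z (F * δ) := by
  obtain ⟨F, F0, hF⟩ := ode_core k C
  let P := 1 + C * C
  have P1 : 1 ≤ P := le_add_of_nonneg_right (mul_self_nonneg C)
  obtain ⟨L, L1, hL⟩ := lip k (P + F) (by linarith)
  refine ⟨(1 + 2 ^ k * |C| * (k ! * (P + F) ^ k)) * Real.exp (2 ^ k * |C| * (L * |C|)),
    by positivity, fun X E _ _ _ _ e τ v v' Φ Φ' z δ he hτ h h1 h2 h3 => ?_⟩
  have C0 := hτ.nonneg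
  have δ0 := h3.nonneg
  have i1 := hF X E e τ v Φ z he hτ
    (fun s m => ⟨(h s m).1, ((h s m).2.2.1 _ (left_mem_segment _ _ _)).ord k.le_succ⟩) h1
  have i2 := hF X E e τ v' Φ' z he hτ (fun s m => ⟨(h s m).2.1, (h s m).2.2.2.1⟩) h2
  have s2 : ∀ s ∈ Icc (0 : ℝ) 1, SA (fun p : ℝ × X => Φ' (pt e τ (1 - p.1) p.2)) (s, z) :=
    fun s m => sa_psi hτ.sm (h _ (flip_mem m)).2.1.sm
  have := gron_jet (k := k) (q := z) (L := 2 ^ k * |C| * (L * |C|)) (a := δ)
    (b := 2 ^ k * |C| * (k ! * (P + F) ^ k) * δ)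
    (Ψ := fun p : ℝ × X => Φ (pt e τ (1 - p.1) p.2) - Φ' (pt e τ (1 - p.1) p.2)) (by positivity)
    (by positivity) (fun s m => (sa_psi hτ.sm (h _ (flip_mem m)).1.sm).sub (s2 s m))
    (fun s m r hr => ?_) (by simpa using h3) 1 ⟨zero_le_one, le_rfl⟩
  · refine JB.mono (by simpa [pt_zero] using this) (le_of_eq ?_)
    ring
  obtain ⟨a1, a2, a3, -, a5⟩ := h _ (flip_mem m)
  have p := (jd_pt (flip_mem m) he hτ).mono (le_add_of_nonneg_right F0)
  have g1 := p.prod ((i1 _ (flip_mem m)).mono (le_add_of_nonneg_left (by positivity)))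
  have g2 := p.prod ((i2 _ (flip_mem m)).mono (le_add_of_nonneg_left (by positivity)))
  have b1 := hL X _ E v _ _ z C r (fun x hx => by
      obtain ⟨y, hy, rfl⟩ : ∃ y ∈ segment ℝ (Φ (pt e τ (1 - s) z)) (Φ' (pt e τ (1 - s) z)),
          (pt e τ (1 - s) z, y) = x := by
        rw [← Prod.image_mk_segment_right] at hx
        exact hx
      exact a3 y hy) g1 g2
    ((((JB.const (0 : X)).mono (norm_zero.trans_le hr.nonneg)).prod hr).congr
      (.of_forall fun w => by simp))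
  refine ((hτ.smul (b1.add (JB.comp (f := fun w => (pt e τ (1 - s) w,
    Φ' (pt e τ (1 - s) w))) a5 g2 (by linarith)))).congr ?_).mono (le_of_eq ?_)
  · filter_upwards [a1.fd hτ.sm _ (s2 s m), a2.fd hτ.sm (fun _ => 0) (SA.of contDiff_const)]
      with w e1 e2
    simp only [sub_zero, fderiv_fun_const, Pi.zero_apply, zero_apply] at e2
    rw [e1, e2, sub_add_sub_cancel, smul_sub]
  · simp only [abs_of_nonneg C0]
    ring

end Vale.Agent.P354YQ
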