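import Vale.Agent.P354YQ.Wo
import Vale.Agent.P354YO.Fn

/-!
The estimates far out in the layer above the initial slice.
-/

set_option maxSynthPendingDepth 3

open scoped ContDiff
open Set Filter Topology

noncomputable section

namespace Vale.Agent.P354YQ

open Vale.Agent.P354n (R4)
open Vale.Agent.P354R (Del)
open Vale.Agent.P354RC (B2)
open Vale.Agent.P354XD (tb)
open Vale.Agent.P354XE Vale.Agent.P354YO
open Vale.Agent.P354YI (Oj)
open Vale.Agent.P354XA (gin_bil rd_cont)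

variable {M a s δ : ℝ} {p : R4}

theorem gin_LL (h : rd p ≠ 0) (hD : Del M a (rd p) ≠ 0) :
    gin M a p (Lo M a p) (Lo M a p) = 0 := by
  rw [P354XA.gin_Lo' h hD, P354XA.dr_Lo h, P354XA.dq_Lo h, P354XA.Lo_fst, P354XA.lo1, P354YT.qm,
    P354YR.zc_c, show 2 * M * rd p = rd p ^ 2 + a ^ 2 - Del M a (rd p) by unfold Del; ring]
  field_simp
  ring

theorem uw_ge (hs : s ≤ 2) (r : 1 ≤ rd p) (h : |ur M a p| ≤ 2 * rd p) :
    (rd p)⁻¹ * (rd p)⁻¹ ≤ 5 * uw M a p ^ (-s) := by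
  have u := sq_le_sq' (abs_le.1 h).1 (abs_le.1 h).2
  have k : uw M a p ^ (-(2 : ℝ)) ≤ uw M a p ^ (-s) := Real.rpow_le_rpow_of_exponent_le
    (Real.one_le_sqrt.2 (by nlinarith [sq_nonneg (ur M a p)])) (by linarith)
  rw [uw, Real.rpow_neg (Real.sqrt_nonneg _), Real.rpow_two, Real.sq_sqrt (by positivity)] at k
  refine le_trans ?_ (mul_le_mul_of_nonneg_left k (by norm_num))
  rw [← mul_inv, ← div_eq_mul_inv, inv_eq_one_div, div_le_div_iff₀ (by positivity) (by positivity)]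
  nlinarith

theorem wt_ge (hd : δ ≤ 1) (r : 1 ≤ rd p) : (rd p)⁻¹ ≤ wt M a δ p := by
  have := Real.rpow_le_rpow_of_exponent_le r (neg_le_neg hd)
  rw [Real.rpow_neg_one] at this
  exact this.trans (le_add_of_nonneg_left (Real.rpow_nonneg (Real.sqrt_nonneg _) _))

variable {J : Type} {x : J → R4} {n : ℕ} {f : J → R4 → ℝ} {e w w' μ ν : J → ℝ}

theorem wo_wb (h : Wo M a n x f μ) (h' : Wo M a n x (fun j => wd M a [0] (f j)) ν)
    (e0 : ∀ j, 0 ≤ e j) (k : ∀ j, 0 ≤ w j ∧ μ j ≤ 5 * (e j * w j))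
    (k' : ∀ j, 0 ≤ w' j ∧ ν j ≤ 5 * (e j * w' j)) :
    ∀ᶠ C in atTop, ∀ j, Wb M a n (f j) (x j) (C * e j * w j) (C * e j * w' j) :=
  ((h.wt (fun j => mul_nonneg (e0 j) (k j).1) fun j => (k j).2).bd.and
    (h'.wt (fun j => mul_nonneg (e0 j) (k' j).1) fun j => (k' j).2).bd).mono fun _ k j α hα => by
      simpa only [mul_assoc] using And.intro (k.1 j α hα) (k.2 j α hα)

theorem far_fam {N : ℕ} {g : J → Tw} {β : J → Fin 3 → R4 → ℝ} (hM : 0 ≤ M) (hs : s ≤ 2)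
    (hd : δ ≤ 1) (e1 : ∀ j, e j ≤ 1) (hx : ∀ j, 1 + 4 * M ≤ rd (x j))
    (hu : ∀ j, |ur M a (x j)| ≤ 2 * rd (x j)) (sb : ∀ j, Sb (g j) (x j))
    (hL : ∀ j, ∀ᶠ y in 𝓝 (x j), ∀ v, g j y (Lo M a y) v = gin M a y (Lo M a y) v)
    (sm : ∀ j, P354YI.Sm (N + 2) (e j) (g j - gin M a) (x j))
    (sβ : ∀ j i, ContDiffAt ℝ ∞ (β j i) (x j))
    (hβ : ∀ j i, Wb M a (N + 2) (β j i) (x j) (e j / rd (x j) ^ 2) (e j / rd (x j) ^ 3)) :
    ∀ᶠ C in atTop, ∀ j, Far M a s δ (C * e j) N (g j) (β j) (x j) := by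
  have r := r_pos hM hx
  have l1 := ri_one hM hx
  have l0 : ∀ j, 0 ≤ ri x j := ri_nn
  have rl := r_ri hM hx
  have e0 : ∀ j, 0 ≤ e j := fun j => (div_nonneg_iff.1 ((abs_nonneg _).trans
    (hβ j 0 [] (Nat.zero_le _)).1)).elim And.left fun h => absurd h.2 (pow_pos (r j) 2).not_ge
  have el := fun j => mul_nonneg (e0 j) (l0 j)
  have U : ∀ j, ri x j * ri x j ≤ 5 * uw M a (x j) ^ (-s) := fun j =>
    uw_ge hs (r_one hM hx j) (hu j)
  have U0 : ∀ j, 0 ≤ uw M a (x j) ^ (-s) := fun j => Real.rpow_nonneg (Real.sqrt_nonneg _) _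
  have W : ∀ j, ri x j ≤ wt M a δ (x j) := fun j => wt_ge hd (r_one hM hx j)
  have sk := fun j => sb_gin (M := M) (a := a) (r j)
  have H := sy_sm hM hx (fun j => (sb j).sub (sk j)) e0 sm
  have K := sy_gin (a := a) (n := N + 2) hM hx
  have O : ∀ i, Sy (N + 2) x (fun _ => Om i) fun j => rd (x j) := fun i => by
    fin_cases i
    exacts [sy_vf (a := a) hM hx 2, sy_vf (a := a) hM hx 3, sy_vf (a := a) hM hx 4]
  have T : Sy (N + 2) x (fun _ _ => eT) 1 := Oj.cst eT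
  have P : ∀ {B : J → R4 → B2} {V V' : J → R4 → R4} {μ ν ν'}, Sy (N + 2) x B μ → Sy (N + 2) x V ν →
      Sy (N + 2) x V' ν' → Wp M a (N + 1) x (fun j y => B j y (V j y) (V' j y)) (μ * ν * ν') :=
    fun b v v' => Sy.wp hM hx ((b.ap v).ap v')
  have B : ∀ i, Wp M a (N + 1) x (fun j => β j i) (e * ri x * ri x) := fun i =>
    have sv := (P K T T).w.sv
    ⟨.of sv (fun j => sβ j i) (fun j => mul_nonneg (el j) (l0 j)) ⟨1, fun j α hα =>
      (hβ j i α hα).1.trans_eq (by simp only [Pi.mul_apply]; ring)⟩,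
    .of sv (fun j => (P354YI.at_fd (sβ j i)).clm_apply (sv j 0))
      (fun j => mul_nonneg (mul_nonneg (el j) (l0 j)) (l0 j)) ⟨1, fun j α hα =>
      (hβ j i α (by omega)).2.trans_eq (by simp only [Pi.mul_apply]; ring)⟩⟩
  have ev : ∀ j, ∀ᶠ y in 𝓝 (x j),
      (∀ v w, g j y v w = tb (g j - gin M a) y v w + tb (gin M a) y v w) ∧
      ∀ v w, gin M a y v w = tb (gin M a) y v w := fun j => (sb j).bl.mono fun y h => by
    simp only [tb_ap (g := g j - gin M a) (bil_sub h (gin_bil M a y)), tb_ap (gin_bil M a y),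
      Pi.sub_apply, sub_add_cancel, implies_true, and_self]
  have BO : ∀ {F : Fin 3 → J → R4 → ℝ} {ν}, (∀ j, 0 ≤ ν j) →
      (∀ i, Wp M a (N + 1) x (F i) ((fun j => rd (x j)) * ν)) →
      Wp M a (N + 1) x (fun j y => ∑ i, β j i y * F i j y) (e * ri x * ν) := fun {_ ν} _ h =>
    .sum3 fun i => ((B i).mul (h i)).mono fun j => le_of_eq (by
      simp only [Pi.mul_apply]; linear_combination (e j * ri x j * ν j) * rl j)
  have el1 : ∀ j, e j * ri x j ≤ 1 := fun j => mul_le_one₀ (e1 j) (l0 j) (l1 j)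
  have TN : ∀ {V : J → R4 → R4} {ν}, Sy (N + 2) x V ν → Wp M a (N + 1) x
      (fun j y => g j y (Nf (β j) y) (V j y) - gin M a y eT (V j y)) (e * ri x * ν) := by
    intro V ν v
    refine (((P H T v).mono fun j => by simp).add (BO v.nn fun i => ((P H (O i) v).mono
      fun j => ?_).add ((P K (O i) v).mono fun j => by simp))).congr fun j =>
        (ev j).mono fun y h => ?_
    · exact mul_le_mul_of_nonneg_right (mul_le_of_le_one_left (r j).le (el1 j)) (v.nn j)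
    · simp only [h.1, h.2 eT, Nf, map_add, map_smul, add_apply, Fin.sum_univ_three,
        smul_apply, smul_eq_mul]
      ring
  have tt : Wp M a (N + 1) x (fun j => ftt M a (g j) (β j)) (e * ri x * 1) := by
    refine ((TN T).add (BO T.nn fun i => ((TN (O i)).mono fun j => ?_).add ((P K T (O i)).mono
      fun j => by simp))).congr fun j => (ev j).mono fun y h => ?_
    · simpa using mul_le_of_le_one_left (r j).le (el1 j)
    · simp only [ftt, h.1, h.2 eT, Nf, map_add, map_smul, add_apply, Fin.sum_univ_three,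
        smul_apply, smul_eq_mul]
      ring
  have RI := (sy_ri (n := N + 2) hM hx).wp (a := a) hM hx
  have ta : ∀ i, Wp M a (N + 1) x (fun j y => (g j y (Nf (β j) y) (Om i y) -
      gin M a y eT (Om i y)) / rd y) (e * ri x) := fun i => ((TN (O i)).mul RI).mono fun j =>
    le_of_eq (by simp only [Pi.mul_apply]; linear_combination (e j * ri x j) * rl j)
  have aa : ∀ i k, Wp M a (N + 1) x (fun j y => (g j y (Om i y) (Om k y) -
      gin M a y (Om i y) (Om k y)) / rd y ^ 2) (e * ri x) := fun i k =>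
    ((((P H (O i) (O k)).mul RI).mul RI).mono fun j => le_of_eq (by
      simp only [Pi.mul_apply]
      linear_combination (e j * ri x j * (1 + rd (x j) * ri x j)) * rl j)).congr fun j =>
        (ev j).mono fun y h => by simp only [h.1, h.2]; ring
  have sh : ∀ i, Wo M a (N + 1) x (fun j y => rd y * wd M a [1] (β j i) y) (e * ri x) := fun i =>
    (((sy_rd hM hx).wo hM hx).mul ((B i).w.der 1)).mono fun j => le_of_eq (by
      simp only [Pi.mul_apply]; linear_combination (e j * ri x j) * rl j)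
  have kU : ∀ j, 0 ≤ uw M a (x j) ^ (-s) ∧
      (e * ri x * ri x) j ≤ 5 * (e j * uw M a (x j) ^ (-s)) := fun j =>
    ⟨U0 j, by simp only [Pi.mul_apply]; nlinarith [mul_le_mul_of_nonneg_left (U j) (e0 j)]⟩
  have kW : ∀ j, 0 ≤ wt M a δ (x j) ∧ (e * ri x) j ≤ 5 * (e j * wt M a δ (x j)) := fun j =>
    ⟨(l0 j).trans (W j), by
      simp only [Pi.mul_apply]; nlinarith [mul_le_mul_of_nonneg_left (W j) (e0 j), el j]⟩
  have kR : ∀ {c : J → ℝ}, (∀ j, 0 ≤ c j) → ∀ j, 0 ≤ c j + rd (x j) * uw M a (x j) ^ (-s) ∧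
      (e * ri x * 1) j ≤ 5 * (e j * (c j + rd (x j) * uw M a (x j) ^ (-s))) := fun c0 j =>
    ⟨add_nonneg (c0 j) (mul_nonneg (r j).le (U0 j)), by
      have := mul_le_mul_of_nonneg_left (U j) (mul_nonneg (e0 j) (r j).le)
      rw [mul_assoc, ← mul_assoc (rd _), rl] at this
      simp only [Pi.mul_apply, Pi.one_apply]
      nlinarith [mul_nonneg (e0 j) (c0 j)]⟩
  have kR0 := kR (c := fun _ => 0) fun _ => le_rfl
  simp only [zero_add] at kR0
  have N2 : N ≤ N + 2 := by omega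
  filter_upwards [eventually_ge_atTop 0,
    eventually_all.2 fun i => wo_wb ((B i).w.le N2) ((B i).w.der 0).pred e0 kU kU,
    eventually_all.2 fun i => wo_wb (sh i).pred ((sh i).der 0) e0 kW kW,
    wo_wb (tt.w.le N2) (tt.w.der 0).pred e0 (kR (c := fun _ => 1) fun _ => zero_le_one) kR0,
    eventually_all.2 fun i => wo_wb (tt.w.der i).pred ((tt.w.der i).der 0) e0
      (kR fun j => (kW j).1) kR0,
    eventually_all.2 fun i => wo_wb ((ta i).w.le N2) (ta i).t.pred e0 kW kU,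
    eventually_all.2 fun i => eventually_all.2 fun k => wo_wb (w := 1) ((aa i k).w.le N2)
      (aa i k).t.pred e0 (fun j => ⟨zero_le_one, by
        simp only [Pi.mul_apply, Pi.one_apply]; nlinarith [mul_le_of_le_one_right (e0 j) (l1 j), e0 j]⟩)
      kU] with C c0 h1 h2 h3 h4 h5 h6 j
  refine ⟨?_, sβ j, fun i α _ => ?_, fun i => ⟨h1 i j, h2 i j⟩, h3 j, fun i _ => h4 i j,
    fun i => h5 i j, fun i k => by simpa using h6 i k j⟩
  · filter_upwards [hL j, (isOpen_lt continuous_const rd_cont).mem_nhds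
      (show 1 / 2 + 4 * M < rd (x j) by linarith [hx j])] with y h1 (h2 : _ < _)
    refine ⟨(h1 _).trans (gin_LL (by linarith) (ne_of_gt ?_)), h1 _⟩
    unfold Del
    nlinarith [sq_nonneg a]
  · have z : (fun y => g j y (Lo M a y) (Om i y) - gin M a y (Lo M a y) (Om i y)) =ᶠ[𝓝 (x j)]
        fun _ => 0 := (hL j).mono fun y h => sub_eq_zero.2 (h _)
    rw [← wd_app, (wd_congr z _).eq_of_nhds, (wd_congr z _).eq_of_nhds, wd_zero, wd_zero, abs_zero]
    exact ⟨mul_nonneg c0 (e0 j), mul_nonneg (mul_nonneg c0 (e0 j)) (U0 j)⟩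

theorem outl : OUTL := fun M a s δ N h hs _ hd => by
  let J := {j : Tw × (Fin 3 → R4 → ℝ) × R4 × ℝ // j.2.2.2 ≤ 1 ∧ 1 + 4 * M ≤ rd j.2.2.1 ∧
    |ur M a j.2.2.1| ≤ 2 * rd j.2.2.1 ∧ Sb j.1 j.2.2.1 ∧
    (∀ᶠ y in 𝓝 j.2.2.1, ∀ v, j.1 y (Lo M a y) v = gin M a y (Lo M a y) v) ∧
    P354YI.Sm (N + 2) j.2.2.2 (j.1 - gin M a) j.2.2.1 ∧ (∀ i, ContDiffAt ℝ ∞ (j.2.1 i) j.2.2.1) ∧
    ∀ i, Wb M a (N + 2) (j.2.1 i) j.2.2.1 (j.2.2.2 / rd j.2.2.1 ^ 2) (j.2.2.2 / rd j.2.2.1 ^ 3)}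
  obtain ⟨C, hC⟩ := (far_fam (J := J) ((abs_nonneg a).trans h.le) hs hd (fun j => j.2.1)
    (fun j => j.2.2.1) (fun j => j.2.2.2.1) (fun j => j.2.2.2.2.1) (fun j => j.2.2.2.2.2.1)
    (fun j => j.2.2.2.2.2.2.1) (fun j => j.2.2.2.2.2.2.2.1) fun j => j.2.2.2.2.2.2.2.2).exists
  exact ⟨_, C, fun g β p e h1 h2 h3 h4 _ h5 h6 h7 h8 =>
    hC ⟨(g, β, p, e), h1, h2, h3, h4, h5, h6, h7, h8⟩⟩

end Vale.Agent.P354YQ
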