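import Vale.Agent.P354YQ.Og2
import Vale.Agent.P354YQ.Outl
import Vale.Agent.P354YA.Exz

/-!
The estimates far out in the second chart of the block OUT.
-/

set_option maxSynthPendingDepth 3

open scoped ContDiff
open Set Filter Topology

noncomputable section

namespace Vale.Agent.P354YQ

open Vale.Agent.P354n (R4)
open Vale.Agent.P354I (rm rp)
open Vale.Agent.P354XG (E6)
open Vale.Agent.P354XD (pj nq)
open Vale.Agent.P354XE Vale.Agent.P354YO Vale.Agent.P354Z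
open Vale.Agent.P354XA (hor rd_cont rd_cd rd_fd)
open Vale.Agent.P354YI (Oj ev_dif)
open Vale.Agent.P354YT (tb)
open Vale.Agent.P354MG (lo)

variable {M a s δ ε k : ℝ} {p : R4} {N : ℕ}

theorem wb_congr {f f' : R4 → ℝ} {c c' : ℝ} (h : Wb M a N f p c c') (e : f' =ᶠ[𝓝 p] f) :
    Wb M a N f' p c c' := fun α hα => by
  rw [(wd_congr e α).eq_of_nhds, (wd_congr (wd_congr e [0]) α).eq_of_nhds]
  exact h α hα

theorem far_congr {g g' : Tw} {β β' : Fin 3 → R4 → ℝ} (h : Far M a s δ ε N g β p)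
    (e : g' =ᶠ[𝓝 p] g) (b : ∀ i, β' i =ᶠ[𝓝 p] β i) : Far M a s δ ε N g' β' p := by
  have v : ∀ᶠ x in 𝓝 p, g' x = g x ∧ Nf β' x = Nf β x :=
    e.and ((eventually_all.2 b).mono fun x h => by simp only [Nf, h])
  have t : ftt M a g' β' =ᶠ[𝓝 p] ftt M a g β := v.mono fun x h => by simp only [ftt, h]
  exact ⟨(h.gauge.and v).mono fun x h => h.2.1 ▸ h.1,
    fun i => (h.smooth i).congr_of_eventuallyEq (b i),
    fun i => wb_congr (h.la i) (v.mono fun x h => by simp only [h]),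
    fun i => ⟨wb_congr (h.shift i).1 (b i), wb_congr (h.shift i).2
      ((wd_congr (b i) [1]).mono fun x => congrArg _)⟩, wb_congr h.tt t,
    fun i hi => wb_congr (h.tt' i hi) (wd_congr t _),
    fun i => wb_congr (h.ta i) (v.mono fun x h => by simp only [h]),
    fun i j => wb_congr (h.aa i j) (v.mono fun x h => by simp only [h])⟩

section fam
variable {J : Type} {x : J → R4} {n : ℕ} {v : J → R4 → ℝ} {F : ℝ → ℝ}

theorem wd_comp {v : R4 → ℝ} (hF : ContDiff ℝ ∞ F) (h : ContDiffAt ℝ ∞ v p) (i : Fin 5) :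
    wd M a [i] (fun y => F (v y)) =ᶠ[𝓝 p] fun y => deriv F (v y) * wd M a [i] v y :=
  (ev_dif h).mono fun y k => DFunLike.congr_fun ((hF.differentiable (by simp)
    (v y)).hasDerivAt.comp_hasFDerivAt y k.hasFDerivAt).fderiv _

theorem Wo.comp (h : Wo M a n x v 1) (hF : ContDiff ℝ ∞ F) :
    Wo M a n x (fun j y => F (v j y)) 1 := by
  have base : ∀ {F : ℝ → ℝ}, ContDiff ℝ ∞ F → Wo M a 0 x (fun j y => F (v j y)) 1 := fun hF =>
    let ⟨C, _, hC⟩ := h.ex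
    let ⟨D, hD⟩ := (isCompact_Icc (a := -C) (b := C)).exists_bound_of_continuousOn
      hF.continuous.continuousOn
    .zero h.sv (fun j => hF.contDiffAt.comp _ (h.sm j)) h.nn ⟨D, fun j => (hD _ (abs_le.1
      ((hC j [] n.zero_le).trans_eq (mul_one C)))).trans_eq (mul_one D).symm⟩
  induction n generalizing F with
  | zero => exact base hF
  | succ n ih =>
    exact (base hF).succ fun i => (((ih h.pred (contDiff_infty_iff_deriv.1 hF).2).mul
      (h.der i)).mono fun _ => (mul_one _).le).congr fun j => wd_comp hF (h.sm j) i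

end fam

/-- The retarded time in units of the radius. -/
def vr (M a k : ℝ) (y : R4) : ℝ := (ur M a y + k) * (rd y)⁻¹

theorem vr_cd (h : |a| < M) (hr : rp M a < rd p) : ContDiffAt ℝ ∞ (vr M a k) p :=
  have r := (((hor h).2.1.trans_lt (hor h).2.2.1).trans hr).ne'
  ((ur_cd h hr).add contDiffAt_const).mul ((rd_cd r).inv r)

theorem vr_wd (h : |a| < M) (hr : rp M a < rd p) (i : Fin 5) : wd M a [i] (vr M a k) p =
    ![1, 0, 0, 0, 0] i * (rd p)⁻¹ + ![0, -1, 0, 0, 0] i * vr M a k p := by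
  have r := (((hor h).2.1.trans_lt (hor h).2.2.1).trans hr).ne'
  have d := ((rd_cd (n := 1) r).differentiableAt one_ne_zero).hasFDerivAt
  have e : HasFDerivAt (vr M a k) _ p := (((hasFDerivAt_fst.sub ((P354XA.psi_deriv h
    hr).comp_hasFDerivAt p d)).add_const k).mul ((hasDerivAt_inv r).comp_hasFDerivAt p
      d)).congr_of_eventuallyEq (.of_forall fun y => by simp [vr, P354XA.ur_eq])
  have t : dr p eT = 0 := by simp [dr, P354YR.dT_c, eT]
  simp only [wd, e.fderiv, vr, P354XA.ur_eq]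
  fin_cases i <;> simp [vf, rd_fd r, t, P354XA.dr_Lo r, P354XA.Lo_fst, P354XA.dr_Om, P354XA.Om_fst,
    show eT.1 = 1 from rfl]
  field_simp

theorem cut_wb (h : |a| < M) {F : ℝ → ℝ} (hF : ContDiff ℝ ∞ F) (n : ℕ) : ∃ C ≥ 1,
    ∀ k (β : R4 → ℝ) p e, 1 + 4 * M ≤ rd p → |vr M a k p| ≤ 1 → ContDiffAt ℝ ∞ β p →
      Wb M a n β p (e / rd p ^ 2) (e / rd p ^ 3) →
      Wb M a n (fun y => F (vr M a k y) * β y) p (C * e / rd p ^ 2) (C * e / rd p ^ 3) := by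
  let J := {j : ℝ × (R4 → ℝ) × R4 × ℝ // 1 + 4 * M ≤ rd j.2.2.1 ∧ |vr M a j.1 j.2.2.1| ≤ 1 ∧
    ContDiffAt ℝ ∞ j.2.1 j.2.2.1 ∧
    Wb M a n j.2.1 j.2.2.1 (j.2.2.2 / rd j.2.2.1 ^ 2) (j.2.2.2 / rd j.2.2.1 ^ 3)}
  obtain ⟨m, -, -, h2, -⟩ := hor h
  have hx : ∀ j : J, 1 + 4 * M ≤ rd j.1.2.2.1 := fun j => j.2.1
  have r : ∀ j : J, rp M a < rd j.1.2.2.1 := fun j => by linarith [hx j]
  have R := fun n => (sy_ri (n := n) m.le hx).wo (a := a) m.le hx
  have K := fun n (c : ℝ) => Sy.wo (a := a) (n := n) (f := fun _ _ => c) m.le hx (Oj.cst c)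
  have D : ∀ {n ν} (i : Fin 5), Wo M a n _ (fun (j : J) y => ![1, 0, 0, 0, 0] i * (rd y)⁻¹ +
      ![0, -1, 0, 0, 0] i * vr M a j.1.1 y) ν → Wo M a n (fun j : J => j.1.2.2.1)
      (fun j => wd M a [i] (vr M a j.1.1)) ν := fun i k => k.congr fun j =>
    (rd_cont.continuousAt.eventually_const_lt (r j)).mono fun y k => vr_wd h k i
  have V : ∀ n, Wo M a n (fun j : J => j.1.2.2.1) (fun j => vr M a j.1.1) 1 := fun n => by
    have b := Wo.zero (μ := 1) (R 0).sv (fun j => vr_cd (k := j.1.1) h (r j)) (fun _ => zero_le_one)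
      ⟨1, fun j => j.2.2.1.trans_eq (mul_one 1).symm⟩
    induction n with
    | zero => exact b
    | succ n ih =>
      exact b.succ fun i => D i ((((K n _).mul (R n)).mono fun j => (one_mul _).trans_le
        (ri_one m.le hx j)).add (((K n _).mul ih).mono fun _ => (one_mul _).le))
  have n2 := fun j : J => (abs_nonneg _).trans (j.2.2.2.2 [] n.zero_le).1
  have n3 := fun j : J => (abs_nonneg _).trans (j.2.2.2.2 [] n.zero_le).2
  have B := Wo.of (R 0).sv (fun j => j.2.2.2.1) n2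
    ⟨1, fun j α hα => (j.2.2.2.2 α hα).1.trans_eq (one_mul _).symm⟩
  have B' := Wo.of (R 0).sv (fun j => (P354YI.at_fd j.2.2.2.1).clm_apply ((R 0).sv j 0)) n3
    ⟨1, fun j α hα => (j.2.2.2.2 α hα).2.trans_eq (one_mul _).symm⟩
  have X := (V n).comp hF
  have X' := (((V n).comp (contDiff_infty_iff_deriv.1 hF).2).mul (D 0 ((R n).congr fun _ =>
    .of_forall fun _ => by simp))).congr fun j => wd_comp hF (vr_cd h (r j)) 0
  have Y := (((X.mul B').mono fun _ => (one_mul _).le).add ((X'.mul B).mono fun j => le_of_eq (by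
    simp only [Pi.mul_apply, Pi.one_apply]; ring))).congr fun j => wd_mul (X.sm j) (B.sm j) 0
  obtain ⟨C, ⟨c1, c2⟩, c3⟩ := (((X.mul B).bd.and Y.bd).and (eventually_ge_atTop 1)).exists
  exact ⟨C, c3, fun k β p e h1 h2 h3 h4 α hα =>
    ⟨(c1 ⟨(k, β, p, e), h1, h2, h3, h4⟩ α hα).trans_eq (by simp [mul_div_assoc]),
      (c2 ⟨(k, β, p, e), h1, h2, h3, h4⟩ α hα).trans_eq (mul_div_assoc _ _ _).symm⟩⟩

theorem outl0 (hM : 0 ≤ M) (hs : s ≤ 2) (hd : δ ≤ 1) (N : ℕ) : ∃ C ≥ 1, ∀ (g : Tw) β p e, e ≤ 1 →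
    1 + 4 * M ≤ rd p → |ur M a p| ≤ 2 * rd p → Sb g p →
    (∀ᶠ x in 𝓝 p, ∀ v, g x (Lo M a x) v = gin M a x (Lo M a x) v) →
    P354YI.Sm (N + 2) e (g - gin M a) p → (∀ i, ContDiffAt ℝ ∞ (β i) p) →
    (∀ i, Wb M a (N + 2) (β i) p (e / rd p ^ 2) (e / rd p ^ 3)) → Far M a s δ (C * e) N g β p := by
  let J := {j : Tw × (Fin 3 → R4 → ℝ) × R4 × ℝ // j.2.2.2 ≤ 1 ∧ 1 + 4 * M ≤ rd j.2.2.1 ∧
    |ur M a j.2.2.1| ≤ 2 * rd j.2.2.1 ∧ Sb j.1 j.2.2.1 ∧
    (∀ᶠ y in 𝓝 j.2.2.1, ∀ v, j.1 y (Lo M a y) v = gin M a y (Lo M a y) v) ∧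
    P354YI.Sm (N + 2) j.2.2.2 (j.1 - gin M a) j.2.2.1 ∧ (∀ i, ContDiffAt ℝ ∞ (j.2.1 i) j.2.2.1) ∧
    ∀ i, Wb M a (N + 2) (j.2.1 i) j.2.2.1 (j.2.2.2 / rd j.2.2.1 ^ 2) (j.2.2.2 / rd j.2.2.1 ^ 3)}
  obtain ⟨C, c1, hC⟩ := ((eventually_ge_atTop 1).and (far_fam (J := J) hM hs hd (fun j => j.2.1)
    (fun j => j.2.2.1) (fun j => j.2.2.2.1) (fun j => j.2.2.2.2.1) (fun j => j.2.2.2.2.2.1)
    (fun j => j.2.2.2.2.2.2.1) (fun j => j.2.2.2.2.2.2.2.1) fun j => j.2.2.2.2.2.2.2.2)).exists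
  exact ⟨C, c1, fun g β p e h1 h2 h3 h4 h5 h6 h7 h8 =>
    hC ⟨(g, β, p, e), h1, h2, h3, h4, h5, h6, h7, h8⟩⟩

/-- The shift, cut off in the layer. -/
def cf (d t : ℝ) : ℝ := Real.smoothTransition (3 * (t + 1) / d - 1)
def be (M a d k : ℝ) (β : Fin 3 → R4 → ℝ) (i : Fin 3) (y : R4) : ℝ := cf d (vr M a k y) * β i y

theorem far_ok (z : Z1) (c : Cs) (N : ℕ) (h : |z.a| < z.M) : ∃ C ≥ 1,
    ∀ {Rb m dd gc g E κ Cl e U a A B tw k β η}, Gh z c Rb m dd gc g E κ Cl e U a A B tw k →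
    (lo z c.Rs).Ok → 0 ≤ tb z.M z.a (z.R1 - 1 / 2) → tb z.M z.a (10 * z.M) ≤ z.R1 / 2 →
    N + 2 ≤ m → 0 ≤ η → dd ≤ η → C * η ≤ 1 →
    (∀ p ∈ En z.M z.a z.r1 z.θ, (z.pm c.Rs Rb).psi p < 0 → z.R1 + 3 ≤ rd p →
      ur z.M z.a p ≤ -(z.R1 + 3) - tb z.M z.a (z.R1 + 2) →
      ∀ᶠ x in 𝓝 p, ∀ v, gc x (Lo z.M z.a x) v = gin z.M z.a x (Lo z.M z.a x) v) →
    (∀ y ∈ E.O2, nq y = 1 → Est.Fa c y →
      Far z.M z.a (6 / 5) (1 / 10) η N (pb (sh (-A) (-B)) E.g) β (sh A B (pj y)) ∧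
      (4 * c.R1 ≤ y.2.1 → uu c.M y + y.2.1 ≤ c.del * y.2.1 → ∀ i, Wb z.M z.a (N + 2) (β i)
        (sh A B (pj y)) (η / y.2.1 ^ 2) (η / y.2.1 ^ 3))) →
    ∀ p ∈ En z.M z.a z.r1 z.θ, c.t1 ≤ rd p → Far z.M z.a (6 / 5) (1 / 10) (C * η) N
      (pb (bb U a A B) g) (be z.M z.a c.del k β) p := by
  have hF : ContDiff ℝ ∞ (cf c.del) := Real.smoothTransition.contDiff.comp (by fun_prop)
  obtain ⟨C, c1, hC⟩ := cut_wb h hF (N + 2)
  obtain ⟨D, d1, hD⟩ := outl0 (a := z.a) (s := 6 / 5) (δ := 1 / 10) (hor h).1.le (by norm_num)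
    (by norm_num) N
  refine ⟨D * C, one_le_mul_of_one_le_of_one_le d1 c1, ?_⟩
  intro Rb m dd gc g E κ Cl e U a A B tw k β η H o t0 t1 hm h0 hd h1 fl fx p hp hr
  obtain ⟨n1, n2, n3, n4, -⟩ := H.num
  obtain ⟨l0, l1⟩ := H.ag.ok.del
  have r0 : 0 < rd p := by linarith
  have s := vr_cd (k := k) h (show _ < rd p by linarith)
  have v : vr z.M z.a k p * rd p = ur z.M z.a p + k := inv_mul_cancel_right₀ r0.ne' _
  have eC := le_mul_of_one_le_left h0 c1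
  have eD := le_mul_of_one_le_left (h0.trans eC) d1
  rw [mul_assoc] at h1 ⊢
  rcases lt_or_ge (2 / 3 * c.del - 1) (vr z.M z.a k p) with w | w
  · obtain ⟨hS, y, y1, y2, y3, y4, -⟩ := H.fa (p := p) (by linarith) (by nlinarith)
    refine far_congr (far_mono (y4 ▸ (fx y y1 y2 y3).1) (eC.trans eD))
      (H.lc.met ▸ (bb_loc H.lc.cht H.sm.1 H.sm.2 hS).2.2) fun i =>
        (s.continuousAt.eventually_const_lt w).mono fun x hx => ?_
    rw [be, cf, Real.smoothTransition.one_of_one_le (by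
      rw [le_sub_iff_add_le, le_div_iff₀ l0]; linarith), one_mul]
  have q : p.1 < tb z.M z.a (rd p) + (0 + 2) * (z.del * rd p) :=
    o.be_far (show z.R1 + 2 + 1 ≤ rd p by linarith) ▸ (o.psi_lt r0 0).1 (H.lc.lay p hr (by
      have := H.uu_eq (p := p) (y := (p.1 - A (rd p), rd p, 0)) (by linarith) rfl rfl
      rw [uu] at this
      nlinarith))
  have ps := (H.o.psi_lt r0 0).2 (q.trans_le (add_le_add_left (H.o.be_ge (r := rd p)
    (show rp z.M z.a < _ by linarith)) _))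
  have z1 := mul_le_mul_of_nonneg_right (show z.del ≤ _ from o.del.2) r0.le
  have m1 := H.mon (x := z.R1 + 2) (y := rd p) (by linarith) (by linarith)
  have m2 := H.mon (y := rd p) le_rfl (by linarith)
  have m3 := P354YA.tb_lip h le_rfl (show _ ≤ rd p by linarith)
  have b := H.tb_le hp (by linarith)
  have K : ∀ i, ContDiffAt ℝ ∞ (be z.M z.a c.del k β i) p ∧ Wb z.M z.a (N + 2)
      (be z.M z.a c.del k β i) p (C * η / rd p ^ 2) (C * η / rd p ^ 3) := fun i => by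
    rcases lt_or_ge (vr z.M z.a k p) (c.del / 3 - 1) with u | u
    · have e0 : be z.M z.a c.del k β i =ᶠ[𝓝 p] fun _ => 0 :=
        (s.continuousAt.eventually_lt_const u).mono fun x hx => by
          rw [be, cf, Real.smoothTransition.zero_of_nonpos (by
            rw [sub_nonpos, div_le_one l0]; linarith), zero_mul]
      refine ⟨contDiffAt_const.congr_of_eventuallyEq e0, wb_congr (fun α _ => ?_) e0⟩
      simp only [wd_zero, abs_zero]
      exact ⟨by positivity, by positivity⟩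
    · obtain ⟨-, y, y1, y2, y3, y4, y5, y6⟩ := H.fa (p := p) (by linarith) (by nlinarith)
      obtain ⟨f1, f2⟩ := fx y y1 y2 y3
      rw [y4, y5, y6, H.ag.R1] at *
      exact ⟨(hF.contDiffAt.comp p s).mul (f1.smooth i), hC k _ p η (by linarith)
        (abs_le.2 ⟨by linarith, by linarith⟩) (f1.smooth i) (f2 (by linarith) (by nlinarith) i)⟩
  obtain ⟨W, l, sW⟩ := H.cg.lv
  have ab : p ∈ P354YI.Ab (z.pm c.Rs Rb) z.θ := ⟨hp, ps.le.trans zero_le_one⟩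
  refine far_congr (hD gc _ p _ (eD.trans h1) (by linarith) ?_ (sb_lv l (sW ab))
    (fl p hp ps (by linarith) ?_) (fun j hj v w => (H.cg.sml p ab j (hj.trans hm) v w).trans ?_)
    (fun i => (K i).1) fun i => (K i).2) ((pb_map (H.bb_id ⟨by linarith, by nlinarith⟩)).trans
      (by rw [pb_id]; exact H.ev r0 ps)) fun _ => .rfl
  · rw [ur_tb, abs_le]
    constructor <;> linarith
  · rw [ur_tb]
    linarith
  · gcongr
    exact hd.trans eC

end Vale.Agent.P354YQ
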