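import Vale.Agent.P354YQ.Og3
import Vale.Agent.P354YQ.Og1
import Vale.Agent.P354BO.Outb
import Vale.Agent.P354YR.Nfo
import Vale.Agent.P354YT.Main

/-!
The block OUT from FARX, LATE and FLAY.
-/

open scoped ContDiff
open Set Filter Topology

noncomputable section

namespace Vale.Agent.P354YQ

open Vale.Agent.P354n (R4)
open Vale.Agent.P354XG (E6)
open Vale.Agent.P354XD (pj)
open Vale.Agent.P354XE Vale.Agent.P354YO Vale.Agent.P354Z
open Vale.Agent.P354YI (Jb)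
open Vale.Agent.P354YT (tb)
open Vale.Agent.P354YA (Ag FARX End0)
open Vale.Agent.P354MG (Lk Lc)

theorem Cmp.mono {c : Cs} {E : Est} {η η' : ℝ} (h : Cmp c E η) (h0 : 0 ≤ η) (k : η ≤ η') :
    Cmp c E η' :=
  ⟨h.par.trans k, fun x a b i => (h.n1 x a b i).trans (by gcongr),
    fun x a b f i => (h.n2 x a b f i).trans (by gcongr)⟩

theorem Gh.fn {z : Z1} {c : Cs} {Rb dd κ Cl e tw k r0 rE T s δ ε : ℝ} {m N : ℕ} {E : Est}
    {gc g : Tw} {U : Set E6} {a : E6 → E6} {A B A' B' : ℝ → ℝ} {β : Fin 3 → R4 → ℝ}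
    (H : Gh z c Rb m dd gc g E κ Cl e U a A B tw k) (hb : z.R1 ≤ Rb) (h0 : z.r1 < r0) (h1 : r0 < rE)
    (T1 : tw - 1 ≤ T) (T2 : T ≤ tw) (hN : N + 1 ≤ c.N0) (he : Cl * e ≤ ε)
    (par : |E.M - z.M| ≤ ε ∧ |E.a - z.a| ≤ ε)
    (l1 : ∀ p, rE < rd p → rd p ≤ c.t1 + 2 → tw - 3 ≤ p.1 → p ∈ Sa U a A B)
    (l2 : ∀ p, rE < rd p → rd p ≤ c.t1 + 2 → |p.1 - tw| ≤ 3 →
      Jb (N + 2) (fun y => bb U a A B y - y) p ε) (l3 : ContDiff ℝ ∞ A' ∧ ContDiff ℝ ∞ B')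
    (l4 : ∀ r ∈ Icc rE (c.t1 + 2), Jb (N + 2) A' r ε ∧ Jb (N + 2) B' r ε)
    (l5 : ∀ p, rE < rd p → rd p ≤ c.t1 + 2 → tw - 1 ≤ p.1 →
      Bd (N + 1) (pb (bb U a A B ∘ sh A' B') g - gin E.M E.a) p (ε * (1 + |p.1|) ^ (-s)))
    (far : ∀ p ∈ En z.M z.a z.r1 z.θ, c.t1 ≤ rd p → Far z.M z.a s δ ε N (pb (bb U a A B) g) β p) :
    Fn z.M z.a r0 rE z.θ z.θ1 c.t1 T s δ ε N gc
      ⟨g, Dm g, Sa U a A B ∪ Ql z k ∩ Dm g, bb U a A B, A', B', E.M, E.a, β⟩ := by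
  obtain ⟨n1, n2, n3, n4, -⟩ := H.num
  have hE := h0.trans h1
  have en : ∀ {p}, p ∈ En z.M z.a rE z.θ → p ∈ En z.M z.a z.r1 z.θ := fun h => ⟨hE.trans h.1, h.2⟩
  refine ⟨lv_dm g, par, (sa_open H.lc.cht H.sm.1 H.sm.2).union (H.ql_open.inter (lv_dm g).isOpen),
    fun p hp => hp.elim (fun h => ?_) fun h => ?_, fun p hp => hp.elim
      (fun h => .inl (l1 p h.1 h.2.1 (by linarith [h.2.2]))) fun h => ?_, l3, l4,
    fun p a1 a2 a3 => ?_, fun p a1 a2 a3 => l2 p a1 a2 (abs_le.2 ⟨by linarith [abs_le.1 a3],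
      by linarith [abs_le.1 a3]⟩), fun p a1 a2 a3 => l5 p a1 a2 (T1.trans a3),
    fun p hp h => far p (en hp) (by linarith), fun p _ a1 a2 => H.bb_id (H.ql a1 (a2.imp
      (fun h => by linarith) fun h => H.la hE h (by linarith) le_rfl)), fun p hp =>
    ⟨H.ev (H.o.pos (en hp.1).1) ?_, fun h => by
      linarith [H.la (ρ := c.t1 + 6) hE hp (by linarith) (by linarith), H.tb_tw]⟩⟩
  · obtain ⟨x, hx, -, e, -⟩ := sa_ex H.lc.cht h
    obtain ⟨b1, b2, -⟩ := bb_loc (g := g) H.lc.cht H.sm.1 H.sm.2 h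
    exact ⟨b1, b2, mem_of_eq_of_mem e (H.dm (H.lc.dom x hx).1)⟩
  · have e := H.bb_id h.1
    exact ⟨contDiffAt_id.congr_of_eventuallyEq e, by
      rw [e.fderiv_eq, fderiv_id]; exact fun _ _ => id, mem_of_eq_of_mem e.eq_of_nhds h.2⟩
  · rcases le_or_gt 0 (ur z.M z.a p + k + rd p) with w | w
    exacts [.inl (H.fa (by linarith [h.2]) w).1,
      .inr ⟨⟨by linarith [h.2], by linarith [h.2]⟩, H.dm (en h.1)⟩]
  · have : p ∈ En z.M z.a z.r1 z.θ ∧ p.1 ≤ tw + 6 := a3.elim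
      (fun h => ⟨en h.1, by linarith [h.2]⟩) fun h => ⟨H.en (h0.trans_le a1) (by linarith)
        (abs_le.2 ⟨by linarith [abs_le.1 h], by linarith [abs_le.1 h]⟩), by linarith [abs_le.1 h]⟩
    obtain ⟨b1, b2⟩ := H.lc.col p this.1 (by linarith) this.2
    exact ⟨H.dm this.1, bd_congr (b1.mono fun x h => by simp only [Pi.sub_apply, h])
      (P354YA.bd_mono hN he b2)⟩
  · have r := H.o.pos (en hp.1).1
    have := mul_pos H.o.del.1 r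
    refine (H.o.psi_lt r 0).2 (lt_of_le_of_lt (b := (z.pm c.Rs Rb).be (rd p)) ?_ (by linarith))
    rcases le_total (rd p) (z.R1 - 1 / 2) with w | w
    · exact ((H.la hE hp le_rfl w).trans (H.o.be_ge H.o.rpR)).trans_eq ((H.o.be_near
        (show z.R1 - 1 / 2 ≤ Rb by linarith)).trans (H.o.be_near (show _ ≤ Rb by linarith)).symm)
    · exact (H.la hE hp w le_rfl).trans (H.o.be_ge (H.o.rpR.trans_le w))

theorem lg (M a θ : ℝ) : ∃ Rm, ∀ R ≥ Rm, |a| < M → θ ≤ Real.exp (ka M a * tb M a (R - 1 / 2)) ∧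
    0 ≤ tb M a (R - 1 / 2) ∧ tb M a (10 * M) ≤ R / 2 := by
  by_cases h : |a| < M
  · have t := (P354YA.tb_top h).comp (tendsto_atTop_add_const_right _ (-(1 / 2)) tendsto_id)
    refine eventually_atTop.1 ?_
    filter_upwards [(Real.tendsto_exp_atTop.comp (t.const_mul_atTop
      (P354YR.ka_pos h))).eventually_ge_atTop θ, t.eventually_ge_atTop 0,
      eventually_ge_atTop (2 * tb M a (10 * M))] with R h1 h2 h3 _
    exact ⟨h1, h2, by linarith⟩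
  · exact ⟨0, fun _ _ k => absurd k h⟩

/-- **The block OUT.** -/
theorem out_of (hF : FARX) (hL : LATE) (hY : FLAY) : OUT Lk P354YK.FT := by
  refine ⟨6 / 5, by norm_num, 1 / 10, by norm_num, fun M a r1 θ θ1 del => ?_⟩
  obtain ⟨Rm, hR⟩ := lg M a (2 * θ1)
  refine ⟨Rm, fun R1 k1 κz zo a1 => ⟨max a1.t1 R1, le_max_right _ _, fun rE hE N ε hε => ?_⟩⟩
  obtain ⟨t1, t2, t3⟩ := hR R1 k1 (zo.ok _ le_rfl _ le_rfl).1.1.sub
  set z : Z1 := ⟨M, a, r1, θ, θ1, del, R1, κz⟩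
  obtain ⟨Rc, hF⟩ := hF z N a1.t1
  refine ⟨N + 3, N + 2, fun b hb => ⟨b.L0, max Rc (a1.t1 + 3), fun L kL c kc =>
    ⟨_, sub_pos.2 hE, fun κ hκ d ok => ⟨R1 + 2, fun Rb kb Cl cl => ?_⟩⟩⟩⟩
  have ag : Ag z (cs z a1 b c d) := ⟨zo, ok, rfl, rfl, rfl⟩
  have s1 : 10 * M + 10 ≤ R1 := ok.R1
  have s2 : 10 * R1 ≤ c.R2 := ok.R2
  have s3 : 10 * c.R2 ≤ c.Rs := ok.Rs
  have s4 := (zo.ok _ le_rfl _ le_rfl).1.1.M0
  have s5 : R1 + 1 ≤ c.Rs := by linarith [show 0 < M from s4]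
  have o := (zo.ok _ s5 _ kb).1
  have θ0 : 0 < θ ∧ θ ≤ θ1 := zo.θ
  obtain ⟨η0, h0, C1, c1, hF⟩ := hF _ ag rfl ((le_max_left _ _).trans kc) Cl
  obtain ⟨C2, c2, hD⟩ := dec _ ok
  obtain ⟨e1, h1, hI⟩ := P354XV.first P354YR.nf_ok P354YT.tau_ok P354YR.nw_ok _ o
  obtain ⟨e2, h2, hY⟩ := hY _ o
  obtain ⟨C3, c3, hX⟩ := far_ok z (cs z a1 b c d) N o.1.sub
  have key : ∀ T : ℤ, ∀ᶠ e in 𝓝[>] (0 : ℝ), ∀ m ≥ N + 3, ∀ dd ∈ Ioc 0 e, ∀ gc,
      z.Cg c.Rs Rb m dd gc → ∀ g E, (∀ V, z.St c.Rs Rb gc V g) → E.Lv = univ →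
      Inp Lk P354YK.FT z Rb (cs z a1 b c d) L (N + 3) gc g E κ Cl e → ∀ U f A B tw, |A R1| ≤ Cl →
      Lc z (cs z a1 b c d) gc g E κ Cl e U f A B tw → ⌊tw⌋ = T →
      ∃ W g' Y, End0 M a rE θ θ1 (max a1.t1 R1) (6 / 5) (1 / 10) ε N gc W g' Y := fun T => by
    obtain ⟨ε1, p1, hO⟩ := outa M a ((r1 + rE) / 2) rE θ θ1 (max a1.t1 R1) T (6 / 5) (1 / 10) N
      o.1.sub (o.1.r1.1.trans (left_lt_add_div_two.2 hE)) (add_div_two_lt_right.2 hE) θ0.1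
      (o.1.rpR.trans_le ((sub_le_self _ (by norm_num)).trans (le_max_right _ _))) (by norm_num) ε hε
    obtain ⟨η1, p2, hL⟩ := hL _ _ ag rE hE N hb (((le_max_right _ _).trans kc).trans
      (show c.R2 ≤ c.Rs by linarith [show 0 < M from s4])) Cl ε1 p1
    filter_upwards [P354XA.small (C3 * (C1 * (C2 * Cl))) (lt_min (lt_min (lt_min one_pos h0)
      (lt_min h1 h2)) (lt_min p1 p2))] with e he m hm dd hd gc cg g E st lv inp U f A B tw hA lc hT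
    have e0 := hd.1.le.trans hd.2
    have q1 := le_mul_of_one_le_left e0 cl
    have q2 := le_mul_of_one_le_left (e0.trans q1) c2
    have q3 := le_mul_of_one_le_left ((e0.trans q1).trans q2) c1
    have q4 := le_mul_of_one_le_left (((e0.trans q1).trans q2).trans q3) c3
    rw [show e * _ = C3 * (C1 * (C2 * (Cl * e))) by ring] at he
    simp only [lt_min_iff] at he
    obtain ⟨⟨⟨w1, w2⟩, w3, w4⟩, w5, w6⟩ := he
    obtain ⟨sA, sB, -⟩ := P354BO.th_sm s4 lc.th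
    obtain ⟨k, nk⟩ := ((P354CS.pre M a A B sA sB).2.2.2.2.2.2.2 o.1.sub lc.th).1
    have H : Gh _ _ Rb m dd gc g E κ Cl e U f A B tw k := ⟨ag, o.1, t1, cg, st, lv, lc, ⟨sA, sB⟩, nk⟩
    have cm := hD E L _ inp.is kL (by linarith) inp.e0 inp.dec
    have u1 := (show θ ≤ 2 * θ1 by linarith [θ0.1, θ0.2]).trans t1
    have u2 := (show 3 / 2 * θ1 ≤ 2 * θ1 by linarith [θ0.1, θ0.2]).trans t1
    obtain ⟨β, hβ⟩ := hF gc g E κ Cl e U f A B tw _ inp.is lc hA (fun x hx r => (hI κz θ θ1 m dd gc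
      _ g (by omega) (by linarith [hd.2]) u1 u2 cg (st _) _ ⟨⟨(lc.dom x hx).1.1,
        H.tb_le (lc.dom x hx).1, fun r' => absurd (le_trans r r')
          (not_le.2 (show R1 - 1 / 2 < R1 + 2 by linarith))⟩, .inl (lt_add_one _)⟩).2 r)
      (P354YK.mono _ _ _ _ _ _ le_rfl q2 inp.far) cm.par (by linarith)
    obtain ⟨l1, l2, A', B', l3, l4, l5⟩ := hL gc g E κ Cl e U f A B tw inp.is
      (cm.mono (by linarith) (by linarith)) lc lv hκ.2 hA (by linarith)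
    have pa : E.e0 + |E.M - z.M| + |E.a - z.a| ≤ _ := cm.par
    have p0 := inp.is.near.e0
    rw [max_eq_left (show R1 ≤ a1.t1 by linarith [show 4 * R1 + 6 ≤ a1.t1 from lc.big,
      show 0 < M from s4])] at hO ⊢
    exact hO gc _ (H.fn (le_trans (by linarith) kb) (left_lt_add_div_two.2 hE)
      (add_div_two_lt_right.2 hE) (hT ▸ (Int.sub_one_lt_floor tw).le) (hT ▸ Int.floor_le tw)
      (Nat.le_of_succ_le hb) (by linarith) ⟨by linarith [abs_nonneg (E.a - z.a)],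
        by linarith [abs_nonneg (E.M - z.M)]⟩
      l1 l2 l3 l4 l5 fun p hp hr => far_mono (hX H (zo.ok _ s5 _ le_rfl).1.1 t2 t3 (by omega)
        (by linarith) (by linarith [hd.2]) w1.le (hY κz θ θ1 m dd gc (by omega)
          (by linarith [hd.2]) u1 u2 cg) hβ p hp hr) w5.le)
  obtain ⟨e3, h3, hK⟩ := mem_nhdsGT_iff_exists_Ioc_subset.1
    ((eventually_all_finset (Finset.Icc ⌊-Cl⌋ ⌊Cl⌋)).2 fun T _ => key T)
  refine ⟨e3, h3, N + 3, fun e he m hm dd hd gc cg g E st lv inp => ?_⟩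
  obtain ⟨U, f, A, B, tw, hA, -, ht, lc⟩ := inp.lk
  exact hK he _ (Finset.mem_Icc.2 ⟨Int.floor_mono (abs_le.1 ht).1, Int.floor_mono (abs_le.1 ht).2⟩)
    m hm dd hd gc cg g E st lv inp U f A B tw hA lc rfl

end Vale.Agent.P354YQ
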