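import Vale.Agent.P354MG.Chart
import Vale.Agent.P354XV.First

/-!
The pieces of the block OUT: exact statements.
-/

open scoped ContDiff
open Set Filter Topology

noncomputable section

namespace Vale.Agent.P354YQ

open Vale.Agent.P354n (R4)
open Vale.Agent.P354XG Vale.Agent.P354XD Vale.Agent.P354XR Vale.Agent.P354XI Vale.Agent.P354Z
open Vale.Agent.P354XE (Tw rd En Lo ur gin)
open Vale.Agent.P354YI (Jb Cg)
open Vale.Agent.P354YO (sh IsTh)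
open Vale.Agent.P354YA (nat W0 Ok2)
open Vale.Agent.P354XV (th0)

/-- The consequences of the decay of eta. -/
structure Cmp (c : Cs) (E : Est) (η : ℝ) : Prop where
  par : E.e0 + |E.M - c.M| + |E.a - c.a| ≤ η
  n1 : ∀ x ∈ E.O1, An x → ∀ i, q2 (lt (hp _) (E.p1 c)) x c.N0 (E.d1 c i) ≤
    (η * (1 + |x.1|) ^ (-(7 / 5) : ℝ)) ^ 2
  n2 : ∀ x ∈ E.O1, An x → Est.Fa c x → ∀ i,
    q2 (lt (hp _) (E.p2 c)) x c.N0 (E.d2 c i) ≤ (η * (1 + |x.1|) ^ (-(7 / 5) : ℝ)) ^ 2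

/-- DEC: decay of eta gives convergence. -/
def DEC : Prop := ∀ c : Cs, c.Ok → ∃ C ≥ 1, ∀ (E : Est) (L : ℕ) (η : ℝ), E.Is c → c.L0 ≤ L →
  η ≤ 1 → E.e0 ≤ η → E.Dec L (7 / 5) η → Cmp c E (C * η)

/-- THS: the chart for the final parameters. -/
def THS : Prop := ∀ (M a r1 ρ : ℝ) (N : ℕ), 0 < M → ∀ ε > 0, ∃ η > 0, ∀ M' a' A B,
  |M' - M| + |a' - a| ≤ η → IsTh M M a A B → ∃ A' B', IsTh M M' a' A' B' ∧
    ∀ r ∈ Icc r1 ρ, Jb N (A - A') r ε ∧ Jb N (B - B') r ε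

/-- FLAY: the form of Lo is that of Kerr near the points of the layer, also on the slice. -/
def FLAY : Prop := ∀ c : P354YT.Pm, Ok2 c → ∃ e0 > 0, ∀ κ θ θ1 m e gc, 3 ≤ m → e ≤ e0 →
  θ ≤ th0 c → 3 / 2 * θ1 ≤ th0 c → Cg c (nat c κ) 3 (W0 c) θ θ1 m e gc →
  ∀ p ∈ En c.M c.a c.r1 θ, c.psi p < 0 → c.R1 + 3 ≤ rd p →
    ur c.M c.a p ≤ -(c.R1 + 3) - P354YT.tb c.M c.a (c.R1 + 2) →
    ∀ᶠ x in 𝓝 p, ∀ v, gc x (Lo c.M c.a x) v = gin c.M c.a x (Lo c.M c.a x) v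

end Vale.Agent.P354YQ
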