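import Vale.Agent.P354YQ.Og4
import Vale.Agent.P354YA.Farx
import Vale.Agent.P354YO.Late
import Vale.Agent.P354LC.Flay

/-!
The block OUT.
-/

namespace Vale.Agent.P354YQ

theorem out_ok : P354Z.OUT P354MG.Lk P354YK.FT := out_of P354YA.farx P354YO.late P354LC.flay

end Vale.Agent.P354YQ
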