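import Vale.Agent.P354YQ.Vg

/-!
The gauge can be restored after a small perturbation of the metric.
-/

set_option maxSynthPendingDepth 3

open scoped ContDiff
open Set Filter Topology

noncomputable section

namespace Vale.Agent.P354YQ

open Vale.Agent.P354n (R4)
open Vale.Agent.P354R (Met Pull)
open Vale.Agent.P354RC (k2)
open Vale.Agent.P354XD (tb rp_tb)
open Vale.Agent.P354XE (Tw eT pb Bd)
open Vale.Agent.P354XV (Jet jet Lv Nice Gq jet_cd)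
open Vale.Agent.P354YI (GM Oj Os Jb af_of_pull fd_comp)

section gen
variable {J E V W : Type} [NormedAddCommGroup E] [NormedSpace ℝ E] [NormedAddCommGroup V]
  [NormedSpace ℝ V] [NormedAddCommGroup W] [NormedSpace ℝ W] {x : J → E} {μ : J → ℝ} {k : ℕ}
  {f : J → E → V}

theorem oj_foot {τ : J → E → ℝ} (e : E) (s : ℝ) (h : Oj (k + 1) x τ 1) :
    Oj k x (fun j => fderiv ℝ (pt e (τ j) s)) 1 :=
  (((Oj.idm (y := x) ⟨0, by simp⟩).sub (h.smull (.cst (s • e)))).congr'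
    (g := fun j y => pt e (τ j) s y - x j) fun j y => by
      simp only [pt, smul_smul, mul_comm, sub_right_comm]).fd.congr'
    fun _ _ => (fderiv_sub_const _).symm

theorem oj_cd {G : J → V → W} (s : ∀ j, ContDiffAt ℝ ∞ (f j) (x j))
    (s' : ∀ j, ContDiffAt ℝ ∞ (G j) (f j (x j))) (hf : Oj k x (fun j => fderiv ℝ (f j)) 1)
    (hG : Oj k (fun j => f j (x j)) (fun j => fderiv ℝ (G j)) μ) :
    Oj k x (fun j => fderiv ℝ fun y => G j (f j y)) μ :=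
  ((Oj.comp s k (hf.le (by omega)) hG).cl hf).congr fun j => fd_comp (s' j) (s j)

theorem oj_fp {g : J → E → W} (s : ∀ j, ContDiffAt ℝ ∞ (f j) (x j))
    (hf : Oj k x (fun j => fderiv ℝ (f j)) 1) (hg : Oj (k + 1) x g 1) :
    Oj k x (fun j => fderiv ℝ fun y => (f j y, g j y)) 1 :=
  (((oj_cen hf s).pair hg).congr' (g := fun j y => (f j y, g j y) - (f j (x j), 0))
    (by simp)).fd.congr' fun _ _ => (fderiv_sub_const _).symm

end gen

/-- **Regauging.** The maps b j are isometries from metrics g' j in the gauge to the metrics g j.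
For metrics g2 j close to g j and close initial values there are maps close to b j which pull
g2 j back to metrics in the gauge. -/
theorem rgq {J : Type} {k m : ℕ} {B ρ : ℝ} (hρ : 0 < ρ) {U Mg S : J → Set (R4 × Jet m × R4)}
    {F : J → R4 × Jet m × R4 → R4} {Ω D : J → Set R4} {π b : J → R4 → R4} {f τ t t' : J → R4 → ℝ}
    {g g' g2 : J → Tw} {x0 : J → R4 → R4 × R4} {μ : J → ℝ}
    (hN : ∀ j, (P354XV.Nat.mk m (U j) (Mg j) (F j)).Is ∧ S j ⊆ U j ∧ Lv (g j) (D j) ∧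
      Lv (g2 j) (D j) ∧ Pull (b j) (g' j) (Ω j) (g j) (D j))
    (hs : ∀ j, ContDiffOn ℝ ∞ (π j) (Ω j) ∧ ContDiffOn ℝ ∞ (f j) (Ω j) ∧
      ContDiffOn ℝ ∞ (τ j) (Ω j) ∧ ∀ z s, τ j (z + s • eT) = τ j z + s)
    (hΩ : ∀ j, ∀ z ∈ Ω j, (f j z ≠ 0 ∧ 0 < LinearMap.det (fderiv ℝ (b j) z : R4 →ₗ[ℝ] R4) ∧
        Gq ⟨m, U j, Mg j, F j⟩ (π j z) (g' j) (fun x => f j x • eT) z) ∧
      SA (x0 j) (pt eT (τ j) 1 z) ∧ (∀ s ∈ Icc (0 : ℝ) 1, pt eT (τ j) s z ∈ Ω j) ∧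
      Nice (k + 1) B (g' j) (t' j) z ∧ ‖fderiv ℝ (b j) z‖ ≤ B ∧
      (∀ y, ‖y - b j z‖ ≤ ρ → y ∈ D j) ∧ ∀ ξ w, ‖ξ - jet m (g j) (b j z)‖ ≤ ρ →
        ‖w - fderiv ℝ (b j) z (f j z • eT)‖ ≤ ρ → (π j z, ξ, w) ∈ S j)
    (hD : ∀ j, ∀ y ∈ D j, Nice (k + m + 3) B (g j) (t j) y ∧ Nice (k + m + 3) B (g2 j) (t j) y ∧
      Bd (k + m + 2) (g2 j - g j) y (μ j))
    (hF : Os (k + 2) S F 1) (hτ : Os (k + 1) Ω τ 1) (hπ : Os (k + 1) Ω (fun j => fderiv ℝ (π j)) 1)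
    (hf : Os (k + 1) Ω f 1) (hf' : Os (k + 2) Ω (fun j z => (f j z)⁻¹) 1)
    (h0 : Os (k + 1) Ω (fun j z => (fun x => (b j x, fderiv ℝ (b j) x (f j x • eT)))
      (pt eT (τ j) 1 z) - x0 j (pt eT (τ j) 1 z)) μ) :
    ∃ ε > 0, ∃ C, ∀ j, μ j ≤ ε → ∃ b2, Pull b2 (pb b2 (g2 j)) (Ω j) (g2 j) (D j) ∧ ∀ z ∈ Ω j,
      0 < LinearMap.det (fderiv ℝ b2 z : R4 →ₗ[ℝ] R4) ∧
      Gq ⟨m, U j, Mg j, F j⟩ (π j z) (pb b2 (g2 j)) (fun x => f j x • eT) z ∧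
      (τ j z = 0 → (b2 z, fderiv ℝ b2 z (f j z • eT)) = x0 j z) ∧
      Jb (k + 1) (fun y => b j y - b2 y) z (C * μ j) ∧ Bd k (pb b2 (g2 j) - g' j) z (C * μ j) := by
  have P := fun j => (hN j).2.2.2.2
  have L := fun j => (hN j).2.2.1
  have L2 := fun j => (hN j).2.2.2.1
  have M1 : ∀ {I : Type} (φ : I → J) {y : I → R4}, (∀ i, y i ∈ D (φ i)) →
      Mt (k + m + 3) y (fun i => g (φ i)) (fun i => D (φ i)) ∧
      Mt (k + m + 3) y (fun i => g2 (φ i)) (fun i => D (φ i)) ∧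
      Oj (k + m + 2) y (fun i y => tb (g (φ i)) y - tb (g2 (φ i)) y) fun i => μ (φ i) :=
    fun φ y h => by
      have a := Mt.of fun i => ⟨(L _).isOpen, (L _).met, h i, (hD _ _ (h i)).1⟩
      have c := Mt.of fun i => ⟨(L _).isOpen, (L2 _).met, h i, (hD _ _ (h i)).2.1⟩
      exact ⟨a, c, (a.le (by omega)).sub (c.le (by omega)) fun i => (hD _ _ (h i)).2.2⟩
  let Φ : J → R4 → R4 × R4 := fun j x => (b j x, fderiv ℝ (b j) x (f j x • eT))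
  have S0 := fun j z => rg_sol (z := z) (hN j).1 (L j) (P j) (hs j).2.1 fun z a => (hΩ j z a).1
  let I := {i : J × R4 // i.2 ∈ Ω i.1}
  have sb : ∀ j, ∀ z ∈ Ω j, ContDiffAt ℝ ∞ (b j) z := fun j z => P354RC.p_at (P j)
  have M' := Mt.of fun i : I => ⟨(P _).open', k2.1 _ _ _ _ _ (P _), i.2, (hΩ _ _ i.2).2.2.2.1⟩
  have Mb := (M1 (fun i : I => i.1.1) fun i => (P _).maps i.2).1
  have db : Os (k + 1) Ω (fun j => fderiv ℝ (b j)) 1 := Oj.af (fun i => af_of_pull (P _) i.2)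
    (.zero (fun i => P354YI.at_fd (sb _ _ i.2)) M'.bd.nn ⟨B, fun i => by
      simpa using (hΩ _ _ i.2).2.2.2.2.1⟩) k M'.gm (Mb.le (by omega)).gm
  have dw : Os (k + 1) Ω (fun j x => fderiv ℝ (b j) x (f j x • eT)) 1 :=
    db.apl (hf.smull (.cst eT))
  have dΦ : Os k Ω (fun j => fderiv ℝ (Φ j)) 1 := oj_fp (fun i => sb _ _ i.2) db.pred dw
  obtain ⟨K, K0, hK⟩ : ∃ K, 0 ≤ K ∧ ∀ j, ∀ z ∈ Ω j, ∀ v, ‖v‖ ≤ K * ‖fderiv ℝ (b j) z v‖ := by
    obtain ⟨a, a0, ha⟩ := M'.low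
    obtain ⟨c, c0, hc⟩ := Mb.bd.val
    refine ⟨a * (c * |B|), by positivity, fun j z i v => (ha ⟨(j, z), i⟩ v).trans ?_⟩
    rw [mul_assoc]
    refine mul_le_mul_of_nonneg_left (ContinuousLinearMap.opNorm_le_bound _ (by positivity)
      fun w => ?_) a0
    rw [← (rp_tb (P j).open' (M'.met ⟨(j, z), i⟩)).eq z i, (P j).eq z i,
      (rp_tb (L j).isOpen (L j).met).eq _ ((P j).maps i)]
    have h1 : ‖tb (g j) (b j z)‖ ≤ c := by simpa using hc ⟨(j, z), i⟩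
    have h2 := (fderiv ℝ (b j) z).le_of_opNorm_le ((hΩ j z i).2.2.2.2.1.trans (le_abs_self B)) w
    refine (ContinuousLinearMap.le_opNorm₂ _ _ _).trans ?_
    calc _ ≤ c * ‖fderiv ℝ (b j) z v‖ * (|B| * ‖w‖) := by gcongr
      _ = _ := by ring
  have MD := M1 (fun i : {i : J × R4 // i.2 ∈ D i.1} => i.1.1) fun i => i.2
  obtain ⟨a, a0, ha⟩ := (oj_jt (k := 1) (m := m) (MD.1.bd.le (by omega))).fd.val
  obtain ⟨c, c0, hc⟩ := (Mt.jet_sub (k := 0) (m := m) (MD.1.le (by omega)) (MD.2.1.le (by omega))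
    (MD.2.2.le (by omega))).val
  obtain ⟨u, u0, hu⟩ := dw.val
  let r := ρ / (2 * (a + 1))
  let ε := min 1 (ρ / (2 * (c + 1)))
  have r0 : 0 < r := by positivity
  have r1 : a * r + r = ρ / 2 := by
    simp only [r]
    field_simp
  have r2 : r ≤ ρ := by nlinarith
  have tD : ∀ j, ∀ q ∈ Tb (Ω j) (Φ j) r, q.2.1 ∈ D j := fun j q i =>
    (hΩ j _ i.1).2.2.2.2.2.1 _ (((norm_fst_le _).trans i.2).trans r2)
  have tS : ∀ j, μ j ≤ ε → ∀ q ∈ Tb (Ω j) (Φ j) r, segment ℝ (π j q.1, jet m (g j) q.2.1, q.2.2)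
      (π j q.1, jet m (g2 j) q.2.1, q.2.2) ⊆ S j := fun j e q i => by
    have d := fun y (a : y ∈ Metric.closedBall (b j q.1) ρ) =>
      (hΩ j _ i.1).2.2.2.2.2.1 y (mem_closedBall_iff_norm.1 a)
    have n1 : ‖q.2.1 - b j q.1‖ ≤ r := (norm_fst_le _).trans i.2
    have h1 := (convex_closedBall _ _).norm_image_sub_le_of_norm_fderiv_le (𝕜 := ℝ) (C := a)
      (fun y a => ((jet_cd m (L j).isOpen (L j).met).contDiffAt
        ((L j).isOpen.mem_nhds (d y a))).differentiableAt (by simp))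
      (fun y i => by simpa using ha ⟨(j, y), d y i⟩) (Metric.mem_closedBall_self hρ.le)
      (mem_closedBall_iff_norm.2 (n1.trans r2))
    have h2 : ‖jet m (g j) q.2.1 - jet m (g2 j) q.2.1‖ ≤ c * μ j := hc ⟨(j, _), tD j q i⟩
    have h3 := (le_div_iff₀ (by positivity)).1 (e.trans (min_le_right _ _))
    have h4 : 0 ≤ μ j := h0.nn ⟨(j, _), i.1⟩
    have h5 := mul_le_mul_of_nonneg_left n1 a0
    rw [← Prod.image_mk_segment_right, ← Prod.image_mk_segment_left]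
    rintro _ ⟨_, ⟨ξ, p, rfl⟩, rfl⟩
    refine (hΩ j _ i.1).2.2.2.2.2.2 _ _ (mem_closedBall_iff_norm.1
      ((convex_closedBall _ _).segment_subset (mem_closedBall_iff_norm.2 (by linarith))
        (mem_closedBall_iff_norm.2 ?_) p)) (((norm_snd_le _).trans i.2).trans r2)
    rw [← sub_sub_sub_cancel_left _ _ (jet m (g j) q.2.1)]
    exact (norm_sub_le_of_le h1 h2).trans (by nlinarith)
  let J1 := {j // μ j ≤ ε}
  let T := {i : J1 × R4 × R4 × R4 // i.2 ∈ Tb (Ω i.1) (Φ i.1) r}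
  have MT := M1 (fun i : T => i.1.1.1) fun i => tD _ _ i.2
  have sπ := fun i : T => (hs _).1.contDiffAt ((P _).open'.mem_nhds i.2.1)
  have hw : ∃ C, ∀ i : T, ‖i.1.2.2.2‖ ≤ C := ⟨r + u, fun i => by
    rw [← sub_add_cancel i.1.2.2.2 (Φ i.1.1 i.1.2.1).2]
    exact norm_add_le_of_le ((norm_snd_le _).trans i.2.2) ((hu ⟨(_, _), i.2.1⟩).trans_eq (mul_one _))⟩
  have sτ := fun j z => SA.of_on (z := z) (hs j).2.2.1 (P j).open'
  have ft := fun j z i => (hΩ j z i).2.2.1 1 ⟨zero_le_one, le_rfl⟩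
  obtain ⟨ε2, e2, Ψ, hΨ, cl⟩ := oj_ex (J := J1) (k := k) (e := eT) (τ := fun j => τ j)
    (v := fun j => vg ⟨m, U j, Mg j, F j⟩ (π j) (f j) (g j))
    (v' := fun j => vg ⟨m, U j, Mg j, F j⟩ (π j) (f j) (g2 j)) (Φ := fun j => Φ j)
    (μ := fun j => μ j) (Ω := fun j => Ω j) (x0 := fun j => x0 j) r0
    (U := fun j => Ug ⟨m, U j, Mg j, F j⟩ (π j) (Ω j) (g j) (D j) ∩
      Ug ⟨m, U j, Mg j, F j⟩ (π j) (Ω j) (g2 j) (D j))
    (fun j => ⟨(ug_open (hN j).1 (P j).open' (hs j).1 (L j).isOpen (L j).met).inter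
        (ug_open (hN j).1 (P j).open' (hs j).1 (L j).isOpen (L2 j).met),
      (vg_cd (hN j).1 (P j).open' (hs j).1 (hs j).2.1 (fun z i => (hΩ j z i).1.1) (L j).isOpen
        (L j).met).mono inter_subset_left,
      (vg_cd (hN j).1 (P j).open' (hs j).1 (hs j).2.1 (fun z i => (hΩ j z i).1.1) (L j).isOpen
        (L2 j).met).mono inter_subset_right, (P j).open', fun q i =>
      ⟨⟨i.1, tD _ q i, (hN j).2.1 (tS _ j.2 q i (left_mem_segment _ _ _))⟩,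
        i.1, tD _ q i, (hN j).2.1 (tS _ j.2 q i (right_mem_segment _ _ _))⟩, (hs j).2.2.2⟩)
    (fun j z i => ⟨sτ j z i, (S0 j z i).1, (hΩ j z i).2.1, (hΩ j z i).2.2.1⟩)
    (hτ.at _ fun i => i.2)
    (oj_vg sπ (hπ.at _ fun i => i.2.1) (hf'.at _ fun i => i.2.1) hw (MT.1.le (by omega))
      (hF.at _ fun i => tS _ i.1.1.2 _ i.2 (left_mem_segment _ _ _)))
    (oj_vg_sub sπ (hπ.at _ fun i => i.2.1).pred (hf'.at _ fun i => i.2.1).pred hw
      (MT.1.le (by omega)) (MT.2.1.le (by omega)) MT.2.2 (fun i => tS _ i.1.1.2 _ i.2)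
      (hF.at (fun i : {i : T × _ // i.2 ∈ S i.1.1.1.1} => i.1.1.1.1.1) fun i => i.2))
    (oj_cd (fun i => (sa_foot (sτ _ _ i.2)).at) (fun i => (S0 _ _ (ft _ _ i.2)).1.sm.at)
      (oj_foot eT 1 (hτ.at _ fun i => i.2)) (dΦ.at _ fun i => ft _ _ i.2))
    (h0.at _ fun i => i.2)
  let I2 := {i : {j : J1 // μ j ≤ ε2} × R4 // i.2 ∈ Ω i.1}
  have c1 : Oj (k + 1) (fun i : I2 => i.1.2) (fun i y => b i.1.1 y - (Ψ i.1.1 y).1)
    fun i => μ i.1.1 := cl.clm (.fst ℝ _ _)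
  have s2 := fun (j : J1) e z i => (hΨ j e z i).1.sm.clm (.fst ℝ R4 R4)
  have d1 := db.pred.ix fun i : I2 => ⟨(i.1.1, i.1.2), i.2⟩
  have e1 : ∀ i : I2, (fderiv ℝ fun y => b i.1.1 y - (Ψ i.1.1 y).1) =ᶠ[𝓝 i.1.2] fun y =>
      fderiv ℝ (b i.1.1) y - fderiv ℝ (fun y => (Ψ i.1.1 y).1) y := fun i =>
    ((P _).open'.eventually_mem i.2).mono fun y a => fderiv_fun_sub
      ((sb _ _ a).differentiableAt (by simp)) (s2 _ i.1.1.2 y a).diff
  have d2 : Oj k (fun i : I2 => i.1.2) (fun i => fderiv ℝ fun y => (Ψ i.1.1 y).1) 1 :=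
    (d1.sub (c1.fd.mono le_rfl fun i => i.1.1.1.2.trans (min_le_left _ _))).congr fun i =>
      (e1 i).mono fun y a => by simp only [a, sub_sub_cancel]
  have mD := fun (j : J1) e z i => tD _ _ (hΨ j e z i).2.1
  obtain ⟨C1, C10, hC1⟩ := c1.bd
  obtain ⟨C2, C20, hC2⟩ := ((Oj.pb_lip (S := fun i : I2 => D i.1.1) (h := fun i => tb (g i.1.1))
    (fun i => sb _ _ i.2)
    (fun i => (s2 _ i.1.1.2 _ i.2).at) (fun i y a => (hΩ _ _ i.2).2.2.2.2.2.1 _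
      (mem_closedBall_iff_norm.1 ((convex_closedBall _ _).segment_subset
        (Metric.mem_closedBall_self hρ.le) (mem_closedBall_iff_norm.2 (((norm_fst_le _).trans
          (hΨ _ i.1.1.2 _ i.2).2.1.2).trans r2)) a))) d1 d2 c1
    ((M1 (fun i : {i : I2 × R4 // i.2 ∈ D i.1.1.1} => i.1.1.1.1.1.1) fun i => i.2).1.bd.le
      (m' := k + 1) (by omega))).add (Oj.pb (fun i => (s2 _ i.1.1.2 _ i.2).at) d2
    ((M1 (fun i : I2 => i.1.1.1.1) fun i => mD _ i.1.1.2 _ i.2).2.2.le (by omega)))).neg.bd'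
    (g := fun i => pb (fun y => (Ψ i.1.1 y).1) (g2 i.1.1) - g' i.1.1) fun i =>
      ((P _).open'.eventually_mem i.2).mono fun y a v w => by
        simp [pb, P354RC.pb_ap, (P _).eq y a, (rp_tb (L _).isOpen (L _).met).eq _ ((P _).maps a),
          (rp_tb (L _).isOpen (L2 _).met).eq _ (mD _ i.1.1.2 y a)]
  refine ⟨min (min ε ε2) (1 / (K * C1 + 1)), by positivity, C1 + C2, fun j e => ?_⟩
  let j1 : J1 := ⟨j, e.trans ((min_le_left _ _).trans (min_le_left _ _))⟩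
  have e3 : μ j1 ≤ ε2 := e.trans ((min_le_left _ _).trans (min_le_right _ _))
  have e4 := (le_div_iff₀ (by positivity)).1 (e.trans (min_le_right _ _))
  have dt : ∀ z ∈ Ω j, 0 < LinearMap.det (fderiv ℝ (fun y => (Ψ j1 y).1) z : R4 →ₗ[ℝ] R4) :=
    fun z i => by
      have h1 := (hC1 ⟨(⟨j1, e3⟩, z), i⟩).fd.zero
      rw [(e1 ⟨(⟨j1, e3⟩, z), i⟩).eq_of_nhds] at h1
      have h2 := mul_le_mul_of_nonneg_left h1 K0
      have h4 : 0 ≤ μ j := h0.nn ⟨(j, _), i⟩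
      refine det_near K0 (hK j z i) (h2.trans_lt ?_) (hΩ j z i).1.2.1
      rcases h4.eq_or_lt with p | p
      · simp [j1, ← p]
      · simp only [j1]
        nlinarith
  have P2 := pull_of (P j).open' (L j).isOpen (L2 j).met fun z i =>
    ⟨s2 j1 e3 z i, mD j1 e3 z i, (dt z i).ne'⟩
  refine ⟨_, P2, fun z i => ?_⟩
  have sf := (SA.of_on (hs j).2.1 (P j).open' i).diff
  have h4 : 0 ≤ μ j := h0.nn ⟨(j, _), i⟩
  refine ⟨dt z i, rg_gq (hN j).1 (L2 j) P2 i (dt z i) sf (hΩ j z i).1.1 (hΨ j1 e3 z i).1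
    ((hN j).2.1 (tS j j1.2 _ (hΨ j1 e3 z i).2.1 (right_mem_segment _ _ _))), fun a => ?_,
    (hC1 ⟨(⟨j1, e3⟩, z), i⟩).mono le_rfl (by simp only [j1]; nlinarith), fun n hn v w =>
      (hC2 ⟨(⟨j1, e3⟩, z), i⟩ n hn v w).trans (mul_le_mul_of_nonneg_right
        (by simp only [j1]; nlinarith) (by positivity))⟩
  rw [← (hΨ j1 e3 z i).2.2 a]
  exact Prod.ext rfl ((hΨ j1 e3 z i).1.vel
    (sf.continuousAt.eventually_ne (hΩ j z i).1.1)).eq_of_nhds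

end Vale.Agent.P354YQ
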